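import Vale.Agent.P022G.Sel.Defs

/-!
# P022G, the lower bound at a curve (statements of the steps)
-/

set_option linter.all false

noncomputable section

namespace P022G.Lb90

open NumberField
open Vale.Agent.P022
open Vale.Agent.P027M.S (Inert)
open Vale.Agent.P022D.Sel (M2 IsDec Ginf)
open Vale.Agent.P022E.GW (Ov Op Ur Cb Z2 Lc Bg)
open P022G.Sel

/-- the reduction is diagonal on `H` and antidiagonal outside -/
def Shp {A : Type} [CommRing A] (t : A) (ρ : GQ →* GL (Fin 2) A) : Prop :=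
  ∃ H : Subgroup GQ, (∀ g ∈ H, t ∣ mr ρ g 0 1 ∧ t ∣ mr ρ g 1 0) ∧
    ∀ g ∉ H, t ∣ mr ρ g 0 0 ∧ t ∣ mr ρ g 1 1

/-- **the lower bound** at a curve with a split or induced reduction -/
def LBA2 : Prop := ∀ (A : Type) [CommRing A] [IsDomain A] [IsDiscreteValuationRing A] [CharP A 2]
  (t : A) (ρ : GQ →* GL (Fin 2) A) (T : Finset ℕ) (D : ℕ → Set GQ), Irreducible t →
  Finite (A ⧸ tI t 1) → Nice t ρ T D → Shp t ρ →
  ∃ (T₀ : Finset ℕ) (D₀ : ℕ → Set GQ), T ⊆ T₀ ∧ (∀ l ∈ T, D₀ l = D l) ∧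
    (∀ l ∈ T₀, IsDec l (D₀ l)) ∧
    ∀ (T₁ : Finset ℕ) (D₁ : ℕ → Set GQ), T₀ ⊆ T₁ → (∀ l ∈ T₀, D₁ l = D₀ l) →
      (∀ l ∈ T₁, IsDec l (D₁ l)) → ∃ C : ℕ, ∀ N : ℕ,
        Nat.card (FxR (rd (tI t N) ρ) T₁ D₁) * Nat.card (A ⧸ tI t N) ^ 3 ≤
          C * Nat.card (H1R (rd (tI t N) ρ) T₁)

section

variable {F : Type} [Field F]

/-- the residual data -/
structure Res (rb : GQ →* GL (Fin 2) F) (H : Subgroup GQ) (T : Finset ℕ) (D : ℕ → Set GQ) :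
    Prop where
  lv : Lv rb T D
  det : ∀ g, (mr rb g).det = 1
  dg : ∀ g ∈ H, mr rb g 0 1 = 0 ∧ mr rb g 1 0 = 0
  ad : ∀ g ∉ H, mr rb g 0 0 = 0 ∧ mr rb g 1 1 = 0
  bg : Bg rb.ker T
  reg : ∃ g, (mr rb g).trace ≠ 0

/-- a two cocycle of `ad rb` which is open and unramified outside `T` -/
structure Oc (rb : GQ →* GL (Fin 2) F) (T : Finset ℕ) (o : GQ → GQ → M2 F) : Prop where
  coc : ∀ g h k, mr rb g * o h k * mr rb g⁻¹ + o g (h * k) = o (g * h) k + o g h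
  opn : ∃ U : Subgroup GQ, IsOpen (U : Set GQ) ∧ U.Normal ∧
    ∀ σ ∈ U, rb σ = 1 ∧ ∀ g, o g σ = 0 ∧ o σ g = 0
  unr : ∀ l ∉ T, ∀ P : Ideal (𝓞 Qb), Ov l P → ∀ i, Inert P i → ∀ g, o g i = 0 ∧ o i g = 0

/-- all pairings with local invariants at `l` split -/
def At (rb : GQ →* GL (Fin 2) F) (D : ℕ → Set GQ) (o : GQ → GQ → M2 F) (l : ℕ) : Prop :=
  ∀ E : Subgroup GQ, (E : Set GQ) = D l → ∀ x : M2 F,
    (∀ g ∈ D l, mr rb g * x * mr rb g⁻¹ = x) → Cb E (fun g h => (x * o g h).trace)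

end

/-- local duality -/
def LOC : Prop := ∀ (F : Type) [Field F] [Finite F] [CharP F 2] (rb : GQ →* GL (Fin 2) F)
  (H : Subgroup GQ) (T : Finset ℕ) (D : ℕ → Set GQ) (o : GQ → GQ → M2 F), Res rb H T D →
  Oc rb T o → (∀ l ∈ T, At rb D o l) → ∀ i j, Lc rb.ker (fun g h => o g h i j)

/-- a locally trivial class is the boundary of an unramified cochain -/
def LIFT : Prop := ∀ (F : Type) [Field F] [Finite F] [CharP F 2] (rb : GQ →* GL (Fin 2) F)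
  (H : Subgroup GQ) (T : Finset ℕ) (D : ℕ → Set GQ) (o : GQ → GQ → M2 F), Res rb H T D →
  Oc rb T o → (∀ i j, Lc rb.ker (fun g h => o g h i j)) →
  ∃ w : GQ → M2 F, (∀ g h, w (g * h) = w g + mr rb g * w h * mr rb g⁻¹ + o g h) ∧ Op w ∧ Ur T w

/-- one odd prime is free -/
def ONE0 : Prop := ∀ (F : Type) [Field F] [Finite F] [CharP F 2] (z : GQ → GQ → F) (l₀ : ℕ),
  l₀.Prime → l₀ ≠ 2 → Z2 ⊤ z →
  (∀ l, l ≠ l₀ → ∀ E : Subgroup GQ, IsDec l (E : Set GQ) → Cb E z) →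
  ∀ E : Subgroup GQ, IsDec l₀ (E : Set GQ) → Cb E z

/-- the local invariant -/
def INV : Prop := ∀ (F : Type) [Field F] [Finite F] [CharP F 2] (l : ℕ) (E : Subgroup GQ),
  IsDec l (E : Set GQ) → ∃ inv : (GQ → GQ → F) →ₗ[F] F,
    (∀ z, Cb E z → inv z = 0) ∧ ∀ z, Z2 E z → inv z = 0 → Cb E z

/-- the residual count -/
def BASE : Prop := ∀ (F : Type) [Field F] [Finite F] [CharP F 2] (rb : GQ →* GL (Fin 2) F)
  (H : Subgroup GQ) (T : Finset ℕ) (D : ℕ → Set GQ), Res rb H T D → (H1R rb T).Finite →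
  Nat.card (FxR rb T D) * Nat.card F ^ 2 ≤ Nat.card (H1R rb T) ∧
    (H ≠ ⊤ → Nat.card (FxR rb T D) * Nat.card F ^ 3 ≤ Nat.card (H1R rb T))

/-- a prime whose local invariants have small trace -/
def AUX0 : Prop := ∀ (A : Type) [CommRing A] [IsDomain A] [IsDiscreteValuationRing A] [CharP A 2]
  (t : A) (ρ : GQ →* GL (Fin 2) A) (T : Finset ℕ) (D : ℕ → Set GQ), Irreducible t →
  Finite (A ⧸ tI t 1) → Nice t ρ T D → (∀ g, t ∣ mr ρ g 0 1 ∧ t ∣ mr ρ g 1 0) →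
  ∃ (l₀ : ℕ) (D₀ : Set GQ) (e : ℕ), l₀.Prime ∧ l₀ ∉ T ∧ IsDec l₀ D₀ ∧
    (∀ g ∈ D₀, rd (tI t 1) ρ g = 1) ∧ ∀ X : M2 A,
      (∀ g ∈ D₀, ∀ i j, t ^ e ∣ (mr ρ g * X - X * mr ρ g) i j) → t ∣ X.trace

/-- the gain in the split case -/
def GAIN : Prop := ∀ (F : Type) [Field F] [Finite F] [CharP F 2] (rb : GQ →* GL (Fin 2) F)
  (T : Finset ℕ) (D : ℕ → Set GQ) (o : GQ → GQ → M2 F) (l₀ : ℕ), Res rb ⊤ T D → Oc rb T o →
  l₀ ∈ T → l₀.Prime → l₀ ≠ 2 → (∀ l ∈ T, l ≠ l₀ → At rb D o l) →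
  (∀ E : Subgroup GQ, (E : Set GQ) = D l₀ → ∀ x : M2 F, x.trace = 0 →
    (∀ g ∈ D l₀, mr rb g * x * mr rb g⁻¹ = x) → Cb E (fun g h => (x * o g h).trace)) →
  At rb D o l₀

/-- a small extension: `ι` identifies `F` with the kernel of `π`, `j` identifies `R` with the
kernel of `red` -/
structure Sm {R' R F : Type} [CommRing R'] [CommRing R] [Field F] (π : R' →+* R) (red : R' →+* F)
    (ι : F →+ R') (j : R →+ R') : Prop where
  two : (2 : R') = 0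
  πs : Function.Surjective π
  rs : Function.Surjective red
  ιi : Function.Injective ι
  ιk : ∀ x, π x = 0 ↔ ∃ a, ι a = x
  ιm : ∀ r a, r * ι a = ι (red r * a)
  ji : Function.Injective j
  jk : ∀ x, red x = 0 → ∃ a, j a = x
  jm : ∀ r s, r * j (π s) = j (π (r * s))

/-- base change -/
abbrev bc {R S : Type} [CommRing R] [CommRing S] (f : R →+* S) (ρ : GQ →* GL (Fin 2) R) :
    GQ →* GL (Fin 2) S := (Matrix.GeneralLinearGroup.map f).comp ρ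

/-- one step of the devissage -/
def STEP : Prop := ∀ (R' R F : Type) [CommRing R'] [CommRing R] [Field F] [Finite R'] [Finite F]
  [CharP F 2] (π : R' →+* R) (red : R' →+* F) (ι : F →+ R') (j : R →+ R')
  (ρ : GQ →* GL (Fin 2) R') (H : Subgroup GQ) (T : Finset ℕ) (D : ℕ → Set GQ),
  Sm π red ι j → Lv ρ T D → Res (bc red ρ) H T D →
  (H = ⊤ → ∃ l₀ ∈ T, l₀.Prime ∧ l₀ ≠ 2 ∧ (∀ g ∈ D l₀, bc red ρ g = 1) ∧ ∀ X : M2 R',
    (∀ g ∈ D l₀, mr ρ g * X * mr ρ g⁻¹ = X) → red X.trace = 0) →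
  Nat.card (FxR ρ T D) * Nat.card F ^ 3 * Nat.card (H1R (bc π ρ) T) ≤
    Nat.card (FxR (bc π ρ) T D) * Nat.card (H1R ρ T)

end P022G.Lb90
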