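import Vale.Agent.P022G.Lb90.Inv
import Vale.Agent.P022E.GW.OneC
import Vale.Agent.P022E.GW.UnrC
import Vale.Agent.P022E.GW.LbLoc
import Vale.Agent.P022E.GW.TauG
import Vale.Agent.P022E.GW.RecA

/-!
# P022G, block Lb90: one odd prime is free
-/

set_option linter.all false

noncomputable section

namespace P022G.Lb90

open NumberField
open Vale.Agent.P022
open Vale.Agent.P027M.S (Inert)
open Vale.Agent.P022D.Sel (IsDec)
open Vale.Agent.P022D.L2c (Hm Cob IsZ2 cup up)
open Vale.Agent.P022D.W (dec exists_phi inP_le_dec)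
open Vale.Agent.P022E.GW
open Inv
open scoped Pointwise

/-- **row ONE0** -/
theorem one0C : ONE0 := by
  intro F _ _ _ z l hl h2 hz hc E hE
  obtain ⟨P, hP, rfl⟩ := of_dec hl.ne_zero hE
  haveI := cpt P
  obtain ⟨φ, hφ⟩ := exists_phi hl hP.2.1 hP.2.2
  obtain ⟨τ, hτ⟩ := Tg.ex_gn' hP
  obtain ⟨δ, V, hV, d1, d2, d3, d4⟩ := Unr.deg hl hP.2.1 hP.2.2 hφ (N := 2) two_ne_zero
  have hδ : Ch (dec P) δ := ⟨Unr.lc_of (dec P) V hV _ (fun g k => d1 _ g.2 _ k.2)
    fun v hv => d4 _ hv v.2, fun g k => d1 _ g.2 _ k.2⟩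
  obtain ⟨b, hb, n⟩ := ((lcl hP).top.1 _ hδ fun e => by
    have := congrFun e ⟨φ, Vale.Agent.P022D.W.phi_mem hl hP.2.1 hφ⟩
    rw [d2] at this
    exact one_ne_zero this).1
  obtain ⟨a, ha⟩ := Gy.line (F := F) (lcl hP) hδ hb n (y := rs (dec P) z) (Gy.z2_le le_top hz)
  have eb : (fun x : dec P => Rc.ext0 b x) = b := funext fun x => Rc.ext0_of b x.2
  have hβ : Ch (dec P) (Rc.ext0 b) := by
    unfold Ch
    rwa [eb]
  have key := oneC F ⊤ z Unit (fun _ => l) (fun _ => P) (fun _ => τ) (fun _ => φ)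
    (fun _ g => up F (δ g)) (fun _ g => a * up F (Rc.ext0 b g)) isOpen_univ hz
    (fun _ => ⟨hP, h2, hτ, hφ, le_top⟩) (fun _ _ _ _ _ => rfl)
    (fun _ => ⟨Gy.ue_hm hδ, Submodule.smul_mem _ a (Gy.ue_hm (F := F) hβ),
      fun g hg => by rw [d3 g hg, map_zero], by rw [d2, map_one], by
        unfold Cb
        convert ha using 1
        funext x y
        simp only [rs, cup, Gy.ue, Pi.sub_apply, Pi.smul_apply, smul_eq_mul, Rc.ext0_of b y.2]
        ring⟩)
    (fun D hD => by rw [top_inf_eq]; exact hc 0 hl.ne_zero.symm D hD)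
    (fun p P' hP' hn => by
      rw [top_inf_eq]
      refine hc p (fun e => ?_) _ (is_dec hP')
      subst e
      obtain ⟨t, rfl⟩ := Tg.trans hP hP'
      exact hn () t trivial fun x => Ideal.smul_mem_pointwise_smul_iff.symm)
  rw [Fintype.sum_unique] at key
  rcases Kc.z2 (Rc.ext0 b τ) with k | k
  · exfalso
    obtain ⟨U, hU, -, h0⟩ := Rc.near hb.1
    have b1 : b 1 = 0 := by
      have := hb.2 1 1
      rw [mul_one] at this
      exact left_eq_add.1 this
    have := Lb.cb_unr unrC (H := ⊤) isOpen_univ hP (Lb.ch_le inf_le_right hδ)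
      (Lb.ch_le inf_le_right hβ) (fun i _ hi => d3 i hi) fun i _ hi => by
        rw [Tg.mult hP h2 hτ (a := Rc.ext0 b)
          (fun s hs t ht => Lb.Ch.ad hβ (inP_le_dec hs) (inP_le_dec ht))
          ⟨U, hU, fun σ hσ hi => by
            rw [Rc.ext0_of b (inP_le_dec hi), h0 _ hσ, b1]⟩ hi, k, mul_zero]
    rw [top_inf_eq] at this
    refine n ?_
    rw [← eb]
    exact this
  · rw [k, map_one, mul_one] at key
    rwa [key, zero_smul, sub_zero] at ha

end P022G.Lb90
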