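import Vale.Agent.P022G.Lb90.Defs
import Vale.Agent.P022G.Sel.Smt

/-! P022G, block Lb90, row AUX0. -/

set_option linter.all false

noncomputable section

namespace P022G.Lb90.H96

open NumberField
open Vale.Agent.P022
open Vale.Agent.P022D.Sel (M2)
open Vale.Agent.P022D.W (dec dec_gen phi_mem)
open P022G.Sel P022G.Sel.Bas P022G.Sel.H96

theorem aux0C : AUX0 := by
  intro A _ _ _ _ t ρ T D ht _ h hd
  obtain ⟨l, hl, -, P, φ, e, hP, hφ, hs⟩ := smt ht h (fun g => Or.inl (hd g)) T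
  have h2 : (2 : A) = 0 := CharTwo.two_eq_zero
  have r1 : rd (tI t 1) ρ φ = 1 := by
    have a1 : t ∣ mr ρ φ 0 0 + mr ρ φ 1 1 := by
      rw [← Matrix.trace_fin_two]
      exact (dvd_pow_self t e.succ_ne_zero).trans hs.1
    have a2 := h.det φ
    rw [Matrix.det_fin_two] at a2
    have a3 : t ∣ mr ρ φ 0 0 - 1 := by
      refine ht.prime.dvd_of_dvd_pow (n := 2) ?_
      have : (mr ρ φ 0 0 - 1) ^ 2 = mr ρ φ 0 0 * (mr ρ φ 0 0 + mr ρ φ 1 1) -
          mr ρ φ 0 1 * mr ρ φ 1 0 := by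
        linear_combination (-1 : A) * a2 - (mr ρ φ 0 0) * h2
      rw [this]
      exact dvd_sub (a1.mul_left _) ((hd φ).1.mul_right _)
    have a4 : t ∣ mr ρ φ 1 1 - 1 := by
      have : mr ρ φ 1 1 - 1 = mr ρ φ 0 0 + mr ρ φ 1 1 - (mr ρ φ 0 0 - 1) := by
        linear_combination (-1 : A) * h2
      rw [this]
      exact dvd_sub a1 a3
    refine Units.ext ?_
    change (mr ρ φ).map (Ideal.Quotient.mk (tI t 1)) = 1
    ext i j
    fin_cases i <;> fin_cases j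
    · change Ideal.Quotient.mk (tI t 1) (mr ρ φ 0 0) = 1
      rw [← sub_eq_zero, ← map_one (Ideal.Quotient.mk (tI t 1)), ← map_sub, mk0, pow_one]
      exact a3
    · change Ideal.Quotient.mk (tI t 1) (mr ρ φ 0 1) = 0
      rw [mk0, pow_one]; exact (hd φ).1
    · change Ideal.Quotient.mk (tI t 1) (mr ρ φ 1 0) = 0
      rw [mk0, pow_one]; exact (hd φ).2
    · change Ideal.Quotient.mk (tI t 1) (mr ρ φ 1 1) = 1
      rw [← sub_eq_zero, ← map_one (Ideal.Quotient.mk (tI t 1)), ← map_sub, mk0, pow_one]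
      exact a4
  refine ⟨l, (dec P : Set GQ), e + 1, hP.1, hl, Or.inr ⟨hP.1, P, hP.2.1, hP.2.2, rfl⟩,
    fun g hg => ?_, fun X hX => ?_⟩
  · obtain ⟨k, s, u, hs', hu, rfl⟩ := dec_gen hP.1 hP.2.1 hP.2.2 hφ hg (rd (tI t 1) ρ).ker
      (h.lv 1).opn
    rw [map_mul, map_mul, map_pow, r1, one_pow, mul_one, MonoidHom.mem_ker.1 hu, one_mul]
    exact (h.lv 1).unr l hl P hP s hs'
  · exact hs.dvd ht (Nat.lt_succ_self e) (hX φ (phi_mem hP.1 hP.2.1 hφ))

end P022G.Lb90.H96
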