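import Vale.Agent.P022G.Sel.Bas
import Vale.Agent.P022G.Sel.Finr
import Vale.Agent.P022E.GW.ChrC
import Vale.Agent.P022D.Sel.Pl
import Vale.Agent.P022D.Sel.Open

/-!
# P022G, lower bound: the residual count
-/

set_option linter.all false

noncomputable section

namespace P022G.Lb90.Base

open NumberField
open Vale.Agent.P022
open Vale.Agent.P027M.S (Inert)
open Vale.Agent.P022D.Sel (M2 opn_core)
open Vale.Agent.P022E.GW (Ov Op Ur Zt Ft chrC)
open P022G.Sel P022G.Sel.Bas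
open scoped Pointwise

theorem inert_cj {P : Ideal (𝓞 Qb)} {i : GQ} (h : Inert P i) (k : GQ) :
    Inert (k • P) (k * i * k⁻¹) := fun x => by
  rw [Vale.Agent.P022D.Sel.Pl.mem_smul, smul_sub, ← mul_smul,
    show k⁻¹ * (k * i * k⁻¹) = i * k⁻¹ by group, mul_smul]
  exact h _

theorem ov_smul {l : ℕ} {P : Ideal (𝓞 Qb)} (h : Ov l P) (k : GQ) : Ov l (k • P) :=
  ⟨h.1, Vale.Agent.P022D.Sel.Pl.prime_smul k h.2.1, by
    rw [Vale.Agent.P022D.Sel.Pl.mem_smul, Vale.Agent.P022D.Sel.Pl.smul_nat]; exact h.2.2⟩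

variable {F : Type} [Field F] {ρ : GQ →* GL (Fin 2) F} {T : Finset ℕ} {D : ℕ → Set GQ}
  {H : Subgroup GQ}

theorem card_le [Finite F] {V W : Type} [AddCommGroup V] [AddCommGroup W] [Module F V]
    [Module F W] [Finite W] (k : ℕ) (h : Module.rank F V + k ≤ Module.rank F W) :
    Finite V ∧ Nat.card V * Nat.card F ^ k ≤ Nat.card W := by
  have h1 : Module.Finite F W := Module.Finite.of_finite
  have h2 : Module.Finite F V := Module.rank_lt_aleph0_iff.1
    ((self_le_add_right _ _).trans_lt (h.trans_lt (Module.rank_lt_aleph0 F W)))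
  refine ⟨Module.finite_of_finite F, ?_⟩
  rw [← Module.finrank_eq_rank, ← Module.finrank_eq_rank] at h
  rw [Module.natCard_eq_pow_finrank (K := F) (V := V), Module.natCard_eq_pow_finrank (K := F) (V := W),
    ← pow_add]
  exact Nat.pow_le_pow_right Nat.card_pos (by exact_mod_cast h)

variable (ρ) in
/-- conjugation -/
def cj (x : GQ) (X : M2 F) : M2 F := mr ρ x * X * mr ρ x⁻¹

theorem cj_mul (x y : GQ) (X : M2 F) : cj ρ (x * y) X = cj ρ x (cj ρ y X) := by
  simp only [cj, mul_inv_rev, mm, mul_assoc]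

theorem cj_one (X : M2 F) : cj ρ 1 X = X := by simp only [cj, inv_one, m1, one_mul, mul_one]

theorem cj_add (x : GQ) (X Y : M2 F) : cj ρ x (X + Y) = cj ρ x X + cj ρ x Y := by
  simp only [cj, mul_add, add_mul]

theorem cj_sub (x : GQ) (X Y : M2 F) : cj ρ x (X - Y) = cj ρ x X - cj ρ x Y := by
  simp only [cj, mul_sub, sub_mul]

variable (ρ) in
/-- the characters of the entries -/
def th (i j : Fin 2) (g : GQ) : F := mr ρ g i i * mr ρ g⁻¹ j j

variable (ρ H) in
/-- diagonal on `H` -/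
def Dg : Prop := ∀ g ∈ H, mr ρ g 0 1 = 0 ∧ mr ρ g 1 0 = 0

variable (ρ H) in
/-- antidiagonal outside `H` -/
def An : Prop := ∀ g ∉ H, mr ρ g 0 0 = 0 ∧ mr ρ g 1 1 = 0

theorem cj_dg (h : Dg ρ H) {g : GQ} (hg : g ∈ H) (X : M2 F) (i j : Fin 2) :
    cj ρ g X i j = th ρ i j g * X i j := by
  obtain ⟨a, b⟩ := h g hg
  obtain ⟨c, d⟩ := h g⁻¹ (H.inv_mem hg)
  simp only [cj, th, Matrix.mul_apply, Fin.sum_univ_two]
  fin_cases i <;> fin_cases j <;> simp only [Fin.zero_eta, Fin.mk_one, Fin.isValue, a, b, c, d] <;>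
    ring

theorem th_mul (h : Dg ρ H) (i j : Fin 2) : ∀ g ∈ H, ∀ k ∈ H,
    th ρ i j (g * k) = th ρ i j g * th ρ i j k := fun g hg k hk => by
  have e := cj_dg h (H.mul_mem hg hk) (Matrix.of fun _ _ => 1) i j
  rw [cj_mul, cj_dg h hg, cj_dg h hk, Matrix.of_apply, mul_one, mul_one] at e
  exact e.symm

theorem th_ker (i j : Fin 2) {g : GQ} (hg : ρ g = 1) : th ρ i j g = 1 := by
  rw [th, (mker hg).1, (mker hg).2, Matrix.one_apply_eq, Matrix.one_apply_eq, mul_one]

theorem ker_mem (h : An ρ H) {g : GQ} (hg : ρ g = 1) : g ∈ H := by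
  by_contra k
  have := (h g k).1
  rw [(mker hg).1, Matrix.one_apply_eq] at this
  exact one_ne_zero this

theorem th_ne [CharP F 2] (h : Dg ρ H) (h' : An ρ H) (ht : ∃ g, (mr ρ g).trace ≠ 0) :
    (∃ g ∈ H, th ρ 0 1 g ≠ 1) ∧ ∃ g ∈ H, th ρ 1 0 g ≠ 1 := by
  obtain ⟨g, hg⟩ := ht
  rw [Matrix.trace_fin_two] at hg
  have gH : g ∈ H := by
    by_contra k
    exact hg (by rw [(h' g k).1, (h' g k).2, add_zero])
  obtain ⟨a, b⟩ := h g gH
  have e0 := congrFun (congrFun (mi (ρ := ρ) g) 0) 0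
  have e1 := congrFun (congrFun (mi (ρ := ρ) g) 1) 1
  simp only [Matrix.mul_apply, Fin.sum_univ_two, a, b, mul_zero, add_zero, zero_add,
    Matrix.one_apply_eq] at e0 e1
  have t : (2 : F) = 0 := CharTwo.two_eq_zero
  refine ⟨⟨g, gH, fun e => hg ?_⟩, g, gH, fun e => hg ?_⟩ <;> rw [th] at e
  · linear_combination mr ρ g 1 1 * e - mr ρ g 0 0 * e1 + mr ρ g 1 1 * t
  · linear_combination mr ρ g 0 0 * e - mr ρ g 1 1 * e0 + mr ρ g 0 0 * t

theorem chr_card [Finite F] [CharP F 2] (hL : Lv ρ T D) (h : Dg ρ H) (h' : An ρ H) (i j : Fin 2)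
    (hf : Finite (Zt (th ρ i j) T H)) : Finite (Ft (th ρ i j) T D H) ∧
      Nat.card (Ft (th ρ i j) T D H) ≤ Nat.card (Zt (th ρ i j) T H) ∧
      ((∃ g ∈ H, th ρ i j g ≠ 1) →
        Nat.card (Ft (th ρ i j) T D H) * Nat.card F ≤ Nat.card (Zt (th ρ i j) T H)) := by
  obtain ⟨a, b⟩ := chrC F H (th ρ i j) T D
    (Subgroup.isOpen_mono (H₁ := ρ.ker) (fun g hg => ker_mem h' hg) hL.opn)
    (th_ker i j (map_one ρ)) (th_mul h i j) ⟨ρ.ker, hL.opn, fun g hg => th_ker i j hg⟩ hL.h0 hL.h2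
    hL.dec fun l hl P hP g _ hg => th_ker i j (hL.unr l hl P hP g hg)
  have c := card_le (F := F) (V := Ft (th ρ i j) T D H) (W := Zt (th ρ i j) T H) 0
    (by rw [Nat.cast_zero, add_zero]; exact a)
  refine ⟨c.1, by simpa using c.2, fun k => ?_⟩
  simpa using (card_le (F := F) (V := Ft (th ρ i j) T D H) (W := Zt (th ρ i j) T H) 1
    (by rw [Nat.cast_one]; exact b k)).2

/-- the local invariants as equivariant functions -/
def loc (h : Dg ρ H) (i j : Fin 2) (a : FxR ρ T D) : Ft (th ρ i j) T D H :=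
  ⟨fun l x => cj ρ x (a.1 l) i j, fun l hl => funext fun x => by
      simp only [a.2.1 l hl, cj, mul_zero, zero_mul, Matrix.zero_apply, Pi.zero_apply],
    fun l γ hγ g => by simp only [cj_mul, cj_dg h hγ],
    fun l d hd g => by
      by_cases hl : l ∈ T
      · have e : cj ρ d (a.1 l) = a.1 l := a.2.2 l hl d hd
        simp only [cj_mul, e]
      · simp only [a.2.1 l hl, cj, mul_zero, zero_mul]⟩

/-- **the split case** -/
theorem top [Finite F] [CharP F 2] (hL : Lv ρ T D) (h : Dg ρ ⊤) (ht : ∃ g, (mr ρ g).trace ≠ 0) :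
    Nat.card (FxR ρ T D) * Nat.card F ^ 2 ≤ Nat.card (H1R ρ T) := by
  have h' : An ρ ⊤ := fun g hg => (hg trivial).elim
  have fH : Finite (H1R ρ T) := (finrC F ρ T CharTwo.two_eq_zero hL.opn).to_subtype
  let Φ : (∀ i j : Fin 2, Zt (th ρ i j) T ⊤) → H1R ρ T := fun c =>
    ⟨fun g => Matrix.of fun i j => (c i j).1 g, fun g k => by
      ext i j
      have e := cj_dg h (Subgroup.mem_top g) (Matrix.of fun i j => (c i j).1 k) i j
      rw [cj] at e
      rw [Matrix.add_apply, e]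
      exact (c i j).2.1 g trivial k trivial, by
      choose U hU h0 using fun i j => (c i j).2.2.2.1
      refine ⟨(U 0 0 ⊓ U 0 1) ⊓ (U 1 0 ⊓ U 1 1), ((hU 0 0).inter (hU 0 1)).inter
        ((hU 1 0).inter (hU 1 1)), fun σ hσ => ?_⟩
      ext i j
      fin_cases i <;> fin_cases j
      exacts [h0 0 0 σ hσ.1.1, h0 0 1 σ hσ.1.2, h0 1 0 σ hσ.2.1, h0 1 1 σ hσ.2.2],
      fun l hl P hP g hg => by
        ext i j
        exact (c i j).2.2.2.2 l hl P hP g hg⟩
  have hΦ : Function.Injective Φ := fun c c' e => funext fun i => funext fun j =>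
    Subtype.ext (funext fun g => congrFun (congrFun (congrFun (congrArg Subtype.val e) g) i) j)
  have fZ : Finite (∀ i j : Fin 2, Zt (th ρ i j) T ⊤) := Finite.of_injective Φ hΦ
  have fZ' : ∀ i j, Finite (Zt (th ρ i j) T ⊤) := fun i j =>
    Finite.of_surjective (fun c : ∀ i j : Fin 2, Zt (th ρ i j) T ⊤ => c i j)
      ((Function.surjective_eval j).comp (Function.surjective_eval i))
  have k := fun i j => chr_card hL h h' i j (fZ' i j)
  have fF := fun i j => (k i j).1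
  let Ψ : FxR ρ T D → ∀ i j : Fin 2, Ft (th ρ i j) T D ⊤ := fun a i j => loc h i j a
  have hΨ : Function.Injective Ψ := fun a b e => Subtype.ext (funext fun l => by
    ext i j
    have := congrFun (congrFun (congrArg Subtype.val (congrFun (congrFun e i) j)) l) 1
    simpa only [Ψ, loc, cj_one] using this)
  have e1 := Nat.card_le_card_of_injective Ψ hΨ
  have e2 := Nat.card_le_card_of_injective Φ hΦ
  simp only [Nat.card_pi, Fin.prod_univ_two] at e1 e2
  obtain ⟨n1, n2⟩ := th_ne h h' ht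
  refine le_trans ?_ e2
  calc _ ≤ _ := Nat.mul_le_mul_right _ e1
    _ = Nat.card (Ft (th ρ 0 0) T D ⊤) * (Nat.card (Ft (th ρ 0 1) T D ⊤) * Nat.card F) *
        (Nat.card (Ft (th ρ 1 0) T D ⊤) * Nat.card F * Nat.card (Ft (th ρ 1 1) T D ⊤)) := by ring
    _ ≤ _ := Nat.mul_le_mul (Nat.mul_le_mul (k 0 0).2.1 ((k 0 1).2.2 n1))
        (Nat.mul_le_mul ((k 1 0).2.2 n2) (k 1 1).2.1)

theorem an0 (h' : An ρ H) {g : GQ} (hg : g ∉ H) {Y : M2 F} (hY : ∀ k, Y 1 k = 0) (k : Fin 2) :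
    cj ρ g Y 0 k = 0 := by
  simp [cj, Matrix.mul_apply, Fin.sum_univ_two, (h' g hg).1, hY]

theorem an1 (h' : An ρ H) {g : GQ} (hg : g ∉ H) {Y : M2 F} (hY : ∀ k, Y 0 k = 0) (k : Fin 2) :
    cj ρ g Y 1 k = 0 := by
  simp [cj, Matrix.mul_apply, Fin.sum_univ_two, (h' g hg).2, hY]

theorem idx (h' : An ρ H) {g s : GQ} (hg : g ∉ H) (hs : s ∉ H) : g * s⁻¹ ∈ H := by
  by_contra k
  have hs' : s⁻¹ ∉ H := fun e => hs (by simpa using H.inv_mem e)
  have e : mr ρ (g * s⁻¹) = 0 := by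
    ext i j
    fin_cases i <;> fin_cases j
    · exact (h' _ k).1
    · simp [mm, Matrix.mul_apply, Fin.sum_univ_two, (h' g hg).1, (h' _ hs').2]
    · simp [mm, Matrix.mul_apply, Fin.sum_univ_two, (h' g hg).2, (h' _ hs').1]
    · exact (h' _ k).2
  have := mi (ρ := ρ) (g * s⁻¹)
  rw [e, mul_zero] at this
  exact zero_ne_one this

theorem uniq (h' : An ρ H) {s : GQ} (hs : s ∉ H) {X : M2 F} (hX : ∀ x k, cj ρ x X 0 k = 0) :
    X = 0 := by
  have hs' : s⁻¹ ∉ H := fun e => hs (by simpa using H.inv_mem e)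
  ext i k
  fin_cases i
  · have := hX 1 k
    rwa [cj_one] at this
  · have := an1 h' hs' (hX s) k
    rwa [← cj_mul, inv_mul_cancel, cj_one] at this

theorem exi (h : Dg ρ H) (h' : An ρ H) {s : GQ} (hs : s ∉ H) (f : Fin 2 → GQ → F)
    (hf : ∀ k, ∀ g ∈ H, ∀ x, f k (g * x) = th ρ 0 k g * f k x) :
    ∃ X : M2 F, ∀ x k, cj ρ x X 0 k = f k x := by
  have hs' : s⁻¹ ∉ H := fun e => hs (by simpa using H.inv_mem e)
  let Y : GQ → M2 F := fun x => Matrix.of ![fun k => f k x, 0]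
  have y0 : ∀ x k, Y x 0 k = f k x := fun _ _ => rfl
  have y1 : ∀ x k, Y x 1 k = 0 := fun _ _ => rfl
  refine ⟨Y 1 + cj ρ s⁻¹ (Y s), fun x k => ?_⟩
  by_cases hx : x ∈ H
  · rw [cj_dg h hx, Matrix.add_apply, an0 h' hs' (y1 s), add_zero, y0, ← hf k x hx, mul_one]
  · have e : x = x * s⁻¹ * s := by group
    rw [e, hf k _ (idx h' hx hs), cj_mul, cj_dg h (idx h' hx hs), cj_add, ← cj_mul,
      mul_inv_cancel, cj_one, Matrix.add_apply, an0 h' hs (y1 1), zero_add, y0]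

open Classical in
/-- extension of a cocycle of `H` -/
def bx (H : Subgroup GQ) (s : GQ) (θ c : GQ → F) (v : F) (x : GQ) : F :=
  if x ∈ H then c x else c (x * s⁻¹) + θ (x * s⁻¹) * v

theorem bx_mul (h : Dg ρ H) (h' : An ρ H) {s : GQ} (hs : s ∉ H) (k : Fin 2)
    (c : Zt (th ρ 0 k) T H) (v : F) {g : GQ} (hg : g ∈ H) (x : GQ) :
    bx H s (th ρ 0 k) c.1 v (g * x) = c.1 g + th ρ 0 k g * bx H s (th ρ 0 k) c.1 v x := by
  by_cases hx : x ∈ H
  · rw [bx, bx, if_pos hx, if_pos (H.mul_mem hg hx), c.2.1 g hg x hx]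
  · have h1 : g * x ∉ H := fun e => hx ((H.mul_mem_cancel_left hg).1 e)
    rw [bx, bx, if_neg hx, if_neg h1, mul_assoc, c.2.1 g hg _ (idx h' hx hs),
      th_mul h 0 k g hg _ (idx h' hx hs)]
    ring

theorem zt_one (i j : Fin 2) (c : Zt (th ρ i j) T H) : c.1 1 = 0 := by
  have := c.2.1 1 H.one_mem 1 H.one_mem
  rw [mul_one, th_ker i j (map_one ρ), one_mul] at this
  exact left_eq_add.1 this

/-- **the induced case** -/
theorem dih [Finite F] [CharP F 2] (hL : Lv ρ T D) (h : Dg ρ H) (h' : An ρ H) (hH : H ≠ ⊤)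
    (ht : ∃ g, (mr ρ g).trace ≠ 0) :
    Nat.card (FxR ρ T D) * Nat.card F ^ 3 ≤ Nat.card (H1R ρ T) := by
  obtain ⟨s, hs⟩ : ∃ s, s ∉ H := by
    by_contra k
    push Not at k
    exact hH (eq_top_iff.2 fun g _ => k g)
  have fH : Finite (H1R ρ T) := (finrC F ρ T CharTwo.two_eq_zero hL.opn).to_subtype
  have ex : ∀ (p : ∀ k : Fin 2, Zt (th ρ 0 k) T H × F) (g : GQ), ∃ X : M2 F, ∀ x k,
      cj ρ x X 0 k = bx H s (th ρ 0 k) (p k).1.1 (p k).2 (x * g) -
        bx H s (th ρ 0 k) (p k).1.1 (p k).2 x := fun p g =>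
    exi h h' hs _ fun k u hu x => by
      rw [mul_assoc, bx_mul h h' hs k _ _ hu, bx_mul h h' hs k _ _ hu]; ring
  choose C hC using ex
  have van : ∀ p u, ρ u = 1 → (∀ x k, (p k).1.1 (x * u * x⁻¹) = 0) → C p u = 0 := by
    intro p u hu h0
    refine uniq h' hs fun x k => ?_
    have e : ρ (x * u * x⁻¹) = 1 := by rw [map_mul, map_mul, hu, map_inv, mul_one, mul_inv_cancel]
    rw [hC, show x * u = x * u * x⁻¹ * x by group, bx_mul h h' hs k _ _ (ker_mem h' e), h0,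
      th_ker 0 k e]
    ring
  let Φ : (∀ k : Fin 2, Zt (th ρ 0 k) T H × F) → H1R ρ T := fun p =>
    ⟨C p, fun g k => by
      refine sub_eq_zero.1 (uniq h' hs fun x j => ?_)
      have e : mr ρ g * C p k * mr ρ g⁻¹ = cj ρ g (C p k) := rfl
      rw [e, cj_sub, cj_add, ← cj_mul, Matrix.sub_apply, Matrix.add_apply, hC, hC, hC, mul_assoc]
      ring, by
      choose U hU h0 using fun k => (p k).1.2.2.2.1
      refine ⟨((U 0 ⊓ U 1) ⊓ ρ.ker).normalCore, opn_core _ (((hU 0).inter (hU 1)).inter hL.opn),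
        fun σ hσ => van p σ (Subgroup.normalCore_le _ hσ).2 fun x k => ?_⟩
      have := (hσ x).1
      fin_cases k
      exacts [h0 0 _ this.1, h0 1 _ this.2],
      fun l hl P hP g hg => van p g (hL.unr l hl P hP g hg) fun x k =>
        (p k).1.2.2.2.2 l hl _ (ov_smul hP x) _ (inert_cj hg x)⟩
  have hb : ∀ p g k, C p g 0 k = bx H s (th ρ 0 k) (p k).1.1 (p k).2 g := fun p g k => by
    have := hC p g 1 k
    rwa [cj_one, one_mul, bx.eq_1 _ _ _ _ _ 1, if_pos H.one_mem, zt_one, sub_zero] at this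
  have hΦ : Function.Injective Φ := by
    intro p p' e
    have e1 : ∀ g k, bx H s (th ρ 0 k) (p k).1.1 (p k).2 g =
        bx H s (th ρ 0 k) (p' k).1.1 (p' k).2 g := fun g k => by
      rw [← hb, ← hb, show C p = C p' from congrArg Subtype.val e]
    funext k
    refine Prod.ext (Subtype.ext (funext fun g => ?_)) ?_
    · by_cases hg : g ∈ H
      · simpa only [bx, if_pos hg] using e1 g k
      · rw [(p k).1.2.2.1 g hg, (p' k).1.2.2.1 g hg]
    · simpa only [bx, if_neg hs, mul_inv_cancel, zt_one, th_ker 0 k (map_one ρ), zero_add,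
        one_mul] using e1 s k
  have fZ : Finite (∀ k : Fin 2, Zt (th ρ 0 k) T H × F) := Finite.of_injective Φ hΦ
  have fZ' : ∀ k, Finite (Zt (th ρ 0 k) T H) := fun k =>
    Finite.of_surjective (fun c : ∀ k : Fin 2, Zt (th ρ 0 k) T H × F => (c k).1)
      (Prod.fst_surjective.comp (Function.surjective_eval k))
  have k := fun j => chr_card hL h h' 0 j (fZ' j)
  have fF := fun j => (k j).1
  let Ψ : FxR ρ T D → ∀ j : Fin 2, Ft (th ρ 0 j) T D H := fun a j => loc h 0 j a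
  have hΨ : Function.Injective Ψ := fun a b e => Subtype.ext (funext fun l =>
    sub_eq_zero.1 (uniq h' hs fun x j => by
      have := congrFun (congrFun (congrArg Subtype.val (congrFun e j)) l) x
      rw [cj_sub, Matrix.sub_apply, sub_eq_zero]
      exact this))
  have e1 := Nat.card_le_card_of_injective Ψ hΨ
  have e2 := Nat.card_le_card_of_injective Φ hΦ
  simp only [Nat.card_pi, Fin.prod_univ_two, Nat.card_prod] at e1 e2
  refine le_trans ?_ e2
  calc _ ≤ _ := Nat.mul_le_mul_right _ e1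
    _ = Nat.card (Ft (th ρ 0 0) T D H) * Nat.card F *
        (Nat.card (Ft (th ρ 0 1) T D H) * Nat.card F * Nat.card F) := by ring
    _ ≤ _ := Nat.mul_le_mul (Nat.mul_le_mul_right _ (k 0).2.1)
        (Nat.mul_le_mul_right _ ((k 1).2.2 (th_ne h h' ht).1))

section ring

variable {R : Type} [CommRing R] [Finite R] {ρ : GQ →* GL (Fin 2) R}

/-- the split case over a ring which is a field -/
theorem base_top (hR : IsField R) (h2 : (2 : R) = 0) (hL : Lv ρ T D)
    (h : ∀ g, mr ρ g 0 1 = 0 ∧ mr ρ g 1 0 = 0) (ht : ∃ g, (mr ρ g).trace ≠ 0) :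
    Nat.card (FxR ρ T D) * Nat.card R ^ 2 ≤ Nat.card (H1R ρ T) := by
  letI := hR.toField
  haveI : CharP R 2 := CharTwo.of_one_ne_zero_of_two_eq_zero one_ne_zero h2
  exact top hL (fun g _ => h g) ht

/-- the induced case over a ring which is a field -/
theorem base_dih (hR : IsField R) (h2 : (2 : R) = 0) (hL : Lv ρ T D) {H : Subgroup GQ}
    (h : ∀ g ∈ H, mr ρ g 0 1 = 0 ∧ mr ρ g 1 0 = 0) (h' : ∀ g ∉ H, mr ρ g 0 0 = 0 ∧ mr ρ g 1 1 = 0)
    (hH : H ≠ ⊤) (ht : ∃ g, (mr ρ g).trace ≠ 0) :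
    Nat.card (FxR ρ T D) * Nat.card R ^ 3 ≤ Nat.card (H1R ρ T) := by
  letI := hR.toField
  haveI : CharP R 2 := CharTwo.of_one_ne_zero_of_two_eq_zero one_ne_zero h2
  exact dih hL h h' hH ht

end ring

end P022G.Lb90.Base
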