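import Vale.Agent.P022G.Lb90.Defs
import Vale.Agent.P022G.Lb90.Base

/-!
# P022G, lower bound: the row BASE
-/

namespace P022G.Lb90.BaseH9

theorem baseC : BASE := by
  intro F _ _ _ rb H T D h _
  refine ⟨?_, fun hH => Base.dih h.lv h.dg h.ad hH h.reg⟩
  by_cases hH : H = ⊤
  · subst hH
    exact Base.top h.lv h.dg h.reg
  · exact (Nat.mul_le_mul_left _ (Nat.pow_le_pow_right Nat.card_pos (by norm_num))).trans
      (Base.dih h.lv h.dg h.ad hH h.reg)

end P022G.Lb90.BaseH9
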