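import Vale.Agent.P022G.Lb90.One0

/-!
# P022G, block Lb90: the gain in the split case
-/

set_option linter.all false

noncomputable section

namespace P022G.Lb90

open NumberField
open Vale.Agent.P022
open Vale.Agent.P027M.S (Inert)
open Vale.Agent.P022D.Sel (M2 IsDec)
open Vale.Agent.P022D.W (dec conj_inP)
open Vale.Agent.P022E.GW
open P022G.Sel
open Inv

namespace Gain

variable {F : Type} [Field F] {rb : GQ →* GL (Fin 2) F} {T : Finset ℕ} {o : GQ → GQ → M2 F}

theorem right (h : Oc rb T o) {i : GQ} (hi : ∀ g, o g i = 0) (g k : GQ) : o g (k * i) = o g k := by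
  have := h.coc g k i
  rwa [hi, hi, mul_zero, zero_mul, zero_add, zero_add] at this

theorem left (h : Oc rb T o) {i : GQ} (hi : ∀ g, o g i = 0 ∧ o i g = 0) (g k : GQ)
    (hk : ∀ g, o g (k⁻¹ * i * k) = 0) : o (g * i) k = o g k := by
  have := h.coc g i k
  rw [(hi _).2, (hi _).1, mul_zero, zero_mul, zero_add, add_zero] at this
  rw [← this, show i * k = k * (k⁻¹ * i * k) by group, right h hk]

/-- an open cocycle is locally constant -/
theorem lc (h : Oc rb T o) : IsLocallyConstant fun p : GQ × GQ => o p.1 p.2 := by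
  obtain ⟨U, hU, hn, h0⟩ := h.opn
  refine (IsLocallyConstant.iff_exists_open _).2 fun p => ⟨(fun q : GQ × GQ => p.1⁻¹ * q.1) ⁻¹' U ∩
    (fun q : GQ × GQ => p.2⁻¹ * q.2) ⁻¹' U,
    (hU.preimage (by fun_prop)).inter (hU.preimage (by fun_prop)), by simp, fun q hq => ?_⟩
  have e1 := left h (h0 _ hq.1).2 p.1 q.2 fun g => ((h0 _ (hn.conj_mem' _ hq.1 q.2)).2 g).1
  have e2 := right h (fun g => ((h0 _ hq.2).2 g).1) p.1 p.2
  rw [mul_inv_cancel_left] at e1 e2
  exact e1.trans e2

/-- unramified places -/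
theorem off [CharP F 2] (h : Oc rb T o) (f : M2 F → F) {H : Subgroup GQ}
    (hH : IsOpen (H : Set GQ)) {l : ℕ} (hl : l ∉ T) {P : Ideal (𝓞 Qb)} (hP : Ov l P)
    (hz : Z2 (H ⊓ dec P) fun g k => f (o g k)) : Cb (H ⊓ dec P) fun g k => f (o g k) :=
  unrC F H l P _ hH hP hz fun g _ k hk i _ hi => by
    have a := conj_inP ((dec P).inv_mem hk.2) hi
    rw [inv_inv] at a
    simp only [right h (fun g => (h.unr l hl P hP i hi g).1),
      left h (h.unr l hl P hP i hi) g k fun g => (h.unr l hl P hP _ a g).1, and_self]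

variable {D : ℕ → Set GQ}

theorem dg (h : Res rb ⊤ T D) (g : GQ) (X : M2 F) :
    (mr rb g * X * mr rb g⁻¹) 0 0 = X 0 0 ∧
      mr rb g * Matrix.single 0 0 (1 : F) * mr rb g⁻¹ = Matrix.single 0 0 1 := by
  obtain ⟨a1, a2⟩ := h.dg g trivial
  obtain ⟨b1, b2⟩ := h.dg g⁻¹ trivial
  have e : mr rb g * mr rb g⁻¹ = 1 := by simp [mr]
  have e0 := congrFun (congrFun e 0) 0
  generalize mr rb g = A at *
  generalize mr rb g⁻¹ = B at *
  rw [Matrix.mul_apply, Fin.sum_univ_two, a1, zero_mul, add_zero, Matrix.one_apply_eq] at e0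
  refine ⟨?_, ?_⟩
  · simp only [Matrix.mul_apply, Fin.sum_univ_two, a1, b2, zero_mul, mul_zero, add_zero]
    linear_combination X 0 0 * e0
  · ext i j
    fin_cases i <;> fin_cases j <;>
      simp [Matrix.mul_apply, Fin.sum_univ_two, a1, a2, b1, b2, e0]

end Gain

open Gain

/-- **row GAIN** -/
theorem gainC : GAIN := by
  intro F _ _ _ rb T D o l₀ hR ho hT hl h2 hA h0 E hE x hx
  let e : M2 F := Matrix.single 0 0 1
  have te : ∀ X : M2 F, (e * X).trace = X 0 0 := fun X => by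
    simp [e, Matrix.trace_fin_two, Matrix.mul_apply, Fin.sum_univ_two]
  have hz : Z2 ⊤ fun g k => o g k 0 0 :=
    ⟨((lc ho).comp fun X => X 0 0).comp_continuous
      (f := fun p : (⊤ : Subgroup GQ) × (⊤ : Subgroup GQ) => ((p.1 : GQ), (p.2 : GQ)))
      (by fun_prop), fun g h k => by
        have := congrFun (congrFun (ho.coc g h k) 0) 0
        rw [Matrix.add_apply, Matrix.add_apply, (dg hR _ _).1] at this
        exact this⟩
  have k1 : Cb E fun g k => o g k 0 0 := by
    refine one0C F _ l₀ hl h2 hz (fun l ne E' hE' => ?_) E (hE ▸ hR.lv.dec l₀ hT)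
    by_cases c : l ∈ T
    · obtain ⟨g, hg⟩ := Lb.dec_cj hE' (hR.lv.dec l c)
      let E0 : Subgroup GQ := E'.comap (MulAut.conj g⁻¹).toMonoidHom
      have m : ∀ y, y ∈ E0 ↔ g⁻¹ * y * g⁻¹⁻¹ ∈ E' := fun _ => Iff.rfl
      have k := hA l c ne E0 (Set.ext fun y => by rw [hg, SetLike.mem_coe, m, inv_inv]; rfl) e
        fun g _ => (dg hR g 0).2
      simp only [te] at k
      have := cj F ⊤ E0 E' g⁻¹ _ trivial m hz (by rwa [top_inf_eq])
      rwa [top_inf_eq] at this
    · obtain ⟨P, hP, rfl⟩ := of_dec (l := l) (fun e => c (e ▸ hR.lv.h0)) hE'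
      have := off ho (fun X => X 0 0) (H := ⊤) isOpen_univ c hP 
        (Gy.z2_le (y := fun g k => o g k 0 0) inf_le_left hz)
      rwa [top_inf_eq] at this
  have k2 := h0 E hE (x - x.trace • e) (by simp [e, Matrix.trace_fin_two]) fun g hg => by
    rw [mul_sub, sub_mul, hx g hg, mul_smul_comm, smul_mul_assoc, (dg hR g 0).2]
  unfold Cb at k1 k2 ⊢
  convert add_mem k2 (Submodule.smul_mem _ x.trace k1) using 1
  funext g k
  simp only [rs, Pi.add_apply, Pi.smul_apply, smul_eq_mul, sub_mul, smul_mul_assoc,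
    Matrix.trace_sub, Matrix.trace_smul, te]
  ring

end P022G.Lb90
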