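import Vale.Agent.P022G.Lb90.Defs
import Vale.Agent.P022G.Lb90.Base
import Vale.Agent.P022E.GW.Lift
import Vale.Agent.P022E.GW.Hnpg

/-!
# P022G, lower bound: a locally trivial class is the boundary of an unramified cochain
-/

set_option linter.all false

noncomputable section

namespace P022G.Lb90.LiftH9

open NumberField
open Vale.Agent.P022
open Vale.Agent.P027M.S (Inert)
open Vale.Agent.P022D.Sel (M2 IsDec)
open Vale.Agent.P022E.GW
open P022G.Sel P022G.Sel.Bas P022G.Lb90.Base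

/-- averaging with a projector -/
theorem avg {X M : Type} [Group X] [AddCommGroup M] (V : Subgroup X) [Fintype (X ⧸ V)]
    (a : X → M →+ M) (hm : ∀ g h m, a (g * h) m = a g (a h m)) (h1 : ∀ p ∈ V, ∀ m, a p m = m)
    (e : M →+ M) (he : ∀ m, ∑ q : X ⧸ V, a q.out (e (a q.out⁻¹ m)) = m)
    (β : X → X → M) (hβ : ∀ g h k, a g (β h k) + β g (h * k) = β (g * h) k + β g h)
    (w : X → M) (hw : ∀ p ∈ V, ∀ q ∈ V, w (p * q) = w p + w q + β p q) :
    ∃ y : X → M, (∀ g h, y (g * h) = y g + a g (y h) + β g h) ∧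
      ∀ i, (∀ g, g * i * g⁻¹ ∈ V ∧ β g i = 0 ∧ β (g * i * g⁻¹) g = 0 ∧ w (g * i * g⁻¹) = 0) →
        y i = 0 := by
  classical
  let o : X → X := fun x => ((x⁻¹ : X) : X ⧸ V).out
  have ho1 : ∀ x, x * o x ∈ V := fun x => by
    have := QuotientGroup.eq.1 (QuotientGroup.out_eq' ((x⁻¹ : X) : X ⧸ V)).symm
    rwa [inv_inv] at this
  have ho2 : ∀ p ∈ V, ∀ x, o (p * x) = o x := fun p hp x => by
    have : (((p * x)⁻¹ : X) : X ⧸ V) = ((x⁻¹ : X) : X ⧸ V) := by
      rw [QuotientGroup.eq]; simpa using hp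
    simp only [o, this]
  let u : X → M := fun x => w (x * o x) + β (x * o x) (o x)⁻¹
  have hu : ∀ p ∈ V, ∀ x, u (p * x) = w p + u x + β p x := fun p hp x => by
    have e := hβ p (x * o x) (o x)⁻¹
    rw [h1 p hp, mul_inv_cancel_right] at e
    simp only [u]
    rw [ho2 p hp, mul_assoc, hw p hp _ (ho1 x)]
    linear_combination (norm := abel1) e.symm
  let W : X → X → M := fun x h => a x⁻¹ (e (u (x * h) - u x - β x h))
  have hW : ∀ p ∈ V, ∀ x h, W (p * x) h = W x h := fun p hp x h => by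
    have e := hβ p x h
    rw [h1 p hp] at e
    simp only [W]
    rw [mul_inv_rev, hm, h1 _ (V.inv_mem hp), mul_assoc p, hu p hp, hu p hp]
    congr 2
    linear_combination (norm := abel1) e
  have hW2 : ∀ x h k, W x (h * k) = W x h + a h (W (x * h) k) + a x⁻¹ (e (a x (β h k))) :=
    fun x h k => by
    have e := hβ x h k
    simp only [W]
    rw [← hm, mul_inv_rev, mul_inv_cancel_left, ← map_add, ← map_add, ← map_add, ← map_add,
      mul_assoc x h k]
    congr 2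
    linear_combination (norm := abel1) e.symm
  refine ⟨fun h => ∑ q : X ⧸ V, W q.out⁻¹ h, fun g h => ?_, fun i hi => ?_⟩
  · have e : ∑ q : X ⧸ V, W (q.out⁻¹ * g) h = ∑ q : X ⧸ V, W q.out⁻¹ h := by
      refine Fintype.sum_equiv (MulAction.toPerm g⁻¹) _ _ fun q => ?_
      have m : q.out⁻¹ * g * (g⁻¹ • q).out ∈ V := by
        have : ((g⁻¹ * q.out : X) : X ⧸ V) = ((g⁻¹ • q).out : X) := by
          rw [QuotientGroup.out_eq']
          exact MulAction.Quotient.mk_smul_out V g⁻¹ q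
        simpa using QuotientGroup.eq.1 this
      rw [MulAction.toPerm_apply, ← hW _ m (g⁻¹ • q).out⁻¹, mul_inv_cancel_right]
    simp only [hW2, inv_inv]
    rw [Finset.sum_add_distrib, Finset.sum_add_distrib, ← map_sum, e, he]
  · refine Finset.sum_eq_zero fun q _ => ?_
    obtain ⟨a', b, c, d⟩ := hi q.out⁻¹
    have e := hu _ a' q.out⁻¹
    rw [inv_mul_cancel_right, c, d] at e
    simp only [W]
    rw [b, e]
    simp

variable {F : Type} [Field F] [CharP F 2] {T : Finset ℕ} {D : ℕ → Set GQ}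

/-- a splitting on `V` which is unramified outside `T` -/
theorem fixV [Finite F] {V : Subgroup GQ} (hB : Bg V T) (h2 : 2 ∈ T)
    (hd : ∀ l ∈ T, IsDec l (D l)) (mem : ∀ l ∉ T, ∀ P, Ov l P → ∀ i, Inert P i → i ∈ V)
    (β : GQ → GQ → F) (hc : Cb V β) (h1 : β 1 1 = 0)
    (hi : ∀ l ∉ T, ∀ P, Ov l P → ∀ i, Inert P i → ∀ g ∈ V, β g i = 0 ∧ β i g = 0) :
    ∃ w : GQ → F, (∀ p ∈ V, ∀ q ∈ V, w (p * q) = w p + w q + β p q) ∧
      (∃ U : Subgroup GQ, IsOpen (U : Set GQ) ∧ U.Normal ∧ ∀ σ ∈ V, σ ∈ U → w σ = 0) ∧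
      Ur T w := by
  classical
  have two : (2 : F) = 0 := CharTwo.two_eq_zero
  obtain ⟨w0, hl, hw⟩ := hc
  let w : GQ → F := fun g => if h : g ∈ V then w0 ⟨g, h⟩ else 0
  have e : ∀ g (h : g ∈ V), w g = w0 ⟨g, h⟩ := fun g h => dif_pos h
  have hw' : ∀ p ∈ V, ∀ q ∈ V, w (p * q) = w p + w q + β p q := fun p hp q hq => by
    rw [e p hp, e q hq, e _ (V.mul_mem hp hq)]
    exact hw ⟨p, hp⟩ ⟨q, hq⟩
  have w1 : w0 1 = 0 := by
    have := hw 1 1
    rw [mul_one] at this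
    have k : rs V β 1 1 = 0 := h1
    rw [k] at this
    linear_combination -this
  obtain ⟨U, hU, hn, hU0⟩ := Rc.near hl
  obtain ⟨b, hb, hbw⟩ := fix2 F V T w hB h2
    (fun l hl => (hd l hl).imp And.left And.left)
    ⟨U, hU, fun σ hσ => by rw [e σ hσ.1, hU0 ⟨σ, hσ.1⟩ hσ.2, w1]⟩
    (fun l hl P hP i hiP h => ⟨fun i' hi' h' => by
        rw [hw' i hiP i' hi', (hi l hl P hP i h i' hi').2, add_zero],
      fun g hg => by
        obtain ⟨P', hP', k⟩ := Lf.inert_cj hP g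
        have m := mem l hl P' hP' _ (k i h)
        have e1 := hw' _ m g hg
        rw [inv_mul_cancel_right, hw' g hg i hiP, (hi l hl P hP i h g hg).1,
          (hi l hl P' hP' _ (k i h) g hg).2] at e1
        linear_combination -e1⟩)
  obtain ⟨V', hV, hn', hV0⟩ := Rc.near hb.1
  have b1 : b 1 = 0 := by
    have := hb.2 1 1
    simp only [mul_one, OneMemClass.coe_one] at this
    linear_combination -this
  refine ⟨fun g => w g + b g, fun p hp q hq => ?_, ⟨U ⊓ V', hU.inter hV, inferInstance,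
    fun σ hσ h => ?_⟩, fun l hl P hP i h => ?_⟩
  · have := hb.2 ⟨p, hp⟩ ⟨q, hq⟩
    simp only [Subgroup.coe_mul] at this
    simp only
    rw [hw' p hp q hq, this]; ring
  · have := hV0 ⟨σ, hσ⟩ h.2
    simp only [OneMemClass.coe_one] at this
    simp only
    rw [e σ hσ, hU0 ⟨σ, hσ⟩ h.1, w1, this, b1, add_zero]
  · simp only
    rw [hbw l hl P hP i (mem l hl P hP i h) h]
    linear_combination w i * two

variable {rb : GQ →* GL (Fin 2) F} {H : Subgroup GQ} {o : GQ → GQ → M2 F}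

theorem z2 (ho : Oc rb T o) (i j : Fin 2) : Z2 rb.ker (fun g h => o g h i j) := by
  obtain ⟨U, hU, hn, h0⟩ := ho.opn
  have r : ∀ g h, ∀ σ ∈ U, o g (h * σ) = o g h := fun g h σ hσ => by
    have := ho.coc g h σ
    rw [((h0 σ hσ).2 _).1, ((h0 σ hσ).2 _).1, mul_zero, zero_mul, zero_add, zero_add] at this
    exact this
  have l : ∀ g h, ∀ σ ∈ U, o (g * σ) h = o g h := fun g h σ hσ => by
    have hσ' := hn.conj_mem σ hσ g
    have := ho.coc (g * σ * g⁻¹) g h
    rw [((h0 _ hσ').2 _).2, ((h0 _ hσ').2 _).2, (mker (h0 _ hσ').1).1, (mker (h0 _ hσ').1).2,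
      one_mul, mul_one, add_zero, add_zero, inv_mul_cancel_right] at this
    exact this.symm
  refine ⟨(IsLocallyConstant.iff_eventually_eq _).2 fun p => ?_, fun g h k => ?_⟩
  · have o1 : IsOpen {x : rb.ker × rb.ker | (p.1 : GQ)⁻¹ * x.1 ∈ (U : Set GQ)} :=
      hU.preimage (by fun_prop)
    have o2 : IsOpen {x : rb.ker × rb.ker | (p.2 : GQ)⁻¹ * x.2 ∈ (U : Set GQ)} :=
      hU.preimage (by fun_prop)
    filter_upwards [o1.mem_nhds (show p ∈ _ by simpa using U.one_mem),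
      o2.mem_nhds (show p ∈ _ by simpa using U.one_mem)] with x a b
    show o x.1 x.2 i j = o p.1 p.2 i j
    rw [← l p.1 p.2 _ a, ← r _ p.2 _ b, mul_inv_cancel_left, mul_inv_cancel_left]
  · have := ho.coc g h k
    rw [(mker g.2).1, (mker g.2).2, one_mul, mul_one] at this
    exact congrFun (congrFun this i) j

variable (rb) in
/-- conjugation as an additive map -/
def ac (g : GQ) : M2 F →+ M2 F := AddMonoidHom.mk' (cj rb g) (cj_add g)

/-- the first row -/
def e0 : M2 F →+ M2 F := AddMonoidHom.mk' (fun X => Matrix.of ![X 0, 0]) fun X Y => by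
  ext i j
  fin_cases i <;> simp

theorem odd (h : Dg rb H) (h' : An rb H) [Fintype (GQ ⧸ rb.ker)]
    [DecidablePred fun q : GQ ⧸ rb.ker => q.out ∈ H] :
    ∑ q : GQ ⧸ rb.ker, (if q.out ∈ H then (1 : F) else 0) = 1 := by
  classical
  have m : ∀ q : GQ ⧸ rb.ker, q.out ∈ H ↔ q ∈ H.map (QuotientGroup.mk' rb.ker) := fun q => by
    refine ⟨fun k => ⟨_, k, QuotientGroup.out_eq' q⟩, ?_⟩
    rintro ⟨g, hg, rfl⟩
    obtain ⟨v, hv⟩ := QuotientGroup.mk_out_eq_mul rb.ker g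
    rw [QuotientGroup.mk'_apply, hv]
    exact H.mul_mem hg (ker_mem h' v.2)
  have o : Odd (Nat.card (H.map (QuotientGroup.mk' rb.ker))) := by
    rw [← Nat.not_even_iff_odd, even_iff_two_dvd]
    intro k
    haveI : Fact (Nat.Prime 2) := ⟨Nat.prime_two⟩
    obtain ⟨⟨_, g, hg, rfl⟩, hx⟩ := exists_prime_orderOf_dvd_card' 2 k
    obtain ⟨x1, x2⟩ := orderOf_eq_prime_iff.1 hx
    have y1 : rb (g * g) = 1 := by
      have := congrArg Subtype.val x1
      rw [Subgroup.coe_pow, sq, ← map_mul] at this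
      exact (QuotientGroup.eq_one_iff (N := rb.ker) _).1 this
    refine x2 (Subtype.ext ((QuotientGroup.eq_one_iff (N := rb.ker) _).2 (Units.ext ?_)))
    obtain ⟨a, b⟩ := h g hg
    have y2 := (mker y1).1
    rw [mm] at y2
    have c := congrFun (congrFun y2 0) 0
    have d := congrFun (congrFun y2 1) 1
    simp only [Matrix.mul_apply, Fin.sum_univ_two, a, b, mul_zero, add_zero, zero_add,
      Matrix.one_apply_eq] at c d
    have t : ∀ x : F, x * x = 1 → x = 1 := fun x hx => by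
      rcases mul_self_eq_one_iff.1 hx with r | r
      · exact r
      · rw [r, CharTwo.neg_eq]
    show mr rb g = 1
    ext i j
    fin_cases i <;> fin_cases j
    exacts [t _ c, a, b, t _ d]
  rw [Finset.sum_boole, ← Fintype.card_subtype, ← Nat.card_eq_fintype_card,
    Nat.card_congr (Equiv.subtypeEquivRight m)]
  exact odd_cast CharTwo.two_eq_zero o

theorem hig (h : Dg rb H) (h' : An rb H) [Fintype (GQ ⧸ rb.ker)] : ∃ e : M2 F →+ M2 F,
    ∀ m, ∑ q : GQ ⧸ rb.ker, ac rb q.out (e (ac rb q.out⁻¹ m)) = m := by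
  classical
  have o := odd h h'
  have cc : ∀ (g : GQ) (m : M2 F), cj rb g (cj rb g⁻¹ m) = m := fun g m => by
    rw [← cj_mul, mul_inv_cancel, cj_one]
  by_cases hH : ∀ g, g ∈ H
  · refine ⟨AddMonoidHom.id _, fun m => ?_⟩
    simp only [hH, if_true] at o
    have : ∀ q : GQ ⧸ rb.ker, ac rb q.out (AddMonoidHom.id _ (ac rb q.out⁻¹ m)) = (1 : F) • m :=
      fun q => by rw [one_smul]; exact cc _ _
    simp only [this]
    rw [← Finset.sum_smul, o, one_smul]
  push Not at hH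
  obtain ⟨s, hs⟩ := hH
  have o' : ∑ q : GQ ⧸ rb.ker, (if q.out ∈ H then (0 : F) else 1) = 1 := by
    refine Eq.trans ?_ o
    refine Fintype.sum_equiv (Equiv.mulRight ((s⁻¹ : GQ) : GQ ⧸ rb.ker)) _ _ fun q => ?_
    obtain ⟨v, hv⟩ := QuotientGroup.mk_out_eq_mul rb.ker (q.out * s⁻¹)
    rw [QuotientGroup.mk_mul, QuotientGroup.out_eq'] at hv
    rw [Equiv.coe_mulRight, hv]
    have vH := ker_mem h' v.2
    by_cases k : q.out ∈ H
    · rw [if_pos k, if_neg]
      intro e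
      exact hs (by simpa using H.inv_mem ((H.mul_mem_cancel_left k).1
        ((H.mul_mem_cancel_right vH).1 e)))
    · rw [if_neg k, if_pos (H.mul_mem (idx h' k hs) vH)]
  refine ⟨e0, fun m => ?_⟩
  have r1 : ∀ (X : M2 F) k, e0 X 1 k = 0 := fun _ _ => rfl
  have r0 : ∀ (X : M2 F) k, (X - e0 X) 0 k = 0 := fun X k => sub_self (X 0 k)
  have k0 : ∀ (g : GQ) k, cj rb g (e0 (cj rb g⁻¹ m)) 0 k = (if g ∈ H then 1 else 0) * m 0 k := by
    intro g k
    by_cases hg : g ∈ H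
    · rw [if_pos hg, one_mul]
      conv_rhs => rw [← cc g m]
      rw [cj_dg h hg, cj_dg h hg]
      rfl
    · rw [if_neg hg, zero_mul, an0 h' hg (r1 _)]
  have k1 : ∀ (g : GQ) k, cj rb g (e0 (cj rb g⁻¹ m)) 1 k = (if g ∈ H then 0 else 1) * m 1 k := by
    intro g k
    by_cases hg : g ∈ H
    · rw [if_pos hg, zero_mul, cj_dg h hg, r1, mul_zero]
    · have := an1 h' hg (r0 (cj rb g⁻¹ m)) k
      rw [cj_sub, cc, Matrix.sub_apply, sub_eq_zero] at this
      rw [if_neg hg, one_mul, this]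
  ext i k
  rw [Matrix.sum_apply]
  fin_cases i
  · exact (Finset.sum_congr rfl fun q _ => k0 q.out k).trans
      (by rw [← Finset.sum_mul, o, one_mul]; rfl)
  · exact (Finset.sum_congr rfl fun q _ => k1 q.out k).trans
      (by rw [← Finset.sum_mul, o', one_mul]; rfl)

/-- **row LIFT** -/
theorem liftC : LIFT := by
  intro F _ _ _ rb H T D o hR ho hL
  have := Vale.Agent.P022D.Sel.OddP.compact_GQ
  have : Finite (GQ ⧸ rb.ker) := Subgroup.quotient_finite_of_isOpen _ hR.lv.opn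
  haveI : Fintype (GQ ⧸ rb.ker) := Fintype.ofFinite _
  obtain ⟨U, hU, hn, h0⟩ := ho.opn
  have hx := fun i j => fixV hR.bg hR.lv.h2 hR.lv.dec hR.lv.unr (fun g h => o g h i j)
    (hasseCC F rb.ker _ hR.lv.opn (z2 ho i j) (hL i j))
    (by rw [((h0 1 U.one_mem).2 1).1]; rfl)
    (fun l hl P hP s hs g _ => by
      rw [(ho.unr l hl P hP s hs g).1, (ho.unr l hl P hP s hs g).2]; exact ⟨rfl, rfl⟩)
  choose w h1 h2 h3 using hx
  choose V hV nV h2 using h2
  obtain ⟨e, he⟩ := hig (H := H) hR.dg hR.ad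
  obtain ⟨y, y1, y2⟩ := avg rb.ker (ac rb) cj_mul
    (fun p hp m => by
      show mr rb p * m * mr rb p⁻¹ = m
      rw [(mker hp).1, (mker hp).2, one_mul, mul_one]) e he o ho.coc
    (fun g => Matrix.of fun i j => w i j g) (fun p hp q hq => by
      ext i j
      exact h1 i j p hp q hq)
  refine ⟨y, y1, ⟨U ⊓ ((V 0 0 ⊓ V 0 1) ⊓ (V 1 0 ⊓ V 1 1)), hU.inter (((hV 0 0).inter
    (hV 0 1)).inter ((hV 1 0).inter (hV 1 1))), fun σ hσ => y2 σ fun g => ?_⟩,
    fun l hl P hP s hs => y2 s fun g => ?_⟩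
  · have a := hn.conj_mem σ hσ.1 g
    refine ⟨(h0 _ a).1, ((h0 σ hσ.1).2 g).1, ((h0 _ a).2 g).2, ?_⟩
    ext i j
    refine h2 i j _ (h0 _ a).1 ((nV i j).conj_mem σ ?_ g)
    fin_cases i <;> fin_cases j
    exacts [hσ.2.1.1, hσ.2.1.2, hσ.2.2.1, hσ.2.2.2]
  · have a := ov_smul hP g
    have b := inert_cj hs g
    refine ⟨hR.lv.unr l hl _ a _ b, (ho.unr l hl P hP s hs g).1, (ho.unr l hl _ a _ b g).2, ?_⟩
    ext i j
    exact h3 i j l hl _ a _ b

end P022G.Lb90.LiftH9
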