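import Vale.Agent.P022G.Lb90.Defs
import Vale.Agent.P022G.Sel.Bas
import Vale.Agent.P022E.GW.Linv
import Vale.Agent.P022E.GW.Nil
import Vale.Agent.P022E.GW.ObsA
import Vale.Agent.P022E.GW.UnrC
import Vale.Agent.P022E.GW.Syl
import Vale.Agent.P022E.GW.Lift

/-!
# P022G, the lower bound at a curve: row LOC
-/

set_option linter.all false

noncomputable section

namespace P022G.Lb90

open NumberField
open Vale.Agent.P022
open Vale.Agent.P027M.S (Inert)
open Vale.Agent.P022D.Sel (M2 IsDec)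
open Vale.Agent.P022D.L2c (Hm Cob IsZ2 cup up)
open Vale.Agent.P022D.W (dec)
open Vale.Agent.P022E.GW
open P022G.Sel P022G.Sel.Bas

namespace H89

variable {F : Type} [Field F]

theorem lcl {l : ℕ} {P : Ideal (𝓞 Qb)} (hP : Ov l P) {U : Subgroup GQ}
    (hU : IsOpen (U : Set GQ)) : Gy.Lcl (U ⊓ dec P : Subgroup GQ) := fun V hV =>
  ⟨(Nil.ni_sub hP.1 hP.2.1 hP.2.2 U hU V hV).1,
    Gy.three_of (lt_of_lt_of_le (by norm_num) (Nil.ni_sub hP.1 hP.2.1 hP.2.2 U hU V hV).2)⟩

theorem cpt (P : Ideal (𝓞 Qb)) {U : Subgroup GQ} (hU : IsOpen (U : Set GQ)) :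
    CompactSpace (U ⊓ dec P : Subgroup GQ) :=
  isCompact_iff_compactSpace.1 (Unr.closed hU P).isCompact

theorem cb_le {D H : Subgroup GQ} (h : D ≤ H) {z : GQ → GQ → F} (hz : Cb H z) : Cb D z :=
  Gy.cob_comp (Subgroup.inclusion h) (Gy.inc_cont h) hz

theorem cb_cg {D : Subgroup GQ} {z w : GQ → GQ → F} (hz : Cb D z)
    (h : ∀ g ∈ D, ∀ k ∈ D, w g k = z g k) : Cb D w := by
  have e : rs D w = rs D z := funext fun g => funext fun k => h g g.2 k k.2
  unfold Cb
  rw [e]
  exact hz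

/-- an automorphism of a local group does not change a class -/
theorem aut [CharP F 2] [Finite F] {X : Type} [Group X] [TopologicalSpace X]
    [IsTopologicalGroup X] [CompactSpace X] (h : Gy.Lcl X) (φ ψ : X →* X) (hφ : Continuous φ)
    (hψ : Continuous ψ) (e : ∀ x, φ (ψ x) = x) {y : X → X → F} (hy : IsZ2 y) :
    (fun g k => y (φ g) (φ k)) - y ∈ Cob F X := by
  obtain ⟨a, ha, a0, -⟩ := h.top.2 0 (zero_mem _)
  obtain ⟨b, hb, n⟩ := (h.top.1 a ha a0).1
  obtain ⟨c, k⟩ := Gy.line h ha hb n hy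
  have k' := Gy.cob_comp φ hφ k
  have n' : cup (fun g => a (φ g)) (fun g => b (φ g)) ∉ Cob (ZMod 2) X := fun m => n (by
    have := Gy.cob_comp ψ hψ m
    simp only [cup, e] at this
    exact this)
  have q := Vale.Agent.P022D.L2c.Sym.up_sub (F := F) ((Gy.loc1 h
    (Gy.z2_cup (Gy.hm_comp φ hφ ha) (Gy.hm_comp φ hφ hb)) ha hb n).resolve_left n')
  convert add_mem (sub_mem k' k) (Submodule.smul_mem _ c q) using 1
  funext g l
  simp only [Pi.sub_apply, Pi.add_apply, Pi.smul_apply, cup, Gy.ue, map_mul, smul_eq_mul]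
  ring

/-- an eigenclass with non trivial eigenvalue is zero -/
theorem eig [CharP F 2] [Finite F] {l : ℕ} {P : Ideal (𝓞 Qb)} (hP : Ov l P) {U : Subgroup GQ}
    (hU : IsOpen (U : Set GQ)) (hn : U.Normal) {d : GQ} (hd : d ∈ dec P) {y : GQ → GQ → F}
    (hy : Z2 (U ⊓ dec P) y) {c : F} (hc : c ≠ 1)
    (h : Cb (U ⊓ dec P) (fun a b => y (d * a * d⁻¹) (d * b * d⁻¹) - c * y a b)) :
    Cb (U ⊓ dec P) y := by
  haveI := cpt P hU
  have m : ∀ d ∈ dec P, ∀ x ∈ U ⊓ dec P, d * x * d⁻¹ ∈ U ⊓ dec P := fun d hd x hx =>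
    ⟨hn.conj_mem x hx.1 d, (dec P).mul_mem ((dec P).mul_mem hd hx.2) ((dec P).inv_mem hd)⟩
  have k := aut (lcl hP hU) (Syl.cm d (m d hd)) (Syl.cm d⁻¹ (m _ ((dec P).inv_mem hd)))
    (Syl.cm_cont _ _) (Syl.cm_cont _ _) (fun x => Subtype.ext (by
      show d * (d⁻¹ * x * d⁻¹⁻¹) * d⁻¹ = x
      group)) hy
  have q := Submodule.smul_mem _ (c - 1)⁻¹ (sub_mem k h)
  unfold Cb
  convert q using 1
  funext a b
  have c1 : c - 1 ≠ 0 := sub_ne_zero.2 hc
  show y a b = (c - 1)⁻¹ * ((y (d * a * d⁻¹) (d * b * d⁻¹) - y a b) -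
    (y (d * a * d⁻¹) (d * b * d⁻¹) - c * y a b))
  field_simp
  ring

/-- a class of the induced module which dies under the sum map is zero -/
theorem kill2 [CharP F 2] [Finite F] {l : ℕ} {E H : Subgroup GQ} (hE : IsDec l (E : Set GQ))
    (hH : IsOpen (H : Set GQ)) (h2 : ∀ g ∉ H, ∀ k ∉ H, g * k ∈ H) {σ : GQ} (s1 : σ ∈ E)
    (s2 : σ ∉ H) {x y : GQ → GQ → F} (ly : IsLocallyConstant fun p : GQ × GQ => y p.1 p.2)
    (c1 : ∀ g ∈ E, g ∈ H → ∀ h k, y h k + y g (h * k) = y (g * h) k + y g h)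
    (c2 : ∀ g ∈ E, g ∉ H → ∀ h k, x h k + y g (h * k) = y (g * h) k + y g h)
    (hs : Cb E (x + y)) : Cb (H ⊓ E) y ∧ Cb (H ⊓ E) x := by
  classical
  have two : (2 : F) = 0 := CharTwo.two_eq_zero
  suffices k : Cb (H ⊓ E) y from ⟨k, by
    have := sub_mem (S := Submodule F _) (cb_le (inf_le_right : H ⊓ E ≤ E) hs) k
    unfold Cb
    convert this using 1
    funext a b
    show x a b = (x a b + y a b) - y a b
    ring⟩
  obtain ⟨-, c, -, e⟩ | ⟨hl, P, p1, p2, e⟩ := hE
  · have o : ∀ g ∈ H ⊓ E, g = 1 := fun g hg => by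
      have a : g ∈ ({1, c} : Set GQ) := e ▸ hg.2
      have b : σ ∈ ({1, c} : Set GQ) := e ▸ s1
      rcases a with a | a
      · exact a
      · rcases b with b | b
        · exact absurd (b ▸ H.one_mem) s2
        · exact absurd ((show σ = g from b.trans a.symm) ▸ hg.1) s2
    refine cb_cg (z := fun _ _ => y 1 1) (Gy.cob_const _) fun g hg k hk => ?_
    rw [o g hg, o k hk]
  have eE : E = ⊤ ⊓ dec P := by rw [top_inf_eq]; exact SetLike.coe_injective e
  subst eE
  haveI := cpt P (U := ⊤) isOpen_univ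
  obtain ⟨β, hβ, hb⟩ := hs
  let ε : (⊤ ⊓ dec P : Subgroup GQ) → ZMod 2 := fun g => if (g : GQ) ∈ H then 0 else 1
  have lε : IsLocallyConstant ε := by
    refine (IsLocallyConstant.iff_exists_open _).2 fun g => ?_
    by_cases hg : (g : GQ) ∈ H
    · exact ⟨Subtype.val ⁻¹' H, hH.preimage continuous_subtype_val, hg, fun k hk => by
        simp only [ε]; rw [if_pos hg, if_pos (show (k : GQ) ∈ H from hk)]⟩
    · exact ⟨Subtype.val ⁻¹' (H : Set GQ)ᶜ, (H.isClosed_of_isOpen hH).isOpen_compl.preimage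
        continuous_subtype_val, hg, fun k hk => by
        simp only [ε]; rw [if_neg hg, if_neg (show (k : GQ) ∉ H from hk)]⟩
  have aε : ∀ g k, ε (g * k) = ε g + ε k := fun g k => by
    simp only [ε, Subgroup.coe_mul]
    by_cases hg : (g : GQ) ∈ H <;> by_cases hk : (k : GQ) ∈ H
    · rw [if_pos hg, if_pos hk, if_pos (H.mul_mem hg hk), add_zero]
    · rw [if_pos hg, if_neg hk, if_neg (mt (H.mul_mem_cancel_left hg).1 hk), zero_add]
    · rw [if_neg hg, if_pos hk, if_neg (mt (H.mul_mem_cancel_right hk).1 hg), add_zero]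
    · rw [if_neg hg, if_neg hk, if_pos (h2 _ hg _ hk)]; rfl
  have hz : IsZ2 fun g k : (⊤ ⊓ dec P : Subgroup GQ) => y g k + up F (ε g) * β k := by
    refine ⟨(ly.comp_continuous (f := fun p : (⊤ ⊓ dec P : Subgroup GQ) × (⊤ ⊓ dec P : Subgroup GQ)
      => ((p.1 : GQ), (p.2 : GQ))) (by fun_prop)).add
      (((lε.comp (up F)).comp_continuous continuous_fst).mul
        (hβ.comp_continuous continuous_snd)), fun g h k => ?_⟩
    have b := hb h k
    change β (h * k) = β h + β k + (x h k + y h k) at b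
    simp only [Subgroup.coe_mul]
    rw [aε, map_add, b]
    by_cases hg : (g : GQ) ∈ H
    · have e0 : ε g = 0 := if_pos hg
      rw [e0, map_zero]
      linear_combination c1 g g.2 hg h k
    · have e0 : ε g = 1 := if_neg hg
      rw [e0, map_one]
      linear_combination c2 g g.2 hg h k + y h k * two
  have k := Gy.kill (lcl ⟨hl, p1, p2⟩ (U := ⊤) isOpen_univ) (e := ε) ⟨lε, aε⟩
    (fun m => by
      have := congrFun m ⟨σ, s1⟩
      simp only [ε, if_neg s2] at this
      exact one_ne_zero this)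
    (H := H.subgroupOf (⊤ ⊓ dec P)) (fun g hg => if_pos hg) hz
  let φ : (H ⊓ (⊤ ⊓ dec P) : Subgroup GQ) →* H.subgroupOf (⊤ ⊓ dec P) :=
    { toFun := fun a => ⟨⟨a.1, a.2.2⟩, a.2.1⟩, map_one' := rfl, map_mul' := fun _ _ => rfl }
  have q := Gy.cob_comp φ ((continuous_subtype_val.subtype_mk _).subtype_mk _) k
  unfold Cb
  convert q using 1
  funext a b
  show y a b = y a b + up F (if (a : GQ) ∈ H then 0 else 1) * _
  rw [if_pos (show (a : GQ) ∈ H from a.2.1), map_zero, zero_mul, add_zero]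

variable {rb : GQ →* GL (Fin 2) F} {H : Subgroup GQ} {T : Finset ℕ} {D : ℕ → Set GQ}
  {o : GQ → GQ → M2 F}

theorem o_right (ho : Oc rb T o) {u : GQ} (hu : ∀ g, o g u = 0) (g h : GQ) :
    o g (h * u) = o g h := by
  have := ho.coc g h u
  rwa [hu, hu, mul_zero, zero_mul, zero_add, zero_add] at this

theorem o_left (ho : Oc rb T o) {u : GQ} (hu : ∀ g, o g u = 0 ∧ o u g = 0) {h : GQ}
    (hu' : ∀ g, o g (h⁻¹ * u * h) = 0) (g : GQ) : o (g * u) h = o g h := by
  have := ho.coc g u h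
  rw [(hu _).2, (hu _).1, mul_zero, zero_mul, zero_add, add_zero,
    show u * h = h * (h⁻¹ * u * h) by group, o_right ho hu'] at this
  exact this.symm

theorem o_lc (ho : Oc rb T o) : IsLocallyConstant fun p : GQ × GQ => o p.1 p.2 := by
  obtain ⟨U, hU, hn, h⟩ := ho.opn
  refine (IsLocallyConstant.iff_exists_open _).2 fun p =>
    ⟨(fun q : GQ × GQ => p.1⁻¹ * q.1) ⁻¹' U ∩ (fun q : GQ × GQ => p.2⁻¹ * q.2) ⁻¹' U,
      (hU.preimage (by fun_prop)).inter (hU.preimage (by fun_prop)), by simp, fun q hq => ?_⟩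
  have a := o_right ho (fun g => ((h _ hq.2).2 g).1) q.1 p.2
  have b := o_left ho (h _ hq.1).2 (h := p.2)
    (fun g => ((h _ (by simpa using hn.conj_mem _ hq.1 p.2⁻¹)).2 g).1) p.1
  rw [mul_inv_cancel_left] at a b
  rw [a, b]

theorem o_z2 (ho : Oc rb T o) {K : Subgroup GQ} (hK : K ≤ rb.ker) (i j : Fin 2) :
    Z2 K fun g h => o g h i j := by
  refine ⟨((o_lc ho).comp fun m => m i j).comp_continuous
    (f := fun p : K × K => ((p.1 : GQ), (p.2 : GQ))) (by fun_prop), fun g h k => ?_⟩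
  have := ho.coc g h k
  rw [(mker (hK g.2)).1, (mker (hK g.2)).2, one_mul, mul_one] at this
  exact congrFun (congrFun this i) j

/-- conjugation -/
theorem o_cj (ho : Oc rb T o) {K : Subgroup GQ} (hK : K ≤ rb.ker) (g : GQ) (i j : Fin 2) :
    Cb K fun a b => o (g * a * g⁻¹) (g * b * g⁻¹) i j - (mr rb g * o a b * mr rb g⁻¹) i j := by
  have lc := (o_lc ho).comp fun m => m i j
  refine ⟨fun a => o g a i j - o (g * a * g⁻¹) g i j,
    (lc.comp_continuous (f := fun a : K => (g, (a : GQ))) (by fun_prop)).sub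
      (lc.comp_continuous (f := fun a : K => (g * a * g⁻¹, g)) (by fun_prop)), fun a b => ?_⟩
  have ka : rb (g * a * g⁻¹) = 1 := (inferInstance : rb.ker.Normal).conj_mem _ (hK a.2) g
  have a1 := ho.coc (g * a * g⁻¹) (g * b * g⁻¹) g
  have a2 := ho.coc (g * a * g⁻¹) g b
  have a3 := ho.coc g a b
  rw [(mker ka).1, (mker ka).2, one_mul, mul_one] at a1 a2
  rw [inv_mul_cancel_right, show g * a * g⁻¹ * (g * b * g⁻¹) = g * (a * b) * g⁻¹ by group] at a1
  rw [inv_mul_cancel_right] at a2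
  have b1 := congrFun (congrFun a1 i) j
  have b2 := congrFun (congrFun a2 i) j
  have b3 := congrFun (congrFun a3 i) j
  simp only [Matrix.add_apply] at b1 b2 b3
  simp only [rs, Subgroup.coe_mul]
  linear_combination b1 - b2 + b3

theorem ker_le (hr : Res rb H T D) [CharP F 2] : rb.ker ≤ H := fun g hg => by
  by_contra n
  have := (hr.ad g n).1
  rw [(mker hg).1] at this
  simpa using this

theorem inv_eq (hr : Res rb H T D) (g : GQ) :
    mr rb g⁻¹ = !![mr rb g 1 1, -mr rb g 0 1; -mr rb g 1 0, mr rb g 0 0] := by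
  have d := hr.det g
  rw [Matrix.det_fin_two] at d
  have k : mr rb g * !![mr rb g 1 1, -mr rb g 0 1; -mr rb g 1 0, mr rb g 0 0] = 1 := by
    ext i j
    fin_cases i <;> fin_cases j <;> simp [Matrix.mul_apply, Fin.sum_univ_two]
    · linear_combination d
    · ring
    · ring
    · linear_combination d
  rw [← mul_one (mr rb g⁻¹), ← k, ← mul_assoc, mi, one_mul]

theorem actH (hr : Res rb H T D) {g : GQ} (hg : g ∈ H) (m : M2 F) :
    mr rb g 0 0 * mr rb g 1 1 = 1 ∧
    (mr rb g * m * mr rb g⁻¹) 0 0 = m 0 0 ∧ (mr rb g * m * mr rb g⁻¹) 1 1 = m 1 1 ∧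
    (mr rb g * m * mr rb g⁻¹) 0 1 = mr rb g 0 0 ^ 2 * m 0 1 ∧
    (mr rb g * m * mr rb g⁻¹) 1 0 = mr rb g 1 1 ^ 2 * m 1 0 := by
  have d := hr.det g
  obtain ⟨b, c⟩ := hr.dg g hg
  rw [Matrix.det_fin_two, b, zero_mul, sub_zero] at d
  rw [inv_eq hr]
  simp only [Matrix.mul_apply, Fin.sum_univ_two, b, c, Matrix.of_apply, Matrix.cons_val',
    Matrix.cons_val_zero, Matrix.cons_val_one, Matrix.cons_val_fin_one]
  refine ⟨d, ?_, ?_, ?_, ?_⟩
  · linear_combination m 0 0 * d
  · linear_combination m 1 1 * d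
  · ring
  · ring

theorem actN (hr : Res rb H T D) [CharP F 2] {g : GQ} (hg : g ∉ H) (m : M2 F) :
    mr rb g 0 1 * mr rb g 1 0 = 1 ∧
    (mr rb g * m * mr rb g⁻¹) 0 0 = m 1 1 ∧ (mr rb g * m * mr rb g⁻¹) 1 1 = m 0 0 ∧
    (mr rb g * m * mr rb g⁻¹) 0 1 = mr rb g 0 1 ^ 2 * m 1 0 ∧
    (mr rb g * m * mr rb g⁻¹) 1 0 = mr rb g 1 0 ^ 2 * m 0 1 := by
  have two : (2 : F) = 0 := CharTwo.two_eq_zero
  have d := hr.det g
  obtain ⟨b, c⟩ := hr.ad g hg
  rw [Matrix.det_fin_two, b, zero_mul, zero_sub] at d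
  rw [inv_eq hr]
  simp only [Matrix.mul_apply, Fin.sum_univ_two, b, c, Matrix.of_apply, Matrix.cons_val',
    Matrix.cons_val_zero, Matrix.cons_val_one, Matrix.cons_val_fin_one]
  refine ⟨?_, ?_, ?_, ?_, ?_⟩
  · linear_combination -d - two
  · linear_combination m 1 1 * d
  · linear_combination m 0 0 * d
  · linear_combination -(mr rb g 0 1 ^ 2 * m 1 0) * two
  · linear_combination -(mr rb g 1 0 ^ 2 * m 0 1) * two

theorem two_mem (hr : Res rb H T D) [CharP F 2] (g : GQ) (hg : g ∉ H) (k : GQ) (hk : k ∉ H) :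
    g * k ∈ H := by
  by_contra n
  have a := (hr.ad _ n).1
  rw [mm, Matrix.mul_apply, Fin.sum_univ_two, (hr.ad g hg).1, zero_mul, zero_add] at a
  rcases mul_eq_zero.1 a with a | a
  · have := (actN hr hg 0).1
    rw [a, zero_mul] at this
    exact zero_ne_one this
  · have := (actN hr hk 0).1
    rw [a, mul_zero] at this
    exact zero_ne_one this

/-- an element of `H` outside the kernel has non trivial characters -/
theorem ne_one (hr : Res rb H T D) [CharP F 2] {g : GQ} (hg : g ∈ H) (hk : g ∉ rb.ker) :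
    mr rb g 0 0 ^ 2 ≠ 1 ∧ mr rb g 1 1 ^ 2 ≠ 1 := by
  have two : (2 : F) = 0 := CharTwo.two_eq_zero
  have d := (actH hr hg 0).1
  have s : ∀ a : F, a ^ 2 = 1 → a = 1 := fun a h => by
    have : (a - 1) ^ 2 = 0 := by linear_combination h + (1 - a) * two
    exact sub_eq_zero.1 (pow_eq_zero_iff two_ne_zero |>.1 this)
  have k : mr rb g 0 0 = 1 → mr rb g 1 1 = 1 → False := fun a b => hk (by
    refine Units.ext ?_
    show mr rb g = 1
    ext i j
    fin_cases i <;> fin_cases j <;> simp [a, b, (hr.dg g hg).1, (hr.dg g hg).2])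
  refine ⟨fun h => ?_, fun h => ?_⟩
  · have a := s _ h
    exact k a (by rwa [a, one_mul] at d)
  · have a := s _ h
    exact k (by rwa [a, mul_one] at d) a

theorem tr_single (i j : Fin 2) (m : M2 F) : (Matrix.single j i (1 : F) * m).trace = m i j := by
  fin_cases i <;> fin_cases j <;>
    simp [Matrix.trace_fin_two, Matrix.mul_apply, Fin.sum_univ_two, Matrix.single_apply]

/-- the chosen decomposition group -/
theorem at_E [Finite F] [CharP F 2] (hr : Res rb H T D) (ho : Oc rb T o) {l : ℕ}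
    (hA : At rb D o l) {E : Subgroup GQ} (hE : IsDec l (E : Set GQ)) (e : (E : Set GQ) = D l)
    (i j : Fin 2) : Cb (rb.ker ⊓ E) fun g h => o g h i j := by
  have oK : IsOpen (rb.ker : Set GQ) := hr.lv.opn
  have oH : IsOpen (H : Set GQ) := Subgroup.isOpen_mono (ker_le hr) oK
  have lc := o_lc ho
  have le : rb.ker ⊓ E ≤ H ⊓ E := inf_le_inf_right E (ker_le hr)
  have hA' : ∀ x : M2 F, (∀ g ∈ E, mr rb g * x * mr rb g⁻¹ = x) →
      Cb E fun g h => (x * o g h).trace := fun x hx => hA E e x fun g hg => hx g (by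
        rwa [← e] at hg)
  have co : ∀ g h k i j, (mr rb g * o h k * mr rb g⁻¹) i j + o g (h * k) i j =
      o (g * h) k i j + o g h i j := fun g h k i j => congrFun (congrFun (ho.coc g h k) i) j
  have dgl : (Cb (rb.ker ⊓ E) fun g h => o g h 0 0) ∧ Cb (rb.ker ⊓ E) fun g h => o g h 1 1 := by
    by_cases hEH : E ≤ H
    · have k : ∀ i : Fin 2, Cb (rb.ker ⊓ E) fun g h => o g h i i := fun i => by
        refine cb_cg (cb_le inf_le_right (hA' (Matrix.single i i 1) fun g hg => ?_))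
          fun g _ k _ => (tr_single i i _).symm
        obtain ⟨-, a, b, c, d⟩ := actH hr (hEH hg) (Matrix.single i i 1)
        ext p q
        fin_cases i <;> fin_cases p <;> fin_cases q <;>
          first
            | exact a
            | exact b
            | (refine c.trans ?_; simp)
            | (refine d.trans ?_; simp)
      exact ⟨k 0, k 1⟩
    · obtain ⟨σ, s1, s2⟩ := SetLike.not_le_iff_exists.1 hEH
      have k := kill2 hE oH (two_mem hr) s1 s2 (x := fun g h => o g h 1 1)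
        (y := fun g h => o g h 0 0) (lc.comp fun m => m 0 0)
        (fun g _ hg h k => by rw [← co, (actH hr hg _).2.1])
        (fun g _ hg h k => by rw [← co, (actN hr hg _).2.1])
        (cb_cg (hA' 1 fun g _ => by rw [mul_one, mi']) fun g _ k _ => by
          rw [one_mul, Matrix.trace_fin_two, add_comm]; rfl)
      exact ⟨cb_le le k.1, cb_le le k.2⟩
  have off : (Cb (rb.ker ⊓ E) fun g h => o g h 0 1) ∧ Cb (rb.ker ⊓ E) fun g h => o g h 1 0 := by
    by_cases h1 : ∃ d ∈ E, d ∈ H ∧ d ∉ rb.ker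
    · obtain ⟨d, d1, d2, d3⟩ := h1
      obtain ⟨n0, n1⟩ := ne_one hr d2 d3
      obtain ⟨-, c, hc, e'⟩ | ⟨hl, P, p1, p2, e'⟩ := hE
      · exfalso
        have a : d ∈ ({1, c} : Set GQ) := e' ▸ d1
        have dd : d * d = 1 := by
          rcases a with a | a
          · rw [a, mul_one]
          · rw [show d = c from a]; exact Ob.conj_sq hc
        have q : mr rb (d * d) 0 0 = 1 := by rw [dd, m1]; simp
        rw [mm, Matrix.mul_apply, Fin.sum_univ_two, (hr.dg d d2).1, zero_mul, add_zero, ← sq] at q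
        exact n0 q
      have eE : E = dec P := SetLike.coe_injective e'
      subst eE
      refine ⟨eig ⟨hl, p1, p2⟩ oK inferInstance d1 (o_z2 ho inf_le_left 0 1) n0
        (cb_cg (o_cj ho inf_le_left d 0 1) fun g _ k _ => ?_),
        eig ⟨hl, p1, p2⟩ oK inferInstance d1 (o_z2 ho inf_le_left 1 0) n1
        (cb_cg (o_cj ho inf_le_left d 1 0) fun g _ k _ => ?_)⟩
      · rw [(actH hr d2 _).2.2.2.1]
      · rw [(actH hr d2 _).2.2.2.2]
    have h2 : ∀ d ∈ E, d ∈ H → rb d = 1 := fun d d1 d2 => by_contra fun d3 => h1 ⟨d, d1, d2, d3⟩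
    by_cases hEH : E ≤ H
    · have k : ∀ i j : Fin 2, Cb (rb.ker ⊓ E) fun g h => o g h i j := fun i j =>
        cb_cg (cb_le inf_le_right (hA' (Matrix.single j i 1) fun g hg => by
          rw [(mker (h2 g hg (hEH hg))).1, (mker (h2 g hg (hEH hg))).2, one_mul, mul_one]))
          fun g _ k _ => (tr_single i j _).symm
      exact ⟨k 0 1, k 1 0⟩
    obtain ⟨σ, s1, s2⟩ := SetLike.not_le_iff_exists.1 hEH
    have h3 : ∀ g ∈ E, g ∉ H → mr rb g = mr rb σ := fun g g1 g2 => by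
      have := h2 (g * σ⁻¹) (E.mul_mem g1 (E.inv_mem s1))
        (two_mem hr g g2 _ (mt H.inv_mem_iff.1 s2))
      rw [← inv_mul_cancel_right g σ, mm, (mker this).1, one_mul]
    have bc := (actN hr s2 0).1
    have k := kill2 hE oH (two_mem hr) s1 s2 (x := fun g h => mr rb σ 0 1 * o g h 1 0)
      (y := fun g h => mr rb σ 1 0 * o g h 0 1) (lc.comp fun m => mr rb σ 1 0 * m 0 1)
      (fun g g1 hg h k => by
        have := co g h k 0 1
        rw [(mker (h2 g g1 hg)).1, (mker (h2 g g1 hg)).2, one_mul, mul_one] at this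
        linear_combination mr rb σ 1 0 * this)
      (fun g g1 hg h k => by
        have := co g h k 0 1
        rw [(actN hr hg _).2.2.2.1, h3 g g1 hg] at this
        linear_combination mr rb σ 1 0 * this - mr rb σ 0 1 * o h k 1 0 * bc)
      (cb_cg (hA' (mr rb σ) fun g g1 => by
          by_cases hg : g ∈ H
          · rw [(mker (h2 g g1 hg)).1, (mker (h2 g g1 hg)).2, one_mul, mul_one]
          · rw [← h3 g g1 hg, mul_assoc, mi', mul_one]) fun g _ k _ => by
        simp only [Pi.add_apply, Matrix.trace_fin_two, Matrix.mul_apply, Fin.sum_univ_two,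
          (hr.ad σ s2).1, (hr.ad σ s2).2, zero_mul, zero_add, add_zero])
    refine ⟨cb_cg (z := mr rb σ 0 1 • fun g h => mr rb σ 1 0 * o g h 0 1)
        (Submodule.smul_mem (Syl.CS F _) _ (cb_le le k.1)) fun g _ k _ => ?_,
      cb_cg (z := mr rb σ 1 0 • fun g h => mr rb σ 0 1 * o g h 1 0)
        (Submodule.smul_mem (Syl.CS F _) _ (cb_le le k.2)) fun g _ k _ => ?_⟩
    · simp only [Pi.smul_apply, smul_eq_mul]
      rw [← mul_assoc, bc, one_mul]
    · simp only [Pi.smul_apply, smul_eq_mul]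
      rw [← mul_assoc, mul_comm (mr rb σ 1 0), bc, one_mul]
  fin_cases i <;> fin_cases j
  · exact dgl.1
  · exact off.1
  · exact off.2
  · exact dgl.2

end H89

open H89 in
/-- **row LOC** -/
theorem locC : LOC := by
  intro F _ _ _ rb H T D o hr ho hA i j l E hE
  have oK : IsOpen (rb.ker : Set GQ) := hr.lv.opn
  by_cases hl : l ∈ T
  · obtain ⟨E₀, e⟩ := Ob.ex_sub (hr.lv.dec l hl)
    have hE₀ : IsDec l (E₀ : Set GQ) := e ▸ hr.lv.dec l hl
    obtain ⟨g, rfl⟩ := Ob.ex_Dc hE₀ hE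
    have k := at_E hr ho (hA l hl) hE₀ e
    have nK : rb.ker.Normal := inferInstance
    refine (Syl.cb_iff (V := rb.ker ⊓ E₀) g fun x => ?_).1 ?_
    · rw [Subgroup.mem_inf, Subgroup.mem_inf]
      refine and_congr ⟨fun h => nK.conj_mem x h g,
        fun h => by simpa [mul_assoc] using nK.conj_mem _ h g⁻¹⟩ ?_
      rw [Ob.mem_Dc hE₀, show g⁻¹ * (g * x * g⁻¹) * g = x by group]
      rfl
    · have q : (∑ p : Fin 2, ∑ q : Fin 2, (mr rb g i p * mr rb g⁻¹ q j) •
          fun a b => o a b p q) ∈ Syl.CS F (rb.ker ⊓ E₀) :=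
        Submodule.sum_mem _ fun p _ => Submodule.sum_mem _ fun q _ =>
          Submodule.smul_mem _ _ (k p q)
      refine cb_cg (Syl.mem_CS.1 (Submodule.add_mem _
        (Syl.mem_CS.2 (o_cj ho inf_le_left g i j)) q)) fun a _ b _ => ?_
      simp only [Syl.cc, LinearMap.coe_mk, AddHom.coe_mk, Pi.add_apply, Fin.sum_univ_two,
        Pi.smul_apply, smul_eq_mul, Matrix.mul_apply]
      ring
  · obtain ⟨h0, -⟩ | ⟨hp, P, p1, p2, e⟩ := hE
    · exact absurd (h0 ▸ hr.lv.h0) hl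
    have eE : E = dec P := SetLike.coe_injective e
    subst eE
    have hP : Ov l P := ⟨hp, p1, p2⟩
    refine unrC F rb.ker l P _ oK hP (o_z2 ho inf_le_left i j) fun g _ h _ u _ hu => ?_
    obtain ⟨P', hP', k⟩ := Lf.inert_cj hP h⁻¹
    have k' := k u hu
    rw [inv_inv] at k'
    exact ⟨by rw [o_left ho (ho.unr l hl P hP u hu) fun g => (ho.unr l hl P' hP' _ k' g).1],
      by rw [o_right ho fun g => (ho.unr l hl P hP u hu g).1]⟩

end P022G.Lb90
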