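import Vale.Agent.P022G.Lb90.Defs
import Vale.Agent.P022G.Sel.Bas
import Vale.Agent.P022E.GW.Hyp

/-!
# P022G, the lower bound at a curve from one step of the devissage
-/

set_option linter.all false

noncomputable section

namespace P022G.Lb90.Tp90

open NumberField
open Vale.Agent.P022
open Vale.Agent.P027M.S (Inert)
open Vale.Agent.P022D.Sel (M2 IsDec Ginf)
open Vale.Agent.P022E.GW (Ov Op Ur Cb Z2 Lc Bg)
open P022G.Sel P022G.Sel.Bas

variable {A : Type} [CommRing A] (t : A)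

theorem tle {a b : ℕ} (h : a ≤ b) : tI t b ≤ tI t a :=
  Ideal.span_singleton_le_span_singleton.2 (pow_dvd_pow t h)

/-- multiplication by a power of `t` -/
def mt (a b c : ℕ) (h : a + b = c) : A ⧸ tI t a →+ A ⧸ tI t c :=
  (Submodule.mapQ (tI t a) (tI t c) (LinearMap.mulLeft A (t ^ b)) (fun x hx => by
    obtain ⟨u, rfl⟩ := Ideal.mem_span_singleton.1 hx
    exact Ideal.mem_span_singleton.2 ⟨u, by
      rw [LinearMap.mulLeft_apply, ← h]; ring⟩)).toAddMonoidHom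

theorem mt_mk (a b c : ℕ) (h : a + b = c) (x : A) :
    mt t a b c h (Ideal.Quotient.mk _ x) = Ideal.Quotient.mk _ (t ^ b * x) := rfl

theorem mt_inj [IsDomain A] (h0 : t ≠ 0) (a b c : ℕ) (h : a + b = c) :
    Function.Injective (mt t a b c h) := (injective_iff_map_eq_zero _).2 fun x hx => by
  obtain ⟨x, rfl⟩ := Ideal.Quotient.mk_surjective x
  rw [mt_mk, Ideal.Quotient.eq_zero_iff_mem, Ideal.mem_span_singleton, ← h, pow_add,
    mul_comm (t ^ a)] at hx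
  exact Ideal.Quotient.eq_zero_iff_mem.2 (Ideal.mem_span_singleton.2
    ((mul_dvd_mul_iff_left (pow_ne_zero b h0)).1 hx))

theorem mt_ker (a b c : ℕ) (h : a + b = c) (k : b ≤ c) (x : A ⧸ tI t c) :
    Ideal.Quotient.factor (tle t k) x = 0 ↔ ∃ y, mt t a b c h y = x := by
  obtain ⟨x, rfl⟩ := Ideal.Quotient.mk_surjective x
  constructor
  · intro hx
    obtain ⟨u, rfl⟩ := Ideal.mem_span_singleton.1 (Ideal.Quotient.eq_zero_iff_mem.1 hx)
    exact ⟨Ideal.Quotient.mk _ u, rfl⟩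
  · rintro ⟨y, hy⟩
    obtain ⟨y, rfl⟩ := Ideal.Quotient.mk_surjective y
    rw [← hy, mt_mk]
    exact Ideal.Quotient.eq_zero_iff_mem.2 (Ideal.mem_span_singleton.2 ⟨y, rfl⟩)

theorem bc_rd {a b : ℕ} (h : a ≤ b) (ρ : GQ →* GL (Fin 2) A) :
    bc (Ideal.Quotient.factor (tle t h)) (rd (tI t b) ρ) = rd (tI t a) ρ :=
  MonoidHom.ext fun g => Units.ext (Matrix.ext fun _ _ => rfl)

theorem lv_mono {R : Type} [CommRing R] {ρ : GQ →* GL (Fin 2) R} {T T₁ : Finset ℕ}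
    {D D₁ : ℕ → Set GQ} (h : Lv ρ T D) (le : T ⊆ T₁) (hD : ∀ l ∈ T₁, IsDec l (D₁ l)) :
    Lv ρ T₁ D₁ :=
  ⟨h.opn, le h.h0, le h.h2, hD, fun l hl => h.unr l fun k => hl (le k)⟩

theorem lba2 (hS : STEP) (hA : AUX0) (hF : FINR) : LBA2 := by
  classical
  rintro A _ _ _ _ t ρ T D ht fin hN ⟨H, hd, ha⟩
  haveI : (tI t 1).IsMaximal := by
    rw [tI, pow_one]; exact PrincipalIdealRing.isMaximal_of_irreducible ht
  letI : Field (A ⧸ tI t 1) := Ideal.Quotient.field _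
  haveI : CharP (A ⧸ tI t 1) 2 := CharTwo.of_one_ne_zero_of_two_eq_zero one_ne_zero (two_q _)
  have z1 : ∀ x : A, t ∣ x → Ideal.Quotient.mk (tI t 1) x = 0 := fun x hx =>
    Ideal.Quotient.eq_zero_iff_mem.2 (Ideal.mem_span_singleton.2 (by rwa [pow_one]))
  obtain ⟨A₀, p0, hb⟩ := Vale.Agent.P022E.GW.Hy.ex_bg (U := (rd (tI t 1) ρ).ker) (hN.lv 1).opn
  obtain ⟨l₀, D', e, q0, n0, d0, hg⟩ : ∃ (l₀ : ℕ) (D' : Set GQ) (e : ℕ), l₀.Prime ∧ l₀ ∉ T ∧
      IsDec l₀ D' ∧ (H = ⊤ → (∀ g ∈ D', rd (tI t 1) ρ g = 1) ∧ ∀ X : M2 A,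
        (∀ g ∈ D', ∀ i j, t ^ e ∣ (mr ρ g * X - X * mr ρ g) i j) → t ∣ X.trace) := by
    by_cases hH : H = ⊤
    · obtain ⟨l, D', e, a, b, c, d⟩ := hA A t ρ T D ht fin hN fun g => hd g (by rw [hH]; trivial)
      exact ⟨l, D', e, a, b, c, fun _ => d⟩
    · obtain ⟨l, a, b⟩ := Nat.infinite_setOf_prime.exists_notMem_finset T
      obtain ⟨D', c⟩ := Vale.Agent.P022E.GW.Hy.ex_dec (l := l) a
      exact ⟨l, D', 0, a, b, c, fun k => absurd k hH⟩
  have ex : ∀ l : ℕ, ∃ E : Set GQ, (l ∈ T → E = D l) ∧ (l = l₀ → E = D') ∧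
      (l ∈ insert l₀ (T ∪ A₀) → IsDec l E) := by
    intro l
    by_cases k : l ∈ T
    · exact ⟨D l, fun _ => rfl, fun e => absurd (e ▸ k) n0, fun _ => (hN.lv 1).dec l k⟩
    by_cases k' : l = l₀
    · exact ⟨D', fun m => absurd m k, fun _ => rfl, fun _ => k' ▸ d0⟩
    by_cases k'' : l ∈ A₀
    · obtain ⟨E, c⟩ := Vale.Agent.P022E.GW.Hy.ex_dec (p0 l k'')
      exact ⟨E, fun m => absurd m k, fun m => absurd m k', fun _ => c⟩
    · exact ⟨∅, fun m => absurd m k, fun m => absurd m k', fun m => by simp [k, k', k''] at m⟩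
  choose D₀ e1 e2 e3 using ex
  refine ⟨insert l₀ (T ∪ A₀), D₀, fun l k => by simp [k], e1, e3, fun T₁ D₁ le eq hD => ?_⟩
  have tl : T ⊆ T₁ := fun l k => le (by simp [k])
  have lv : ∀ N, Lv (rd (tI t N) ρ) T₁ D₁ := fun N => lv_mono (hN.lv N) tl hD
  have hR : Res (rd (tI t 1) ρ) H T₁ D₁ :=
    ⟨lv 1, fun g => by
      rw [mr_rd, ← RingHom.mapMatrix_apply, ← RingHom.map_det, hN.det, map_one],
      fun g hg => ⟨z1 _ (hd g hg).1, z1 _ (hd g hg).2⟩,
      fun g hg => ⟨z1 _ (ha g hg).1, z1 _ (ha g hg).2⟩,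
      hb T₁ fun l k => le (by simp [k]), by
      obtain ⟨s, -, hs, -⟩ := hN.reg
      refine ⟨s, ?_⟩
      rw [mr_rd, ← AddMonoidHom.map_trace (Ideal.Quotient.mk (tI t 1))]
      exact (hs.map _).ne_zero⟩
  have pos : ∀ N, 0 < Nat.card (H1R (rd (tI t N) ρ) T₁) := fun N => by
    haveI := fin_tI fin N
    haveI : Finite (H1R (rd (tI t N) ρ) T₁) := hF _ _ T₁ (two_q _) (lv N).opn
    haveI : Nonempty (H1R (rd (tI t N) ρ) T₁) := ⟨⟨0, (H1M (rd (tI t N) ρ) T₁).zero_mem⟩⟩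
    exact Nat.card_pos
  have st : ∀ N, e ≤ N + 1 → Nat.card (FxR (rd (tI t (N + 1)) ρ) T₁ D₁) *
      Nat.card (A ⧸ tI t 1) ^ 3 * Nat.card (H1R (rd (tI t N) ρ) T₁) ≤
      Nat.card (FxR (rd (tI t N) ρ) T₁ D₁) * Nat.card (H1R (rd (tI t (N + 1)) ρ) T₁) := by
    intro N hN'
    haveI := fin_tI fin (N + 1)
    have h1 : 1 ≤ N + 1 := by omega
    have k := hS (A ⧸ tI t (N + 1)) (A ⧸ tI t N) (A ⧸ tI t 1)
      (Ideal.Quotient.factor (tle t (Nat.le_succ N))) (Ideal.Quotient.factor (tle t h1))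
      (mt t 1 N (N + 1) (by omega)) (mt t N 1 (N + 1) rfl) (rd (tI t (N + 1)) ρ) H T₁ D₁
      ⟨two_q _, Ideal.Quotient.factor_surjective _, Ideal.Quotient.factor_surjective _,
        mt_inj t ht.ne_zero _ _ _ _, mt_ker t _ _ _ _ (Nat.le_succ N), fun r a => by
          obtain ⟨r, rfl⟩ := Ideal.Quotient.mk_surjective r
          obtain ⟨a, rfl⟩ := Ideal.Quotient.mk_surjective a
          exact congrArg (Ideal.Quotient.mk _) (mul_left_comm r (t ^ N) a),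
        mt_inj t ht.ne_zero _ _ _ _, fun x hx => (mt_ker t _ _ _ _ h1 x).1 hx, fun r s => by
          obtain ⟨r, rfl⟩ := Ideal.Quotient.mk_surjective r
          obtain ⟨s, rfl⟩ := Ideal.Quotient.mk_surjective s
          exact congrArg (Ideal.Quotient.mk _) (mul_left_comm r (t ^ 1) s)⟩
      (lv _) (by rw [bc_rd t h1]; exact hR) (fun hH => by
        have ed : D₁ l₀ = D' := (eq l₀ (by simp)).trans (e2 l₀ rfl)
        refine ⟨l₀, le (by simp), q0, fun k => n0 (k ▸ (hN.lv 1).h2), fun g m => ?_,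
          fun X hX => ?_⟩
        · rw [bc_rd t h1]; exact (hg hH).1 g (ed ▸ m)
        · choose Y hY using fun i j => Ideal.Quotient.mk_surjective (X i j)
          obtain rfl : X = (Matrix.of Y).map (Ideal.Quotient.mk _) :=
            Matrix.ext fun i j => (hY i j).symm
          rw [← AddMonoidHom.map_trace (Ideal.Quotient.mk (tI t (N + 1)))]
          refine z1 _ ((hg hH).2 _ fun g m i j => (pow_dvd_pow t hN').trans ?_)
          have k := congrArg (· * mr (rd (tI t (N + 1)) ρ) g) (hX g (ed ▸ m))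
          simp only [mul_assoc, mi, mul_one] at k
          rw [mr_rd, ← Matrix.map_mul, ← Matrix.map_mul] at k
          exact Ideal.mem_span_singleton.1
            (Ideal.Quotient.eq.1 (congrFun (congrFun k i) j)))
    rwa [bc_rd t (Nat.le_succ N)] at k
  refine ⟨∑ N ∈ Finset.range (e + 1), Nat.card (FxR (rd (tI t N) ρ) T₁ D₁) *
    Nat.card (A ⧸ tI t N) ^ 3, fun N => ?_⟩
  induction N with
  | zero =>
    exact (Finset.single_le_sum (f := fun N => Nat.card (FxR (rd (tI t N) ρ) T₁ D₁) *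
      Nat.card (A ⧸ tI t N) ^ 3) (fun _ _ => Nat.zero_le _) (by simp)).trans
      (Nat.le_mul_of_pos_right _ (pos 0))
  | succ N ih =>
    by_cases k : N + 1 ≤ e
    · exact (Finset.single_le_sum (f := fun N => Nat.card (FxR (rd (tI t N) ρ) T₁ D₁) *
        Nat.card (A ⧸ tI t N) ^ 3) (fun _ _ => Nat.zero_le _)
        (Finset.mem_range.2 (by omega))).trans (Nat.le_mul_of_pos_right _ (pos _))
    refine Nat.le_of_mul_le_mul_right ?_ (pos N)
    calc _ ≤ Nat.card (FxR (rd (tI t (N + 1)) ρ) T₁ D₁) *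
          (Nat.card (A ⧸ tI t N) * Nat.card (A ⧸ tI t 1)) ^ 3 *
          Nat.card (H1R (rd (tI t N) ρ) T₁) :=
          Nat.mul_le_mul_right _ (Nat.mul_le_mul_left _ (Nat.pow_le_pow_left (card_add fin N 1) 3))
      _ = Nat.card (FxR (rd (tI t (N + 1)) ρ) T₁ D₁) * Nat.card (A ⧸ tI t 1) ^ 3 *
          Nat.card (H1R (rd (tI t N) ρ) T₁) * Nat.card (A ⧸ tI t N) ^ 3 := by ring
      _ ≤ Nat.card (FxR (rd (tI t N) ρ) T₁ D₁) * Nat.card (H1R (rd (tI t (N + 1)) ρ) T₁) *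
          Nat.card (A ⧸ tI t N) ^ 3 := Nat.mul_le_mul_right _ (st N (by omega))
      _ = Nat.card (FxR (rd (tI t N) ρ) T₁ D₁) * Nat.card (A ⧸ tI t N) ^ 3 *
          Nat.card (H1R (rd (tI t (N + 1)) ρ) T₁) := by ring
      _ ≤ _ := (Nat.mul_le_mul_right _ ih).trans (le_of_eq (by ring))

end P022G.Lb90.Tp90
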