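import Vale.Agent.P022G.Lb90.Defs
import Vale.Agent.P022G.Sel.St0
import Vale.Agent.P022D.W.Tame

/-! P022G, the lower bound: a prime whose local invariants have a small trace. -/

set_option linter.all false

noncomputable section

namespace P022G.Lb90

open NumberField Vale.Agent.P022
open Vale.Agent.P022D.Sel (M2 Stab)
open P022G.Sel P022G.Sel.St0

theorem aux0C : AUX0 := by
  intro A _ _ _ _ t ρ T D ht _ hN hs
  have t2 : (2 : A) = 0 := CharTwo.two_eq_zero
  have nu : ∀ {x : A}, t ∣ x → ¬ IsUnit x := fun h hu => ht.not_isUnit (isUnit_of_dvd_unit h hu)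
  obtain ⟨h, hu, h1⟩ := ex_h ht hN.det hN.irr fun g => Or.inl ⟨nu (hs g).1, nu (hs g).2⟩
  obtain ⟨l, P, φ, e, hl, -, ho, hφ, y, z, w, s1, s2, s3, su⟩ := prime0 ht hN hu h1 T
  have k0 : rd (tI t 1) ρ φ = 1 := by
    obtain ⟨⟨b, hb⟩, ⟨c, hc⟩⟩ := hs φ
    have d := hN.det φ
    rw [Matrix.det_fin_two] at d
    have e0 : t ∣ mr ρ φ 0 0 - 1 := by
      refine ht.prime.dvd_of_dvd_pow (n := 2) ⟨b * mr ρ φ 1 0 + mr ρ φ 0 0 * t ^ e * w, ?_⟩
      linear_combination d + mr ρ φ 1 0 * hb + mr ρ φ 0 0 * s3 + (1 - mr ρ φ 0 0) * t2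
    have e1 : t ∣ mr ρ φ 1 1 - 1 := by
      obtain ⟨r, hr⟩ := e0
      exact ⟨r - t ^ e * w, by linear_combination hr - s3⟩
    have q : ∀ {u v : A}, t ∣ u - v →
        Ideal.Quotient.mk (tI t 1) u = Ideal.Quotient.mk (tI t 1) v := fun h => by
      rw [Ideal.Quotient.eq, Ideal.mem_span_singleton, pow_one]; exact h
    refine Units.ext ?_
    change (Ideal.Quotient.mk (tI t 1)).mapMatrix (mr ρ φ) = 1
    rw [← map_one (Ideal.Quotient.mk (tI t 1)).mapMatrix]
    ext i j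
    simp only [RingHom.mapMatrix_apply, Matrix.map_apply]
    refine q ?_
    fin_cases i <;> fin_cases j
    · simpa using e0
    · simpa using (hs φ).1
    · simpa using (hs φ).2
    · simpa using e1
  refine ⟨l, {g | Stab P g}, e + 1, ho.1, hl, Or.inr ⟨ho.1, P, ho.2.1, ho.2.2, rfl⟩, ?_, ?_⟩
  · intro g hg
    obtain ⟨k, s, u, hi, hu', rfl⟩ := Vale.Agent.P022D.W.dec_gen ho.1 ho.2.1 ho.2.2 hφ hg
      (rd (tI t 1) ρ).ker (hN.lv 1).opn
    have u1 : rd (tI t 1) ρ u = 1 := hu'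
    rw [map_mul, map_mul, map_pow, u1, k0, (hN.lv 1).unr l hl P ho s hi, one_pow, one_mul, one_mul]
  · intro X hX
    have hφd : Stab P φ := Vale.Agent.P022D.W.phi_mem ho.1 ho.2.1 hφ
    have t0 : t ^ e ≠ 0 := pow_ne_zero _ ht.ne_zero
    have f : t ∣ X 0 0 - X 1 1 := by
      rcases su with su | su
      · obtain ⟨r, hr⟩ := hX φ hφd 0 1
        simp only [Matrix.sub_apply, Matrix.mul_apply, Fin.sum_univ_two] at hr
        refine (su.dvd_mul_left).1 ⟨w * X 0 1 - r, mul_left_cancel₀ t0 ?_⟩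
        linear_combination -hr + X 0 1 * s3 + (X 1 1 - X 0 0) * s1
      · obtain ⟨r, hr⟩ := hX φ hφd 1 0
        simp only [Matrix.sub_apply, Matrix.mul_apply, Fin.sum_univ_two] at hr
        refine (su.dvd_mul_left).1 ⟨w * X 1 0 + r, mul_left_cancel₀ t0 ?_⟩
        linear_combination hr + X 1 0 * s3 + (X 1 1 - X 0 0) * s2
    obtain ⟨r, hr⟩ := f
    exact ⟨r, by rw [Matrix.trace_fin_two]; linear_combination hr + X 1 1 * t2⟩

end P022G.Lb90
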