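import Vale.Agent.P022G.Lb90.Defs
import Vale.Agent.P022G.Sel.Bas
import Vale.Agent.P022E.GW.Hyp

/-!
# P022G, lower bound at a curve: the induction over the levels
-/

set_option linter.all false

noncomputable section

namespace P022G.Lb90.Top

open NumberField
open Vale.Agent.P022
open Vale.Agent.P022D.Sel (M2 IsDec Stab)
open Vale.Agent.P022E.GW (Bg)
open P022G.Sel P022G.Sel.Bas

theorem ex_dec {l : ℕ} (hl : l.Prime) : ∃ E : Set GQ, IsDec l E := by
  have h1 : (Ideal.span {(l : ℤ)}).IsPrime :=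
    (Ideal.span_singleton_prime (Int.natCast_ne_zero.2 hl.ne_zero)).2 (Nat.prime_iff_prime_int.1 hl)
  obtain ⟨P, -, hP, h⟩ := Ideal.exists_ideal_over_prime_of_isIntegral (S := 𝓞 Qb)
    (Ideal.span {(l : ℤ)}) ⊥ (by
      rw [← RingHom.ker_eq_comap_bot,
        (RingHom.injective_iff_ker_eq_bot _).1 (algebraMap ℤ (𝓞 Qb)).injective_int]
      exact bot_le)
  refine ⟨_, Or.inr ⟨hl, P, hP, ?_, rfl⟩⟩
  have h2 : (l : ℤ) ∈ P.comap (algebraMap ℤ (𝓞 Qb)) := h ▸ Ideal.mem_span_singleton_self _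
  rwa [Ideal.mem_comap, map_natCast] at h2

theorem ind (f a h : ℕ → ℕ) (q e : ℕ) (hh : ∀ N, 0 < h N) (ha : ∀ N, a (N + 1) ≤ a N * q)
    (hs : ∀ N, e ≤ N → f (N + 1) * q ^ 3 * h N ≤ f N * h (N + 1)) :
    ∃ C, ∀ N, f N * a N ^ 3 ≤ C * h N := by
  refine ⟨∑ n ∈ Finset.range (e + 1), f n * a n ^ 3, fun N => ?_⟩
  induction N with
  | zero =>
    exact (Finset.single_le_sum (f := fun n => f n * a n ^ 3) (fun _ _ => Nat.zero_le _)
      (Finset.mem_range.2 e.succ_pos)).trans (Nat.le_mul_of_pos_right _ (hh _))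
  | succ N ih =>
    by_cases hN : e ≤ N
    · refine Nat.le_of_mul_le_mul_right ?_ (hh N)
      calc f (N + 1) * a (N + 1) ^ 3 * h N ≤ f (N + 1) * (a N * q) ^ 3 * h N := by
            gcongr; exact ha N
        _ = f (N + 1) * q ^ 3 * h N * a N ^ 3 := by ring
        _ ≤ f N * h (N + 1) * a N ^ 3 := Nat.mul_le_mul_right _ (hs N hN)
        _ = f N * a N ^ 3 * h (N + 1) := by ring
        _ ≤ _ := (Nat.mul_le_mul_right _ ih).trans (le_of_eq (by ring))
    · exact (Finset.single_le_sum (f := fun n => f n * a n ^ 3) (fun _ _ => Nat.zero_le _)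
        (Finset.mem_range.2 (by omega))).trans (Nat.le_mul_of_pos_right _ (hh _))

variable {A : Type} [CommRing A] (t : A)

theorem mk0 {N : ℕ} {x : A} : Ideal.Quotient.mk (tI t N) x = 0 ↔ t ^ N ∣ x := by
  rw [Ideal.Quotient.eq_zero_iff_mem, Ideal.mem_span_singleton]

theorem tle {a b : ℕ} (h : a ≤ b) : tI t b ≤ tI t a :=
  Ideal.span_singleton_le_span_singleton.2 (pow_dvd_pow t h)

/-- multiplication by a power of `t` -/
def mq (a b c : ℕ) (h : b + a = c) : A ⧸ tI t a →+ A ⧸ tI t c :=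
  (Submodule.mapQ (tI t a) (tI t c) (LinearMap.mul A A (t ^ b)) fun x hx => by
    rw [Submodule.mem_comap, LinearMap.mul_apply', ← h, Ideal.mem_span_singleton, pow_add]
    exact mul_dvd_mul_left _ (Ideal.mem_span_singleton.1 hx)).toAddMonoidHom

theorem mq_mk (a b c : ℕ) (h : b + a = c) (x : A) :
    mq t a b c h (Ideal.Quotient.mk _ x) = Ideal.Quotient.mk _ (t ^ b * x) := rfl

theorem mq_inj [IsDomain A] (ht : t ≠ 0) (a b c : ℕ) (h : b + a = c) :
    Function.Injective (mq t a b c h) := by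
  rw [injective_iff_map_eq_zero]
  intro x hx
  obtain ⟨x, rfl⟩ := Ideal.Quotient.mk_surjective x
  rw [mq_mk, mk0, ← h, pow_add, mul_dvd_mul_iff_left (pow_ne_zero b ht)] at hx
  exact (mk0 t).2 hx

theorem bc_rd {a b : ℕ} (h : a ≤ b) (ρ : GQ →* GL (Fin 2) A) :
    bc (Ideal.Quotient.factor (tle t h)) (rd (tI t b) ρ) = rd (tI t a) ρ :=
  MonoidHom.ext fun g => Units.ext (Matrix.ext fun i j => rfl)

end P022G.Lb90.Top

namespace P022G.Lb90

open NumberField
open Vale.Agent.P022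
open Vale.Agent.P022D.Sel (M2 IsDec Stab)
open Vale.Agent.P022E.GW (Bg)
open P022G.Sel P022G.Sel.Bas Top

theorem lba2 (hS : STEP) (hA : AUX0) (hF : FINR) : LBA2 := by
  classical
  intro A _ _ _ _ t ρ T D ht hfin hN ⟨H, hdg, had⟩
  have hmax : (tI t 1).IsMaximal := by
    rw [tI, pow_one]; exact PrincipalIdealRing.isMaximal_of_irreducible ht
  letI : Field (A ⧸ tI t 1) := Ideal.Quotient.field _
  haveI : CharP (A ⧸ tI t 1) 2 := CharTwo.of_one_ne_zero_of_two_eq_zero one_ne_zero (two_q _)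
  obtain ⟨A₀, hA₀, hbg⟩ := Vale.Agent.P022E.GW.Hy.ex_bg (U := (rd (tI t 1) ρ).ker) (hN.lv 1).opn
  obtain ⟨l₀, E, e, hl₀, hE, hl⟩ : ∃ (l₀ : ℕ) (E : Set GQ) (e : ℕ), l₀.Prime ∧ IsDec l₀ E ∧
      (H = ⊤ → l₀ ∉ T ∧ (∀ g ∈ E, rd (tI t 1) ρ g = 1) ∧ ∀ X : M2 A,
        (∀ g ∈ E, ∀ i j, t ^ e ∣ (mr ρ g * X - X * mr ρ g) i j) → t ∣ X.trace) := by
    by_cases hH : H = ⊤
    · obtain ⟨l₀, E, e, a, b, c, d⟩ := hA A t ρ T D ht hfin hN fun g => hdg g (hH ▸ trivial)
      exact ⟨l₀, E, e, a, c, fun _ => ⟨b, d⟩⟩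
    · obtain ⟨E, hE⟩ := ex_dec Nat.prime_two
      exact ⟨2, E, 0, Nat.prime_two, hE, fun h => absurd h hH⟩
  have hd : ∀ l : ℕ, ∃ E : Set GQ, l.Prime → IsDec l E := fun l => by
    by_cases h : l.Prime
    · exact (ex_dec h).imp fun _ k _ => k
    · exact ⟨∅, fun k => absurd k h⟩
  choose D' hD' using hd
  refine ⟨T ∪ insert l₀ A₀, fun l => if l ∈ T then D l else if l = l₀ then E else D' l,
    Finset.subset_union_left, fun l h => if_pos h, fun l h => ?_, fun T₁ D₁ hT hD hdec => ?_⟩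
  · beta_reduce
    split_ifs with h1 h2
    · exact (hN.lv 0).dec l h1
    · exact h2 ▸ hE
    · exact hD' l (hA₀ l ((Finset.mem_insert.1
        ((Finset.mem_union.1 h).resolve_left h1)).resolve_left h2))
  have hTT : T ⊆ T₁ := Finset.subset_union_left.trans hT
  have hlv : ∀ N, Lv (rd (tI t N) ρ) T₁ D₁ := fun N =>
    ⟨(hN.lv N).opn, hTT (hN.lv N).h0, hTT (hN.lv N).h2, hdec,
      fun l h => (hN.lv N).unr l fun k => h (hTT k)⟩
  have z1 : ∀ x : A, t ∣ x → Ideal.Quotient.mk (tI t 1) x = 0 := fun x h =>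
    (mk0 t).2 (by rwa [pow_one])
  have hres : Res (rd (tI t 1) ρ) H T₁ D₁ :=
    { lv := hlv 1
      det := fun g => by
        rw [mr_rd, ← RingHom.mapMatrix_apply, ← RingHom.map_det, hN.det, map_one]
      dg := fun g hg => ⟨z1 _ (hdg g hg).1, z1 _ (hdg g hg).2⟩
      ad := fun g hg => ⟨z1 _ (had g hg).1, z1 _ (had g hg).2⟩
      bg := hbg T₁ (((Finset.subset_insert _ _).trans Finset.subset_union_right).trans hT)
      reg := by
        obtain ⟨s, -, hs, -⟩ := hN.reg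
        refine ⟨s, ?_⟩
        rw [mr_rd, ← AddMonoidHom.map_trace]
        exact (hs.map (Ideal.Quotient.mk (tI t 1))).ne_zero }
  refine ind (fun N => Nat.card (FxR (rd (tI t N) ρ) T₁ D₁)) (fun N => Nat.card (A ⧸ tI t N))
    (fun N => Nat.card (H1R (rd (tI t N) ρ) T₁)) (Nat.card (A ⧸ tI t 1)) e (fun N => ?_)
    (fun N => card_add hfin N 1) fun N hN' => ?_
  · have := fin_tI hfin N
    have : Finite (H1R (rd (tI t N) ρ) T₁) := hF _ _ T₁ (two_q _) (hlv N).opn
    have : Nonempty (H1R (rd (tI t N) ρ) T₁) := ⟨⟨0, (H1M (rd (tI t N) ρ) T₁).zero_mem⟩⟩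
    exact Nat.card_pos
  have := fin_tI hfin (N + 1)
  have hsm : Sm (Ideal.Quotient.factor (tle t (Nat.le_succ N)))
      (Ideal.Quotient.factor (tle t (Nat.le_add_left 1 N))) (mq t 1 N (N + 1) rfl)
      (mq t N 1 (N + 1) (add_comm 1 N)) :=
    { two := two_q _
      πs := Ideal.Quotient.factor_surjective _
      rs := Ideal.Quotient.factor_surjective _
      ιi := mq_inj t ht.ne_zero _ _ _ _
      ιk := fun x => by
        obtain ⟨x, rfl⟩ := Ideal.Quotient.mk_surjective x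
        rw [Ideal.Quotient.factor_mk, mk0]
        constructor
        · rintro ⟨y, rfl⟩
          exact ⟨Ideal.Quotient.mk _ y, rfl⟩
        · rintro ⟨y, hy⟩
          obtain ⟨y, rfl⟩ := Ideal.Quotient.mk_surjective y
          rw [mq_mk, Ideal.Quotient.eq, Ideal.mem_span_singleton] at hy
          have := dvd_sub (dvd_mul_right (t ^ N) y) ((pow_dvd_pow t (Nat.le_succ N)).trans hy)
          rwa [sub_sub_cancel] at this
      ιm := fun r a => by
        obtain ⟨r, rfl⟩ := Ideal.Quotient.mk_surjective r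
        obtain ⟨a, rfl⟩ := Ideal.Quotient.mk_surjective a
        rw [Ideal.Quotient.factor_mk, ← map_mul, mq_mk, mq_mk, ← map_mul, mul_left_comm]
      ji := mq_inj t ht.ne_zero _ _ _ _
      jk := fun x hx => by
        obtain ⟨x, rfl⟩ := Ideal.Quotient.mk_surjective x
        rw [Ideal.Quotient.factor_mk, mk0] at hx
        obtain ⟨y, rfl⟩ := hx
        exact ⟨Ideal.Quotient.mk _ y, rfl⟩
      jm := fun r s => by
        obtain ⟨r, rfl⟩ := Ideal.Quotient.mk_surjective r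
        obtain ⟨s, rfl⟩ := Ideal.Quotient.mk_surjective s
        rw [← map_mul, Ideal.Quotient.factor_mk, Ideal.Quotient.factor_mk, mq_mk, mq_mk, ← map_mul,
          mul_left_comm] }
  have key := hS _ _ _ _ _ _ _ (rd (tI t (N + 1)) ρ) H T₁ D₁ hsm (hlv _)
    (by rw [bc_rd t (Nat.le_add_left 1 N)]; exact hres) (fun hH => by
      obtain ⟨a, b, c⟩ := hl hH
      have m : l₀ ∈ T ∪ insert l₀ A₀ := Finset.mem_union_right _ (Finset.mem_insert_self _ _)
      have hE' : D₁ l₀ = E := by rw [hD l₀ m]; simp only [if_neg a, if_true]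
      refine ⟨l₀, hT m, hl₀, fun k => a (k ▸ (hN.lv 0).h2), ?_, fun X hX => ?_⟩
      · rw [bc_rd t (Nat.le_add_left 1 N), hE']; exact b
      · obtain ⟨X, rfl⟩ := ex_lift _ X
        rw [← AddMonoidHom.map_trace, Ideal.Quotient.factor_mk]
        refine z1 _ (c X fun g hg i j => (pow_dvd_pow t (by omega : e ≤ N + 1)).trans
          ((mk0 t).1 ?_))
        have h1 := congrArg (· * mr (rd (tI t (N + 1)) ρ) g) (hX g (hE' ▸ hg))
        simp only [mul_assoc, mi, mul_one] at h1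
        rw [mr_rd, ← Matrix.map_mul, ← Matrix.map_mul] at h1
        rw [Matrix.sub_apply, map_sub, sub_eq_zero]
        exact congrFun (congrFun h1 i) j)
  rwa [bc_rd t (Nat.le_succ N)] at key

end P022G.Lb90
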