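import Vale.Agent.P022G.Lb90.Step
import Vale.Agent.P022G.Lb90.Top
import Vale.Agent.P022G.Lb90.Loc
import Vale.Agent.P022G.Lb90.LiftH9
import Vale.Agent.P022G.Lb90.Aux0
import Vale.Agent.P022G.Lb90.BaseH9
import Vale.Agent.P022G.Lb90.Gain

/-!
# P022G, block Lb90: the lower bound, closed
-/

set_option linter.all false

namespace P022G.Lb90.H81

open P022G.Sel P022G.Lb90

/-- **the lower bound at a curve** -/
theorem lba2C : LBA2 :=
  lba2 (step locC LiftH9.liftC invC BaseH9.baseC gainC finrC) aux0C finrC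

end P022G.Lb90.H81
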