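import Vale.Agent.P022G.Lb90.Defs
import Vale.Agent.P022G.Sel.Bas
import Vale.Agent.P022E.GW.LbOne89
import Vale.Agent.P022E.GW.ObsH35

/-!
# P022G, the lower bound at a curve: one step of the devissage
-/

set_option linter.all false

noncomputable section

namespace P022G.Lb90

open NumberField
open Vale.Agent.P022
open Vale.Agent.P027M.S (Inert)
open Vale.Agent.P022D.Sel (M2 IsDec Ginf)
open Vale.Agent.P022E.GW (Ov Op Ur Cb Z2 Lc Bg)
open P022G.Sel P022G.Sel.Bas

namespace St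

theorem sec {A B : Type} [AddCommGroup A] [AddCommGroup B] (hA : ∀ x : A, 2 • x = 0)
    (hB : ∀ x : B, 2 • x = 0) (f : A →+ B) :
    (Function.Surjective f → ∃ s : B →+ A, ∀ y, f (s y) = y) ∧
      (Function.Injective f → ∃ s : B →+ A, ∀ y, s (f y) = y) := by
  haveI : Fact (Nat.Prime 2) := ⟨Nat.prime_two⟩
  letI := AddCommGroup.zmodModule hA
  letI := AddCommGroup.zmodModule hB
  constructor
  · intro h
    obtain ⟨s, hs⟩ := (f.toZModLinearMap 2).exists_rightInverse_of_surjective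
      (LinearMap.range_eq_top.2 h)
    exact ⟨s.toAddMonoidHom, fun y => LinearMap.congr_fun hs y⟩
  · intro h
    obtain ⟨s, hs⟩ := (f.toZModLinearMap 2).exists_leftInverse_of_injective
      (LinearMap.ker_eq_bot.2 h)
    exact ⟨s.toAddMonoidHom, fun y => LinearMap.congr_fun hs y⟩

/-- the local invariants as a module -/
def FxM {R : Type} [CommRing R] (ρ : GQ →* GL (Fin 2) R) (T : Finset ℕ) (D : ℕ → Set GQ) :
    Submodule R (ℕ → M2 R) where
  carrier := FxR ρ T D
  add_mem' {a b} ha hb := ⟨fun l hl => by rw [Pi.add_apply, ha.1 l hl, hb.1 l hl, add_zero],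
    fun l hl g hg => by rw [Pi.add_apply, mul_add, add_mul, ha.2 l hl g hg, hb.2 l hl g hg]⟩
  zero_mem' := ⟨fun _ _ => rfl, fun _ _ _ _ => by simp⟩
  smul_mem' r a ha := ⟨fun l hl => by rw [Pi.smul_apply, ha.1 l hl, smul_zero],
    fun l hl g hg => by rw [Pi.smul_apply, mul_smul_comm, smul_mul_assoc, ha.2 l hl g hg]⟩

theorem fx_fin {R : Type} [CommRing R] [Finite R] (ρ : GQ →* GL (Fin 2) R) (T : Finset ℕ)
    (D : ℕ → Set GQ) : Finite (FxM ρ T D) :=
  Finite.of_injective (fun (a : FxM ρ T D) (l : T) => a.1 l) fun a b h =>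
    Subtype.ext (funext fun l => by
      by_cases hl : l ∈ T
      · exact congrFun h ⟨l, hl⟩
      · rw [a.2.1 l hl, b.2.1 l hl])

theorem card_hom {A B : Type} [AddCommGroup A] [AddCommGroup B] (f : A →+ B) :
    Nat.card A = Nat.card f.ker * Nat.card f.range := by
  rw [AddSubgroup.card_eq_card_quotient_mul_card_addSubgroup f.ker, mul_comm,
    Nat.card_congr (QuotientAddGroup.quotientKerEquivRange f).toEquiv]

theorem co_ker {R : Type} [CommRing R] {ρ : GQ →* GL (Fin 2) R} {c : GQ → M2 R} (hc : Co ρ c)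
    {σ : GQ} (h0 : c σ = 0) (h1 : ρ σ = 1) (g : GQ) : c (g * σ) = c g ∧ c (σ * g) = c g := by
  rw [hc, hc, h0, (mker h1).1, (mker h1).2]; simp

section oc

variable {F : Type} [Field F] {rb : GQ →* GL (Fin 2) F} {T : Finset ℕ} {o : GQ → GQ → M2 F}

theorem oc_inv (h : Oc rb T o) : ∃ U : Subgroup GQ, IsOpen (U : Set GQ) ∧
    ∀ σ ∈ U, ∀ g k, o (g * σ) k = o g k ∧ o g (k * σ) = o g k := by
  obtain ⟨U, hU, hn, h0⟩ := h.opn
  have r : ∀ σ ∈ U, ∀ g k, o g (k * σ) = o g k := fun σ hσ g k => by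
    have := h.coc g k σ
    rwa [((h0 σ hσ).2 _).1, ((h0 σ hσ).2 _).1, mul_zero, zero_mul, zero_add, zero_add] at this
  refine ⟨U, hU, fun σ hσ g k => ⟨?_, r σ hσ g k⟩⟩
  have := h.coc g σ k
  rw [((h0 σ hσ).2 _).1, ((h0 σ hσ).2 _).2, mul_zero, zero_mul, zero_add, add_zero,
    show σ * k = k * (k⁻¹ * σ * k⁻¹⁻¹) by group, r _ (hn.conj_mem σ hσ k⁻¹)] at this
  exact this.symm

theorem oc_z2 (h : Oc rb T o) (E : Subgroup GQ) (x : M2 F)
    (hx : ∀ g ∈ E, mr rb g * x * mr rb g⁻¹ = x) : Z2 E (fun g k => (x * o g k).trace) := by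
  obtain ⟨U, hU, hi⟩ := oc_inv h
  refine ⟨(IsLocallyConstant.iff_exists_open _).2 fun p =>
    ⟨(fun y : E × E => (p.1 : GQ)⁻¹ * y.1) ⁻¹' U ∩ (fun y : E × E => (p.2 : GQ)⁻¹ * y.2) ⁻¹' U,
      (hU.preimage (by fun_prop)).inter (hU.preimage (by fun_prop)), by simp, fun y hy => ?_⟩,
    fun g k m => ?_⟩
  · show (x * o y.1 y.2).trace = (x * o p.1 p.2).trace
    rw [← (hi _ hy.1 p.1 p.2).1, ← (hi _ hy.2 _ p.2).2, mul_inv_cancel_left, mul_inv_cancel_left]
  · show (x * o k m).trace + (x * o g (k * m)).trace = (x * o (g * k) m).trace + (x * o g k).trace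
    have e : (x * (mr rb g * o k m * mr rb (g : GQ)⁻¹)).trace = (x * o k m).trace := by
      have := hx _ (E.inv_mem g.2)
      rw [inv_inv] at this
      rw [← mul_assoc, Matrix.trace_mul_comm, ← mul_assoc, ← mul_assoc, this]
    rw [← e, ← Matrix.trace_add, ← Matrix.trace_add, ← mul_add, ← mul_add, h.coc]

/-- the pairing with a cocycle -/
def pr (o : GQ → GQ → M2 F) : M2 F →ₗ[F] (GQ → GQ → F) where
  toFun x g k := (x * o g k).trace
  map_add' x y := funext fun g => funext fun k => by simp [add_mul]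
  map_smul' r x := funext fun g => funext fun k => by simp

end oc

variable {R' R F : Type} [CommRing R'] [CommRing R] [Field F] {π : R' →+* R} {red : R' →+* F}
  {ι : F →+ R'} {j : R →+ R'}

theorem Sm.l (h : Sm π red ι j) (A : M2 R') (X : M2 F) : A * X.map ι = (A.map red * X).map ι := by
  ext a b; simp [Matrix.mul_apply, h.ιm]

theorem Sm.r (h : Sm π red ι j) (A : M2 R') (X : M2 F) : X.map ι * A = (X * A.map red).map ι := by
  ext a b; simp [Matrix.mul_apply, mul_comm (ι _), h.ιm, mul_comm (X _ _)]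

theorem Sm.jm' (h : Sm π red ι j) (r : R') (y : R) : r * j y = j (π r * y) := by
  obtain ⟨s, rfl⟩ := h.πs y
  rw [h.jm, map_mul]

theorem Sm.jl (h : Sm π red ι j) (A : M2 R') (X : M2 R) : A * X.map j = (A.map π * X).map j := by
  ext a b; simp [Matrix.mul_apply, Sm.jm' h]

theorem Sm.jr (h : Sm π red ι j) (A : M2 R') (X : M2 R) : X.map j * A = (X * A.map π).map j := by
  ext a b; simp [Matrix.mul_apply, mul_comm (j _), Sm.jm' h, mul_comm (X _ _)]

theorem mr_bc {S : Type} [CommRing S] (f : R' →+* S) (ρ : GQ →* GL (Fin 2) R') (g : GQ) :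
    mr (bc f ρ) g = (mr ρ g).map f := rfl

theorem bc_one {S : Type} [CommRing S] (f : R' →+* S) {ρ : GQ →* GL (Fin 2) R'} {g : GQ}
    (h : ρ g = 1) : bc f ρ g = 1 := by rw [MonoidHom.comp_apply, h, map_one]

theorem map_ad {S : Type} [CommRing S] (f : R' →+* S) (ρ : GQ →* GL (Fin 2) R') (g : GQ)
    (X : M2 R') : (mr ρ g * X * mr ρ g⁻¹).map f = mr (bc f ρ) g * X.map f * mr (bc f ρ) g⁻¹ := by
  rw [Matrix.map_mul, Matrix.map_mul]; rfl

theorem madd {A B : Type} [CommRing A] [CommRing B] (f : A →+ B) (X Y : M2 A) :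
    (X + Y).map f = X.map f + Y.map f := Matrix.map_add f (map_add f) X Y

theorem msub {A B : Type} [CommRing A] [CommRing B] (f : A →+ B) (X Y : M2 A) :
    (X - Y).map f = X.map f - Y.map f := Matrix.map_sub f (map_sub f) X Y

theorem mz {A B : Type} [CommRing A] [CommRing B] (f : A →+ B) : (0 : M2 A).map f = 0 :=
  Matrix.map_zero f (map_zero f)

variable (ρ : GQ →* GL (Fin 2) R') (T : Finset ℕ) (D : ℕ → Set GQ)

/-- the image of the local invariants -/
def Im (h : Sm π red ι j) : Submodule F (ℕ → M2 F) where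
  carrier := {a | ∃ a' ∈ FxM ρ T D, a = fun l => (a' l).map red}
  add_mem' := by
    rintro _ _ ⟨a, ha, rfl⟩ ⟨b, hb, rfl⟩
    exact ⟨a + b, add_mem ha hb, funext fun l => (madd red.toAddMonoidHom _ _).symm⟩
  zero_mem' := ⟨0, zero_mem _, funext fun l => (mz red.toAddMonoidHom).symm⟩
  smul_mem' := by
    rintro r _ ⟨a, ha, rfl⟩
    obtain ⟨r, rfl⟩ := h.rs r
    exact ⟨r • a, Submodule.smul_mem _ r ha, funext fun l => by ext p q; simp⟩

theorem im_le (h : Sm π red ι j) : Im ρ T D h ≤ FxM (bc red ρ) T D := by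
  rintro _ ⟨a, ha, rfl⟩
  exact ⟨fun l hl => by beta_reduce; rw [ha.1 l hl]; exact mz red.toAddMonoidHom,
    fun l hl g hg => by beta_reduce; rw [← map_ad, ha.2 l hl g hg]⟩

theorem fx_le [Finite R'] (h : Sm π red ι j) :
    Nat.card (FxM ρ T D) ≤ Nat.card (FxM (bc π ρ) T D) * Nat.card (Im ρ T D h) := by
  haveI : Finite R := Finite.of_surjective π h.πs
  haveI := fx_fin ρ T D
  haveI := fx_fin (bc π ρ) T D
  let Q : FxM ρ T D →+ Im ρ T D h :=
    { toFun := fun a => ⟨_, a.1, a.2, rfl⟩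
      map_zero' := Subtype.ext (funext fun l => mz red.toAddMonoidHom)
      map_add' := fun a b => Subtype.ext (funext fun l => madd red.toAddMonoidHom _ _) }
  have sj : Function.Surjective Q := by
    rintro ⟨_, a, ha, rfl⟩; exact ⟨⟨a, ha⟩, rfl⟩
  rw [card_hom Q, AddMonoidHom.range_eq_top.2 sj, AddSubgroup.card_top]
  refine Nat.mul_le_mul_right _ ?_
  have ex : ∀ a : Q.ker, ∃ b : FxM (bc π ρ) T D, ∀ l, (b.1 l).map j = a.1.1 l := by
    intro a
    have k : ∀ l p q, ∃ y, j y = a.1.1 l p q := fun l p q => h.jk _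
      (congrFun (congrFun (congrFun (congrArg Subtype.val a.2) l) p) q)
    choose y hy using k
    have e : ∀ l, (Matrix.of (y l)).map j = a.1.1 l := fun l => by ext p q; exact hy l p q
    refine ⟨⟨fun l => Matrix.of (y l), fun l hl => Matrix.map_injective h.ji ?_,
      fun l hl g hg => Matrix.map_injective h.ji ?_⟩, e⟩
    · beta_reduce; rw [e, a.1.2.1 l hl, mz]
    · beta_reduce
      rw [mr_bc, mr_bc, ← Sm.jr h, ← Sm.jl h, e, a.1.2.2 l hl g hg]
  choose b hb using ex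
  exact Nat.card_le_card_of_injective b fun a a' e => Subtype.ext (Subtype.ext (funext fun l => by
    rw [← hb, ← hb, e]))

/-- the boundary of a lift -/
def dd (σ : R →+ R') (c : GQ → M2 R) (g k : GQ) : M2 R' :=
  (c (g * k)).map σ - (c g).map σ - mr ρ g * (c k).map σ * mr ρ g⁻¹

theorem dd_add (σ : R →+ R') (c c' : GQ → M2 R) (g k : GQ) :
    dd ρ σ (c + c') g k = dd ρ σ c g k + dd ρ σ c' g k := by
  simp only [dd, Pi.add_apply, madd, mul_add, add_mul]; abel

theorem dd_coc (σ : R →+ R') (c : GQ → M2 R) (g h k : GQ) :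
    mr ρ g * dd ρ σ c h k * mr ρ g⁻¹ + dd ρ σ c g (h * k) =
      dd ρ σ c (g * h) k + dd ρ σ c g h := by
  simp only [dd, mul_inv_rev, mm, mul_assoc g]
  noncomm_ring

variable {ρ T}

theorem dd_ι (h : Sm π red ι j) {σ : R →+ R'} (hσ : ∀ y, π (σ y) = y) {lam : R' →+ F}
    (hl : ∀ a, lam (ι a) = a) {c : GQ → M2 R} (hc : Co (bc π ρ) c) (g k : GQ) :
    ((dd ρ σ c g k).map lam).map ι = dd ρ σ c g k := by
  have s : ∀ X : M2 R, (X.map σ).map π = X := fun X => by ext p q; exact hσ _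
  have z : (dd ρ σ c g k).map π = 0 := by
    have e := msub π.toAddMonoidHom
    simp only [RingHom.toAddMonoidHom_eq_coe, AddMonoidHom.coe_coe] at e
    rw [dd, e, e, map_ad, s, s, s, hc, add_sub_cancel_left, sub_self]
  ext p q
  obtain ⟨a, ha⟩ := (h.ιk (dd ρ σ c g k p q)).1 (congrFun (congrFun z p) q)
  show ι (lam _) = _
  rw [← ha, hl]

theorem dd_z {σ : R →+ R'} {c : GQ → M2 R} (hc : Co (bc π ρ) c) {i : GQ} (h0 : c i = 0)
    (h1 : ρ i = 1) (g : GQ) : dd ρ σ c g i = 0 ∧ dd ρ σ c i g = 0 := by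
  have k := co_ker hc h0 (bc_one π h1) g
  rw [dd, dd, k.1, k.2, h0, mz, (mker h1).1, (mker h1).2]
  simp

theorem oc_dd (h : Sm π red ι j) (hL : Lv ρ T D) {σ : R →+ R'} (hσ : ∀ y, π (σ y) = y)
    {lam : R' →+ F} (hl : ∀ a, lam (ι a) = a) {c : GQ → M2 R} (hc : c ∈ H1R (bc π ρ) T) :
    Oc (bc red ρ) T (fun g k => (dd ρ σ c g k).map lam) := by
  refine ⟨fun g a k => Matrix.map_injective h.ιi ?_, ?_, fun l hl' P hP i hi g => ?_⟩
  · beta_reduce
    rw [madd, madd, mr_bc, mr_bc, ← Sm.r h, ← Sm.l h]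
    simp only [dd_ι h hσ hl hc.1]
    exact dd_coc ρ σ c g a k
  · obtain ⟨U, hU, h0⟩ := hc.2.1
    refine ⟨(U ⊓ ρ.ker).normalCore, Vale.Agent.P022D.Sel.opn_core _ (hU.inter hL.opn),
      inferInstance, fun s hs => ?_⟩
    have m := Subgroup.normalCore_le _ hs
    refine ⟨bc_one red m.2, fun g => ?_⟩
    have k := dd_z (σ := σ) hc.1 (h0 s m.1) m.2 g
    beta_reduce
    rw [k.1, k.2, mz]; exact ⟨rfl, rfl⟩
  · have k := dd_z (σ := σ) hc.1 (hc.2.2 l hl' P hP i hi) (hL.unr l hl' P hP i hi) g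
    beta_reduce
    rw [k.1, k.2, mz]; exact ⟨rfl, rfl⟩

theorem cb_im (h : Sm π red ι j) {σ : R →+ R'} (hσ : ∀ y, π (σ y) = y)
    {lam : R' →+ F} (hl : ∀ a, lam (ι a) = a) {c : GQ → M2 R} (hc : c ∈ H1R (bc π ρ) T)
    (E : Subgroup GQ) (a : M2 R') (ha : ∀ g ∈ E, mr ρ g * a * mr ρ g⁻¹ = a) :
    Cb E (pr (fun g k => (dd ρ σ c g k).map lam) (a.map red)) := by
  obtain ⟨U, hU, h0⟩ := hc.2.1
  refine ⟨fun g => lam (a * (c g).map σ).trace, Vale.Agent.P022E.GW.H89.lc
    (f := fun g => lam (a * (c g).map σ).trace) hU fun g _ u _ hu => by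
      rw [hc.1, h0 u hu, mul_zero, zero_mul, add_zero], fun g k => ?_⟩
  have e : (a * (mr ρ g * (c k).map σ * mr ρ (g : GQ)⁻¹)).trace = (a * (c k).map σ).trace := by
    have := ha _ (E.inv_mem g.2)
    rw [inv_inv] at this
    rw [← mul_assoc, Matrix.trace_mul_comm, ← mul_assoc, ← mul_assoc, this]
  have e2 : (a.map red * (dd ρ σ c g k).map lam).trace = lam (a * dd ρ σ c g k).trace := by
    rw [← hl (a.map red * (dd ρ σ c g k).map lam).trace, AddMonoidHom.map_trace ι, ← Sm.l h,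
      dd_ι h hσ hl hc.1]
  show lam (a * (c (g * k)).map σ).trace = lam _ + lam _ + (a.map red * _).trace
  rw [e2, ← map_add, ← map_add, dd, mul_sub, mul_sub, Matrix.trace_sub, Matrix.trace_sub, e]
  congr 1; ring

theorem core (hO : LOC) (hT : LIFT) (hI : INV) (hF : FINR) [Finite R'] [Finite F] [CharP F 2]
    (h : Sm π red ι j) (hL : Lv ρ T D) {H : Subgroup GQ} (hR : Res (bc red ρ) H T D)
    (W : Submodule F (ℕ → M2 F)) (h1 : Im ρ T D h ≤ W) (h2 : W ≤ FxM (bc red ρ) T D)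
    (h3 : ∀ o, Oc (bc red ρ) T o → (∀ a ∈ W, ∀ l ∈ T, (∀ l' ≠ l, a l' = 0) →
      ∀ E : Subgroup GQ, (E : Set GQ) = D l → Cb E (pr o (a l))) → ∀ l ∈ T, At (bc red ρ) D o l) :
    Nat.card (FxM ρ T D) * (Nat.card (H1R (bc red ρ) T) * Nat.card (H1R (bc π ρ) T)) ≤
      Nat.card W * (Nat.card (FxM (bc π ρ) T D) * Nat.card (H1R ρ T)) := by
  classical
  haveI : Finite R := Finite.of_surjective π h.πs
  have t1 : ∀ x : R', 2 • x = 0 := fun x => by rw [two_nsmul, ← two_mul, h.two, zero_mul]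
  have twoR : (2 : R) = 0 := by rw [← map_ofNat π 2, h.two, map_zero]
  have t2 : ∀ x : R, 2 • x = 0 := fun x => by rw [two_nsmul, ← two_mul, twoR, zero_mul]
  have t3 : ∀ x : F, 2 • x = 0 := fun x => by rw [two_nsmul, CharTwo.add_self_eq_zero]
  obtain ⟨σ, hσ⟩ := (sec t1 t2 π.toAddMonoidHom).1 h.πs
  obtain ⟨lam, hl⟩ := (sec t3 t1 ι).2 h.ιi
  have hE : ∀ l ∈ T, ((Subgroup.closure (D l) : Subgroup GQ) : Set GQ) = D l := fun l k =>
    Set.ext (Vale.Agent.P022E.GW.H35.mem_cl (hL.dec l k))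
  have ex : ∀ l, ∃ inv : (GQ → GQ → F) →ₗ[F] F, l ∈ T →
      (∀ z, Cb (Subgroup.closure (D l)) z → inv z = 0) ∧
        ∀ z, Z2 (Subgroup.closure (D l)) z → inv z = 0 → Cb (Subgroup.closure (D l)) z := by
    intro l
    by_cases k : l ∈ T
    · obtain ⟨inv, hi⟩ := hI F l _ (by rw [hE l k]; exact hL.dec l k)
      exact ⟨inv, fun _ => hi⟩
    · exact ⟨0, fun k' => absurd k' k⟩
  choose inv hinv using ex
  let oo : (GQ → M2 R) → GQ → GQ → M2 F := fun c g k => (dd ρ σ c g k).map lam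
  let I' : Submodule F W := (Im ρ T D h).comap W.subtype
  let ph : (GQ → M2 R) → Module.Dual F W := fun c =>
    ∑ l ∈ T, inv l ∘ₗ pr (oo c) ∘ₗ LinearMap.proj l ∘ₗ W.subtype
  have phe : ∀ c (a : W), ph c a = ∑ l ∈ T, inv l (pr (oo c) (a.1 l)) := fun c a => by
    simp only [ph, LinearMap.sum_apply]; rfl
  let Φ : H1M (bc π ρ) T →+ I'.dualAnnihilator := AddMonoidHom.mk'
    (fun c => ⟨ph c.1, (Submodule.mem_dualAnnihilator _).2 (by
      rintro a ⟨a', ha', e⟩
      rw [phe]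
      refine Finset.sum_eq_zero fun l k => (hinv l k).1 _ ?_
      rw [show a.1 l = (a' l).map red from congrFun e l]
      exact cb_im h hσ hl c.2 _ _ fun g hg => ha'.2 l k g (by rw [← hE l k]; exact hg))⟩)
    fun c c' => Subtype.ext (LinearMap.ext fun a => by
      show ph (c.1 + c'.1) a = ph c.1 a + ph c'.1 a
      rw [phe, phe, phe, ← Finset.sum_add_distrib]
      refine Finset.sum_congr rfl fun l _ => ?_
      rw [← map_add]
      congr 1
      funext g k
      show (_ * (dd ρ σ (c.1 + c'.1) g k).map lam).trace = (_ * _ : M2 F).trace + (_ * _ : M2 F).trace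
      rw [dd_add, madd, mul_add, Matrix.trace_add])
  let P : H1M ρ T →+ H1M (bc π ρ) T := AddMonoidHom.mk'
    (fun c => ⟨fun g => (c.1 g).map π, fun g k => by
        beta_reduce
        rw [c.2.1, ← map_ad]; exact madd π.toAddMonoidHom _ _,
      c.2.2.1.imp fun U hU => ⟨hU.1, fun s hs => by
        beta_reduce; rw [hU.2 s hs]; exact mz π.toAddMonoidHom⟩,
      fun l k Q hQ g hg => by
        beta_reduce; rw [c.2.2.2 l k Q hQ g hg]; exact mz π.toAddMonoidHom⟩)
    fun c c' => Subtype.ext (funext fun g => madd π.toAddMonoidHom _ _)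
  haveI : Finite (H1M ρ T) := hF R' ρ T h.two hL.opn
  have πι : ∀ X : M2 F, (X.map ι).map π = 0 := fun X => by
    ext p q; exact (h.ιk _).2 ⟨_, rfl⟩
  have a1 : Nat.card (H1R (bc red ρ) T) ≤ Nat.card P.ker := by
    refine Nat.card_le_card_of_injective (fun c => ⟨⟨fun g => (c.1 g).map ι, fun g k => by
        beta_reduce
        rw [c.2.1, madd, Sm.l h, Sm.r h]; rfl,
      c.2.2.1.imp fun U hU => ⟨hU.1, fun s hs => by beta_reduce; rw [hU.2 s hs, mz]⟩,
      fun l k Q hQ g hg => by beta_reduce; rw [c.2.2.2 l k Q hQ g hg, mz]⟩,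
      Subtype.ext (funext fun g => πι _)⟩) fun c c' e => Subtype.ext (funext fun g =>
        Matrix.map_injective h.ιi (congrFun (congrArg (fun x => x.1.1) e) g))
  have a2 : Φ.ker ≤ P.range := by
    intro c hc
    have hc' : ph c.1 = 0 := congrArg Subtype.val hc
    have oc := oc_dd D h hL hσ hl c.2
    obtain ⟨w, w1, w2, w3⟩ := hT F _ H T D _ hR oc (hO F _ H T D _ hR oc
      (h3 _ oc fun a ha l k z E e => by
        obtain rfl : E = Subgroup.closure (D l) := SetLike.coe_injective (e.trans (hE l k).symm)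
        refine (hinv l k).2 _ (oc_z2 oc _ _ fun g hg => (h2 ha).2 l k g (by
          rw [← hE l k]; exact hg)) ?_
        have := LinearMap.congr_fun hc' ⟨a, ha⟩
        rwa [phe, Finset.sum_eq_single l (fun l' _ n => by
          rw [show (⟨a, ha⟩ : W).1 l' = 0 from z l' n, map_zero, map_zero])
          (fun n => absurd k n)] at this))
    refine ⟨⟨fun g => (c.1 g).map σ - (w g).map ι, fun g k => ?_, ?_, fun l k Q hQ g hg => ?_⟩,
      Subtype.ext (funext fun g => ?_)⟩
    · beta_reduce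
      rw [w1, madd, madd, dd_ι h hσ hl c.2.1, mr_bc, mr_bc, ← Sm.r h, ← Sm.l h, dd]
      noncomm_ring
    · obtain ⟨U, hU, u0⟩ := c.2.2.1
      obtain ⟨V, hV, v0⟩ := w2
      exact ⟨U ⊓ V, hU.inter hV, fun s hs => by
        beta_reduce; rw [u0 s hs.1, v0 s hs.2, mz, mz, sub_zero]⟩
    · beta_reduce
      rw [c.2.2.2 l k Q hQ g hg, w3 l k Q hQ g hg, mz, mz, sub_zero]
    · show ((c.1 g).map σ - (w g).map ι).map π.toAddMonoidHom = c.1 g
      rw [msub]
      show _ - ((w g).map ι).map π = _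
      rw [πι, sub_zero]
      ext p q; exact hσ _
  haveI := fx_fin (bc red ρ) T D
  haveI : Finite W := Finite.of_injective _ (Submodule.inclusion_injective h2)
  haveI : Finite (Module.Dual F W) := Finite.of_injective _ DFunLike.coe_injective
  haveI : Finite P.range := Finite.of_surjective _ P.rangeRestrict_surjective
  have a3 : Nat.card (H1M (bc π ρ) T) ≤ Nat.card P.range * Nat.card I'.dualAnnihilator := by
    rw [card_hom Φ]
    exact Nat.mul_le_mul (AddSubgroup.card_le_of_le a2) (AddSubgroup.card_le_card_addGroup _)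
  have a4 : Nat.card (Im ρ T D h) * Nat.card I'.dualAnnihilator = Nat.card W := by
    rw [← Nat.card_congr (Submodule.comapSubtypeEquivOfLe h1).toEquiv,
      Module.natCard_eq_pow_finrank (K := F) (V := I'),
      Module.natCard_eq_pow_finrank (K := F) (V := I'.dualAnnihilator),
      Module.natCard_eq_pow_finrank (K := F) (V := W), ← pow_add,
      Subspace.finrank_add_finrank_dualAnnihilator_eq]
  calc _ ≤ Nat.card (FxM (bc π ρ) T D) * Nat.card (Im ρ T D h) *
        (Nat.card P.ker * (Nat.card P.range * Nat.card I'.dualAnnihilator)) :=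
        Nat.mul_le_mul (fx_le ρ T D h) (Nat.mul_le_mul a1 a3)
    _ = Nat.card (Im ρ T D h) * Nat.card I'.dualAnnihilator *
        (Nat.card (FxM (bc π ρ) T D) * (Nat.card P.ker * Nat.card P.range)) := by ring
    _ = _ := by rw [a4, ← card_hom P]; rfl

end St

open St in
theorem step (hO : LOC) (hT : LIFT) (hI : INV) (hB : BASE) (hG : GAIN) (hF : FINR) : STEP := by
  classical
  intro R' R F _ _ _ _ _ _ π red ι j ρ H T D h hL hR hS
  obtain ⟨b2, b3⟩ := hB F _ H T D hR (hF F _ T CharTwo.two_eq_zero hR.lv.opn)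
  haveI := fx_fin (bc red ρ) T D
  have sg : ∀ l ∈ T, ∀ x : M2 F, (∀ g ∈ D l, mr (bc red ρ) g * x * mr (bc red ρ) g⁻¹ = x) →
      Pi.single l x ∈ FxM (bc red ρ) T D := fun l k x hx =>
    ⟨fun l' k' => Pi.single_eq_of_ne (by rintro rfl; exact k' k) _, fun l' _ g hg => by
      by_cases e : l' = l
      · subst e; rw [Pi.single_eq_same]; exact hx g hg
      · rw [Pi.single_eq_of_ne e, mul_zero, zero_mul]⟩
  obtain ⟨W, w1, w2, w3, w4⟩ : ∃ W : Submodule F (ℕ → M2 F), Im ρ T D h ≤ W ∧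
      W ≤ FxM (bc red ρ) T D ∧ (∀ o, Oc (bc red ρ) T o → (∀ a ∈ W, ∀ l ∈ T,
        (∀ l' ≠ l, a l' = 0) → ∀ E : Subgroup GQ, (E : Set GQ) = D l → Cb E (pr o (a l))) →
        ∀ l ∈ T, At (bc red ρ) D o l) ∧
      Nat.card W * Nat.card F ^ 3 ≤ Nat.card (H1R (bc red ρ) T) := by
    by_cases hH : H = ⊤
    · obtain ⟨l₀, k0, p0, n2, r1, tr⟩ := hS hH
      subst hH
      let τ : (ℕ → M2 F) →ₗ[F] F := Matrix.traceLinearMap _ F F ∘ₗ LinearMap.proj l₀
      refine ⟨FxM (bc red ρ) T D ⊓ LinearMap.ker τ, le_inf (im_le ρ T D h) ?_, inf_le_left,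
        fun o oc ha => ?_, ?_⟩
      · rintro _ ⟨a, ha, rfl⟩
        exact (AddMonoidHom.map_trace red.toAddMonoidHom (a l₀)).symm.trans
          (tr _ (ha.2 l₀ k0))
      · have a1 : ∀ l ∈ T, l ≠ l₀ → At (bc red ρ) D o l := fun l k n E e x hx => by
          have := ha (Pi.single l x) ⟨sg l k x hx, by
            show ((Pi.single l x : ℕ → M2 F) l₀).trace = 0
            rw [Pi.single_eq_of_ne n.symm, Matrix.trace_zero]⟩ l k
            (fun l' n' => Pi.single_eq_of_ne n' _) E e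
          rwa [Pi.single_eq_same] at this
        intro l k
        by_cases n : l = l₀
        · subst n
          refine hG F _ T D o l hR oc k p0 n2 a1 fun E e x x0 hx => ?_
          have := ha (Pi.single l x) ⟨sg l k x hx, by
            show ((Pi.single l x : ℕ → M2 F) l).trace = 0
            rw [Pi.single_eq_same, x0]⟩ l k (fun l' n' => Pi.single_eq_of_ne n' _) E e
          rwa [Pi.single_eq_same] at this
        · exact a1 l k n
      · let τ' : FxM (bc red ρ) T D →+ F := (τ ∘ₗ (FxM (bc red ρ) T D).subtype).toAddMonoidHom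
        have sj : Function.Surjective τ' := fun r =>
          ⟨⟨Pi.single l₀ !![r, 0; 0, 0], sg l₀ k0 _ fun g hg => by
            rw [(mker (r1 g hg)).1, (mker (r1 g hg)).2, one_mul, mul_one]⟩, by
            show ((Pi.single l₀ !![r, 0; 0, 0] : ℕ → M2 F) l₀).trace = r
            rw [Pi.single_eq_same]; simp⟩
        have c1 := card_hom τ'
        rw [AddMonoidHom.range_eq_top.2 sj, AddSubgroup.card_top] at c1
        have c2 : Nat.card (FxM (bc red ρ) T D ⊓ LinearMap.ker τ : Submodule F _) ≤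
            Nat.card τ'.ker := Nat.card_le_card_of_injective
          (fun a => ⟨⟨a.1, a.2.1⟩, a.2.2⟩) fun a b e =>
            Subtype.ext (congrArg (fun x => x.1.1) e)
        calc _ ≤ Nat.card τ'.ker * Nat.card F ^ 3 := Nat.mul_le_mul_right _ c2
          _ = Nat.card (FxM (bc red ρ) T D) * Nat.card F ^ 2 := by rw [c1]; ring
          _ ≤ _ := b2
    · refine ⟨FxM (bc red ρ) T D, im_le ρ T D h, le_rfl, fun o oc ha l k E e x hx => ?_, b3 hH⟩
      have := ha (Pi.single l x) (sg l k x hx) l k (fun l' n' => Pi.single_eq_of_ne n' _) E e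
      rwa [Pi.single_eq_same] at this
  have c := core D hO hT hI hF h hL hR W w1 w2 w3
  haveI : Finite W := Finite.of_injective _ (Submodule.inclusion_injective w2)
  refine Nat.le_of_mul_le_mul_left (c := Nat.card W) (le_trans ?_ c) Nat.card_pos
  calc _ = Nat.card (FxM ρ T D) * (Nat.card W * Nat.card F ^ 3 * Nat.card (H1R (bc π ρ) T)) := by
        show _ * (Nat.card (FxM ρ T D) * _ * _) = _
        ring
    _ ≤ _ := Nat.mul_le_mul_left _ (Nat.mul_le_mul_right _ w4)

end P022G.Lb90
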