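import Vale.Agent.P022G.Lb90.OneH89
import Vale.Agent.P022G.Lb90.Top
import Vale.Agent.P022G.Lb90.LiftH9
import Vale.Agent.P022G.Lb90.Aux0
import Vale.Agent.P022G.Lb90.Step
import Vale.Agent.P022G.Lb90.BaseH9
import Vale.Agent.P022G.Sel.Finr
import Vale.Agent.P022G.Sel.All

/-!
# P022G, the lower bound at a curve and the Selmer bound: closed forms
-/

set_option linter.all false

namespace P022G.Lb90.H89

open Vale.Agent.P022 P022G.Sel

/-- **the lower bound** -/
theorem lbaC : LBA2 :=
  lba2 (step locC LiftH9.liftC invC BaseH9.baseC gainC finrC) aux0C finrC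

/-- **the output of the block** -/
theorem selC {A : Type} [CommRing A] [IsDomain A] [IsDiscreteValuationRing A] [CharP A 2]
    {t : A} {ρ : GQ →* GL (Fin 2) A} {T : Finset ℕ} {D : ℕ → Set GQ} (ht : Irreducible t)
    (hf : Finite (A ⧸ tI t 1)) (hN : Nice t ρ T D) (hS : Shp t ρ) : SELc t ρ T D :=
  sel_at ht hf hN (lbaC A t ρ T D ht hf hN hS)

end P022G.Lb90.H89
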