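import Vale.Agent.P022G.Lb90.Defs
import Vale.Agent.P022E.GW.ChrC
import Vale.Agent.P022E.GW.Lift

/-!
# P022G, the lower bound at a curve: the residual count
-/

set_option linter.all false

noncomputable section

namespace P022G.Lb90.H11

open NumberField Matrix
open Vale.Agent.P022
open Vale.Agent.P027M.S (Inert)
open Vale.Agent.P022D.Sel (M2 IsDec)
open Vale.Agent.P022E.GW (Ov Op Ur Ft Zt chrC)
open P022G.Sel

namespace Bs

variable {F : Type} [Field F] {rb : GQ →* GL (Fin 2) F} {H : Subgroup GQ} {T : Finset ℕ}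
  {D : ℕ → Set GQ}

theorem card_le [Finite F] {V W : Type} [AddCommGroup V] [Module F V] [AddCommGroup W]
    [Module F W] [Finite W] (k : ℕ) (h : Module.rank F V + k ≤ Module.rank F W) :
    Finite V ∧ Nat.card V * Nat.card F ^ k ≤ Nat.card W := by
  have hW : Module.Finite F W := Module.Finite.of_finite
  have h1 : Module.rank F V < Cardinal.aleph0 :=
    (le_self_add.trans h).trans_lt (Module.rank_lt_aleph0 F W)
  have hV : Module.Finite F V := Module.rank_lt_aleph0_iff.1 h1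
  refine ⟨Module.finite_of_finite F, ?_⟩
  rw [← Module.finrank_eq_rank, ← Module.finrank_eq_rank] at h
  have h2 : Module.finrank F V + k ≤ Module.finrank F W := by exact_mod_cast h
  rw [Module.natCard_eq_pow_finrank (K := F) (V := V),
    Module.natCard_eq_pow_finrank (K := F) (V := W), ← pow_add]
  exact Nat.pow_le_pow_right Nat.card_pos h2

/-- the adjoint action -/
def ad (rb : GQ →* GL (Fin 2) F) (g : GQ) (Y : M2 F) : M2 F := mr rb g * Y * mr rb g⁻¹

theorem mr_mul (g h : GQ) : mr rb (g * h) = mr rb g * mr rb h := by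
  simp only [mr, map_mul, Units.val_mul]

theorem mr_one : mr rb 1 = 1 := by simp only [mr, map_one, Units.val_one]

theorem ad_mul (g h : GQ) (Y : M2 F) : ad rb (g * h) Y = ad rb g (ad rb h Y) := by
  simp only [ad, _root_.mul_inv_rev, mr_mul, Matrix.mul_assoc]

theorem ad_add (g : GQ) (Y Z : M2 F) : ad rb g (Y + Z) = ad rb g Y + ad rb g Z := by
  simp only [ad, Matrix.mul_add, Matrix.add_mul]

theorem ad_one (Y : M2 F) : ad rb 1 Y = Y := by simp [ad, mr_one]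

theorem ad_zero (g : GQ) : ad rb g 0 = 0 := by simp [ad]

theorem mr_inv (hd : ∀ g, (mr rb g).det = 1) (g : GQ) : mr rb g⁻¹ = (mr rb g).adjugate := by
  have e : mr rb g * mr rb g⁻¹ = 1 := by rw [← mr_mul, mul_inv_cancel, mr_one]
  calc mr rb g⁻¹ = ((mr rb g).adjugate * mr rb g) * mr rb g⁻¹ := by
        rw [adjugate_mul, hd, one_smul, Matrix.one_mul]
    _ = _ := by rw [Matrix.mul_assoc, e, Matrix.mul_one]

theorem dg1 (R : Res rb H T D) {g : GQ} (hg : g ∈ H) : mr rb g 0 0 * mr rb g 1 1 = 1 := by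
  have := R.det g
  rwa [det_fin_two, (R.dg g hg).1, zero_mul, sub_zero] at this

theorem ad1 (R : Res rb H T D) {g : GQ} (hg : g ∉ H) : -(mr rb g 0 1 * mr rb g 1 0) = 1 := by
  have := R.det g
  rwa [det_fin_two, (R.ad g hg).1, zero_mul, zero_sub] at this

theorem ad_in (R : Res rb H T D) {g : GQ} (hg : g ∈ H) (Y : M2 F) :
    ad rb g Y 0 0 = Y 0 0 ∧ ad rb g Y 0 1 = mr rb g 0 0 ^ 2 * Y 0 1 ∧
      ad rb g Y 1 0 = mr rb g 1 1 ^ 2 * Y 1 0 ∧ ad rb g Y 1 1 = Y 1 1 := by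
  have e := dg1 R hg
  obtain ⟨h1, h2⟩ := R.dg g hg
  simp only [ad, mr_inv R.det, adjugate_fin_two, mul_apply, Fin.sum_univ_two, h1, h2]
  simp
  refine ⟨?_, by ring, by ring, ?_⟩
  · linear_combination (Y 0 0) * e
  · linear_combination (Y 1 1) * e

theorem ad_out (R : Res rb H T D) {g : GQ} (hg : g ∉ H) (Y : M2 F) :
    ad rb g Y 0 0 = Y 1 1 ∧ ad rb g Y 0 1 = -(mr rb g 0 1 ^ 2) * Y 1 0 := by
  have e := ad1 R hg
  obtain ⟨h1, h2⟩ := R.ad g hg
  simp only [ad, mr_inv R.det, adjugate_fin_two, mul_apply, Fin.sum_univ_two, h1, h2]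
  simp
  refine ⟨?_, by ring⟩
  linear_combination (Y 1 1) * e

theorem ker_le (R : Res rb H T D) {g : GQ} (hg : rb g = 1) : g ∈ H := by
  by_contra h
  have := (R.ad g h).1
  simp [mr, hg] at this

theorem opnH (R : Res rb H T D) : IsOpen (H : Set GQ) :=
  Subgroup.isOpen_mono (H₁ := rb.ker) (fun _ hx => ker_le R hx) R.lv.opn

theorem idx (R : Res rb H T D) {x s : GQ} (hx : x ∉ H) (hs : s ∉ H) : x * s⁻¹ ∈ H := by
  by_contra h
  have e : mr rb x = mr rb (x * s⁻¹) * mr rb s := by rw [← mr_mul, inv_mul_cancel_right]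
  have e1 : mr rb x 0 1 = 0 := by
    rw [e, mul_apply, Fin.sum_univ_two, (R.ad _ h).1, (R.ad _ hs).2, zero_mul, mul_zero, add_zero]
  have := ad1 R hx
  rw [e1, zero_mul, neg_zero] at this
  exact zero_ne_one this

theorem ent_mul (R : Res rb H T D) {g h : GQ} (hg : g ∈ H) :
    mr rb (g * h) 0 0 = mr rb g 0 0 * mr rb h 0 0 ∧
      mr rb (g * h) 1 1 = mr rb g 1 1 * mr rb h 1 1 := by
  simp only [mr_mul, mul_apply, Fin.sum_univ_two, (R.dg g hg).1, (R.dg g hg).2]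
  simp

theorem ent_ker {g : GQ} (hg : rb g = 1) (i : Fin 2) : mr rb g i i ^ 2 = 1 := by
  simp [mr, hg]

variable [Finite F] [CharP F 2]

theorem reg (R : Res rb H T D) : ∃ g ∈ H, ∀ i, mr rb g i i ^ 2 ≠ 1 := by
  obtain ⟨g, hg⟩ := R.reg
  have two : (2 : F) = 0 := CharP.cast_eq_zero F 2
  rw [trace_fin_two] at hg
  have h : g ∈ H := by
    by_contra h
    rw [(R.ad g h).1, (R.ad g h).2, add_zero] at hg
    exact hg rfl
  have e := dg1 R h
  refine ⟨g, h, fun i k => hg ?_⟩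
  fin_cases i
  · change mr rb g 0 0 ^ 2 = 1 at k
    linear_combination (mr rb g 1 1) * two + (mr rb g 1 1) * k - (mr rb g 0 0) * e
  · change mr rb g 1 1 ^ 2 = 1 at k
    linear_combination (mr rb g 0 0) * two + (mr rb g 0 0) * k - (mr rb g 1 1) * e

theorem chr0 (R : Res rb H T D) :
    Module.rank F (Ft (fun _ => (1 : F)) T D H) + (0 : ℕ) ≤
      Module.rank F (Zt (fun _ => (1 : F)) T H) := by
  rw [Nat.cast_zero, add_zero]
  exact (chrC F H (fun _ => 1) T D (opnH R) rfl (fun _ _ _ _ => (mul_one _).symm)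
    ⟨⊤, isOpen_univ, fun _ _ => rfl⟩ R.lv.h0 R.lv.h2 R.lv.dec fun _ _ _ _ _ _ _ => rfl).1

theorem chr1 (R : Res rb H T D) (i : Fin 2) :
    Module.rank F (Ft (fun g => mr rb g i i ^ 2) T D H) + (1 : ℕ) ≤
      Module.rank F (Zt (fun g => mr rb g i i ^ 2) T H) := by
  rw [Nat.cast_one]
  obtain ⟨g, hg, h⟩ := reg R
  refine (chrC F H (fun g => mr rb g i i ^ 2) T D (opnH R) (ent_ker (map_one rb) i)
    (fun a ha b _ => ?_) ⟨rb.ker, R.lv.opn, fun σ hσ => ent_ker hσ i⟩ R.lv.h0 R.lv.h2 R.lv.dec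
    fun l hl P hP a _ k => ent_ker (R.lv.unr l hl P hP a k) i).2 ⟨g, hg, h i⟩
  rw [← mul_pow]
  fin_cases i
  · exact congrArg (· ^ 2) (ent_mul R ha).1
  · exact congrArg (· ^ 2) (ent_mul R ha).2

omit [Finite F] [CharP F 2] in
/-- an entry of a local invariant -/
theorem fx_mem {a : ℕ → M2 F} (ha : a ∈ FxR rb T D) (i j : Fin 2) (θ : GQ → F)
    (h : ∀ g ∈ H, ∀ Y, ad rb g Y i j = θ g * Y i j) :
    (fun l g => ad rb g (a l) i j) ∈ Ft θ T D H := by
  refine ⟨fun l hl => funext fun g => ?_, fun l γ hγ g => ?_, fun l d hd g => ?_⟩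
  · change ad rb g (a l) i j = 0
    rw [ha.1 l hl, ad_zero]; rfl
  · change ad rb (γ * g) (a l) i j = θ γ * ad rb g (a l) i j
    rw [ad_mul, h γ hγ]
  · change ad rb (g * d) (a l) i j = ad rb g (a l) i j
    by_cases hl : l ∈ T
    · rw [ad_mul, show ad rb d (a l) = a l from ha.2 l hl d hd]
    · rw [ha.1 l hl, ad_zero, ad_zero]

theorem split (R : Res rb ⊤ T D) (hf : (H1R rb T).Finite) :
    Nat.card (FxR rb T D) * Nat.card F ^ 2 ≤ Nat.card (H1R rb T) := by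
  have m : ∀ g : GQ, g ∈ (⊤ : Subgroup GQ) := Subgroup.mem_top
  haveI : Finite (H1R rb T) := hf
  let Z0 := Zt (fun _ => (1 : F)) T ⊤
  let Z1 := fun i : Fin 2 => Zt (fun g => mr rb g i i ^ 2) T ⊤
  let f : Z0 × Z0 × Z1 0 × Z1 1 → H1R rb T := fun z =>
    ⟨fun g => !![z.1.1 g, z.2.2.1.1 g; z.2.2.2.1 g, z.2.1.1 g], by
      obtain ⟨⟨a, a1, -, a2, a3⟩, ⟨d, d1, -, d2, d3⟩, ⟨b, b1, -, b2, b3⟩, ⟨c, c1, -, c2, c3⟩⟩ := z
      refine ⟨fun g h => ?_, ?_, fun l hl P hP g hg => ?_⟩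
      · obtain ⟨e1, e2, e3, e4⟩ := ad_in R (m g) !![a h, b h; c h, d h]
        change _ = _ + ad rb g _
        ext i j
        fin_cases i <;> fin_cases j
        · simpa [e1] using a1 g (m g) h (m h)
        · simpa [e2] using b1 g (m g) h (m h)
        · simpa [e3] using c1 g (m g) h (m h)
        · simpa [e4] using d1 g (m g) h (m h)
      · obtain ⟨U1, o1, u1⟩ := a2
        obtain ⟨U2, o2, u2⟩ := b2
        obtain ⟨U3, o3, u3⟩ := c2
        obtain ⟨U4, o4, u4⟩ := d2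
        refine ⟨(U1 ⊓ U2) ⊓ (U3 ⊓ U4), (o1.inter o2).inter (o3.inter o4), fun σ hσ => ?_⟩
        ext i j
        fin_cases i <;> fin_cases j <;>
          simp [u1 σ hσ.1.1, u2 σ hσ.1.2, u3 σ hσ.2.1, u4 σ hσ.2.2]
      · ext i j
        fin_cases i <;> fin_cases j <;>
          simp [a3 l hl P hP g hg, b3 l hl P hP g hg, c3 l hl P hP g hg, d3 l hl P hP g hg]⟩
  have fi : Function.Injective f := fun z w h => by
    have k : ∀ g i j, (f z).1 g i j = (f w).1 g i j := fun g i j => by rw [h]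
    exact Prod.ext (Subtype.ext (funext fun g => k g 0 0)) (Prod.ext
      (Subtype.ext (funext fun g => k g 1 1)) (Prod.ext (Subtype.ext (funext fun g => k g 0 1))
        (Subtype.ext (funext fun g => k g 1 0))))
  haveI hp : Finite (Z0 × Z0 × Z1 0 × Z1 1) := Finite.of_injective f fi
  haveI : Finite Z0 := Finite.prod_left (Z0 × Z1 0 × Z1 1)
  haveI : Finite (Z0 × Z1 0 × Z1 1) := Finite.prod_right Z0
  haveI : Finite (Z1 0 × Z1 1) := Finite.prod_right Z0
  haveI : Finite (Z1 0) := Finite.prod_left (Z1 1)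
  haveI : Finite (Z1 1) := Finite.prod_right (Z1 0)
  have c1 := Nat.card_le_card_of_injective f fi
  obtain ⟨f0, k0⟩ := card_le 0 (chr0 R)
  obtain ⟨f1, k1⟩ := card_le 1 (chr1 R 0)
  obtain ⟨f2, k2⟩ := card_le 1 (chr1 R 1)
  let p : FxR rb T D → Ft (fun _ => (1 : F)) T D ⊤ × Ft (fun _ => (1 : F)) T D ⊤ ×
      Ft (fun g => mr rb g 0 0 ^ 2) T D ⊤ × Ft (fun g => mr rb g 1 1 ^ 2) T D ⊤ := fun a =>
    (⟨_, fx_mem a.2 0 0 _ fun g hg Y => by rw [(ad_in R hg Y).1, one_mul]⟩,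
      ⟨_, fx_mem a.2 1 1 _ fun g hg Y => by rw [(ad_in R hg Y).2.2.2, one_mul]⟩,
      ⟨_, fx_mem a.2 0 1 _ fun g hg Y => (ad_in R hg Y).2.1⟩,
      ⟨_, fx_mem a.2 1 0 _ fun g hg Y => (ad_in R hg Y).2.2.1⟩)
  have pi : Function.Injective p := fun a b h => by
    refine Subtype.ext (funext fun l => ?_)
    have e1 : ad rb 1 (a.1 l) 0 0 = ad rb 1 (b.1 l) 0 0 := congrArg (fun x => x.1.1 l 1) h
    have e2 : ad rb 1 (a.1 l) 1 1 = ad rb 1 (b.1 l) 1 1 := congrArg (fun x => x.2.1.1 l 1) h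
    have e3 : ad rb 1 (a.1 l) 0 1 = ad rb 1 (b.1 l) 0 1 := congrArg (fun x => x.2.2.1.1 l 1) h
    have e4 : ad rb 1 (a.1 l) 1 0 = ad rb 1 (b.1 l) 1 0 := congrArg (fun x => x.2.2.2.1 l 1) h
    rw [ad_one, ad_one] at e1 e2 e3 e4
    ext i j
    fin_cases i <;> fin_cases j
    exacts [e1, e3, e4, e2]
  have c2 := Nat.card_le_card_of_injective p pi
  simp only [Nat.card_prod] at c1 c2
  rw [pow_zero, mul_one] at k0
  rw [pow_one] at k1 k2
  refine (Nat.mul_le_mul_right _ c2).trans (le_trans ?_ c1)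
  calc _ = Nat.card (Ft (fun _ => (1 : F)) T D ⊤) * (Nat.card (Ft (fun _ => (1 : F)) T D ⊤) *
        ((Nat.card (Ft (fun g => mr rb g 0 0 ^ 2) T D ⊤) * Nat.card F) *
          (Nat.card (Ft (fun g => mr rb g 1 1 ^ 2) T D ⊤) * Nat.card F))) := by ring
    _ ≤ _ := Nat.mul_le_mul k0 (Nat.mul_le_mul k0 (Nat.mul_le_mul k1 k2))

open Classical in
/-- extension of a cocycle of `H` to an equivariant function -/
def ext (H : Subgroup GQ) (θ : GQ → F) (s : GQ) (z : GQ → F) (v : F) (x : GQ) : F :=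
  if x ∈ H then z x else z (x * s⁻¹) + θ (x * s⁻¹) * v

omit [Finite F] [CharP F 2] in
theorem ext_in {θ : GQ → F} {s : GQ} {z : GQ → F} {v : F} {x : GQ} (hx : x ∈ H) :
    ext H θ s z v x = z x := if_pos hx

omit [Finite F] [CharP F 2] in
theorem ext_out {θ : GQ → F} {s : GQ} {z : GQ → F} {v : F} {x : GQ} (hx : x ∉ H) :
    ext H θ s z v x = z (x * s⁻¹) + θ (x * s⁻¹) * v := if_neg hx

omit [Finite F] [CharP F 2] in
theorem ext_mul (R : Res rb H T D) {θ : GQ → F} {s : GQ} (hs : s ∉ H) {z : GQ → F}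
    (hz : z ∈ Zt θ T H) (hθ : ∀ g ∈ H, ∀ h ∈ H, θ (g * h) = θ g * θ h) (v : F) {h : GQ}
    (hh : h ∈ H) (x : GQ) : ext H θ s z v (h * x) = z h + θ h * ext H θ s z v x := by
  by_cases hx : x ∈ H
  · rw [ext_in hx, ext_in (H.mul_mem hh hx), hz.1 h hh x hx]
  · have k := idx R hx hs
    rw [ext_out hx, ext_out (fun c => hx ((H.mul_mem_cancel_left hh).1 c)), mul_assoc,
      hz.1 h hh _ k, hθ h hh _ k]
    ring

omit [Finite F] [CharP F 2] in
theorem z_one {θ : GQ → F} {z : GQ → F} (hz : z ∈ Zt θ T H) (h1 : θ 1 = 1) : z 1 = 0 := by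
  have := hz.1 1 H.one_mem 1 H.one_mem
  rw [mul_one, h1, one_mul] at this
  linear_combination -this

theorem ind (R : Res rb H T D) {s : GQ} (hs : s ∉ H) (hf : (H1R rb T).Finite) :
    Nat.card (FxR rb T D) * Nat.card F ^ 3 ≤ Nat.card (H1R rb T) := by
  haveI : Finite (H1R rb T) := hf
  let θ : GQ → F := fun g => mr rb g 0 0 ^ 2
  let o : GQ → F := fun _ => 1
  have θ1 : θ 1 = 1 := ent_ker (map_one rb) 0
  have θm : ∀ g ∈ H, ∀ h ∈ H, θ (g * h) = θ g * θ h := fun g hg h _ => by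
    simp only [θ]; rw [(ent_mul R hg).1, mul_pow]
  have om : ∀ g ∈ H, ∀ h ∈ H, o (g * h) = o g * o h := fun _ _ _ _ => (mul_one _).symm
  have es := ad1 R hs
  have uq : ∀ Y Y' : M2 F, Y 0 0 = Y' 0 0 → Y 0 1 = Y' 0 1 → ad rb s Y 0 0 = ad rb s Y' 0 0 →
      ad rb s Y 0 1 = ad rb s Y' 0 1 → Y = Y' := fun Y Y' e1 e2 e3 e4 => by
    rw [(ad_out R hs _).1, (ad_out R hs _).1] at e3
    rw [(ad_out R hs _).2, (ad_out R hs _).2] at e4
    have e5 : Y 1 0 = Y' 1 0 := by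
      linear_combination (-(mr rb s 1 0 ^ 2)) * e4 +
        (Y 1 0 - Y' 1 0) * (mr rb s 0 1 * mr rb s 1 0 - 1) * es
    ext i j
    fin_cases i <;> fin_cases j
    exacts [e1, e2, e5, e3]
  let c : (GQ → F) → (GQ → F) → GQ → M2 F := fun A B g =>
    !![A g - A 1, B g - B 1; -(mr rb s 1 0 ^ 2) * (B (s * g) - B s), A (s * g) - A s]
  have key : ∀ (A B z w : GQ → F), (∀ h ∈ H, ∀ x, A (h * x) = z h + o h * A x) →
      (∀ h ∈ H, ∀ x, B (h * x) = w h + θ h * B x) → ∀ x g,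
      ad rb x (c A B g) 0 0 = A (x * g) - A x ∧ ad rb x (c A B g) 0 1 = B (x * g) - B x := by
    intro A B z w hA hB x g
    by_cases hx : x ∈ H
    · rw [(ad_in R hx _).1, (ad_in R hx _).2.1, hA x hx, hB x hx]
      have a1 := hA x hx 1
      have b1 := hB x hx 1
      rw [mul_one] at a1 b1
      rw [a1, b1]
      simp only [c, o, θ, of_apply, cons_val', cons_val_zero, cons_val_one, cons_val_fin_one]
      exact ⟨by ring, by ring⟩
    · have k := idx R hx hs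
      obtain ⟨h, hh⟩ : ∃ h, h = x * s⁻¹ := ⟨_, rfl⟩
      have ex : x = h * s := by rw [hh, inv_mul_cancel_right]
      rw [← hh] at k
      rw [ex, ad_mul, (ad_in R k _).1, (ad_in R k _).2.1, (ad_out R hs _).1, (ad_out R hs _).2,
        mul_assoc h, hA h k, hB h k, hA h k, hB h k]
      simp only [c, o, θ, of_apply, cons_val', cons_val_zero, cons_val_one, cons_val_fin_one]
      refine ⟨by ring, ?_⟩
      linear_combination mr rb h 0 0 ^ 2 * (B (s * g) - B s) *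
        (1 - mr rb s 0 1 * mr rb s 1 0) * es
  have van : ∀ (θ' z : GQ → F) (v : F), θ' 1 = 1 → z ∈ Zt θ' T H → (∀ g, rb g = 1 → θ' g = 1) →
      ∀ g, rb g = 1 → z g = 0 → z (s * g * s⁻¹) = 0 →
      ext H θ' s z v g - ext H θ' s z v 1 = 0 ∧ ext H θ' s z v (s * g) - ext H θ' s z v s = 0 := by
    intro θ' z v h1 hz hk g hg e1 e2
    have gH := ker_le R hg
    have k2 : rb (s * g * s⁻¹) = 1 := by rw [map_mul, map_mul, hg, mul_one, map_inv, mul_inv_cancel]
    rw [ext_in gH, ext_in H.one_mem, ext_out hs,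
      ext_out (fun k => hs ((H.mul_mem_cancel_right gH).1 k)), mul_inv_cancel, e1, e2,
      z_one hz h1, h1, hk _ k2]
    exact ⟨sub_self _, sub_self _⟩
  have θk : ∀ g, rb g = 1 → θ g = 1 := fun g hg => ent_ker hg 0
  let f : (Zt o T H × F) × (Zt θ T H × F) → H1R rb T := fun z =>
    ⟨c (ext H o s z.1.1.1 z.1.2) (ext H θ s z.2.1.1 z.2.2), by
      obtain ⟨⟨⟨a, ha⟩, v⟩, ⟨⟨b, hb⟩, w⟩⟩ := z
      have K := key _ _ a b (fun h hh x => ext_mul R hs ha om v hh x)
        (fun h hh x => ext_mul R hs hb θm w hh x)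
      have V : ∀ g, rb g = 1 → a g = 0 → a (s * g * s⁻¹) = 0 → b g = 0 → b (s * g * s⁻¹) = 0 →
          c (ext H o s a v) (ext H θ s b w) g = 0 := fun g hg a1 a2 b1 b2 => by
        obtain ⟨x1, x2⟩ := van o a v rfl ha (fun _ _ => rfl) g hg a1 a2
        obtain ⟨y1, y2⟩ := van θ b w θ1 hb θk g hg b1 b2
        simp only [c, x1, x2, y1, y2, mul_zero]
        ext i j
        fin_cases i <;> fin_cases j <;> rfl
      refine ⟨fun g h => ?_, ?_, fun l hl P hP g hg => ?_⟩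
      · change c _ _ (g * h) = c _ _ g + ad rb g (c _ _ h)
        have K1 := fun g => K 1 g
        simp only [ad_one, one_mul] at K1
        refine uq _ _ ?_ ?_ ?_ ?_
        · rw [Matrix.add_apply, (K1 _).1, (K1 _).1, (K _ _).1]; ring
        · rw [Matrix.add_apply, (K1 _).2, (K1 _).2, (K _ _).2]; ring
        · rw [ad_add, Matrix.add_apply, ← ad_mul, (K _ _).1, (K _ _).1, (K _ _).1, mul_assoc]; ring
        · rw [ad_add, Matrix.add_apply, ← ad_mul, (K _ _).2, (K _ _).2, (K _ _).2, mul_assoc]; ring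
      · obtain ⟨U1, o1, u1⟩ := ha.2.2.1
        obtain ⟨U2, o2, u2⟩ := hb.2.2.1
        refine ⟨(rb.ker ⊓ (U1 ⊓ U2)) ⊓ (U1 ⊓ U2).comap (MulAut.conj s).toMonoidHom,
          (R.lv.opn.inter (o1.inter o2)).inter ?_, fun σ hσ =>
            V σ hσ.1.1 (u1 _ hσ.1.2.1) (u1 _ hσ.2.1) (u2 _ hσ.1.2.2) (u2 _ hσ.2.2)⟩
        exact (o1.inter o2).preimage
          (show Continuous fun g : GQ => s * g * s⁻¹ by fun_prop)
      · obtain ⟨P', hP', hi⟩ := Vale.Agent.P022E.GW.Lf.inert_cj hP s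
        exact V g (R.lv.unr l hl P hP g hg) (ha.2.2.2 l hl P hP g hg)
          (ha.2.2.2 l hl P' hP' _ (hi g hg)) (hb.2.2.2 l hl P hP g hg)
          (hb.2.2.2 l hl P' hP' _ (hi g hg))⟩
  have rec0 : ∀ (θ' : GQ → F) (z z' : Zt θ' T H × F), θ' 1 = 1 →
      (∀ g, ext H θ' s z.1.1 z.2 g - ext H θ' s z.1.1 z.2 1 =
        ext H θ' s z'.1.1 z'.2 g - ext H θ' s z'.1.1 z'.2 1) → z = z' := by
    rintro θ' ⟨⟨a, ha⟩, v⟩ ⟨⟨b, hb⟩, w⟩ h1 h
    simp only [ext_in H.one_mem, z_one ha h1, z_one hb h1, sub_zero] at h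
    refine Prod.ext (Subtype.ext (funext fun g => ?_)) ?_
    · by_cases hg : g ∈ H
      · simpa only [ext_in hg] using h g
      · change a g = b g
        rw [ha.2.1 g hg, hb.2.1 g hg]
    · have := h s
      rwa [ext_out hs, ext_out hs, mul_inv_cancel, z_one ha h1, z_one hb h1, h1, zero_add,
        zero_add, one_mul, one_mul] at this
  have fi : Function.Injective f := fun z w h => by
    have k : ∀ g i j, (f z).1 g i j = (f w).1 g i j := fun g i j => by rw [h]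
    exact Prod.ext (rec0 o _ _ rfl fun g => k g 0 0) (rec0 θ _ _ θ1 fun g => k g 0 1)
  haveI hp : Finite ((Zt o T H × F) × (Zt θ T H × F)) := Finite.of_injective f fi
  haveI : Finite (Zt o T H × F) := Finite.prod_left (Zt θ T H × F)
  haveI : Finite (Zt θ T H × F) := Finite.prod_right (Zt o T H × F)
  haveI : Finite (Zt o T H) := Finite.prod_left F
  haveI : Finite (Zt θ T H) := Finite.prod_left F
  have c1 := Nat.card_le_card_of_injective f fi
  obtain ⟨f0, k0⟩ := card_le 0 (chr0 R)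
  obtain ⟨f1, k1⟩ := card_le 1 (chr1 R 0)
  let p : FxR rb T D → Ft o T D H × Ft θ T D H := fun a =>
    (⟨_, fx_mem a.2 0 0 _ fun g hg Y => by rw [(ad_in R hg Y).1, one_mul]⟩,
      ⟨_, fx_mem a.2 0 1 _ fun g hg Y => (ad_in R hg Y).2.1⟩)
  have pi : Function.Injective p := fun a b h => by
    refine Subtype.ext (funext fun l => ?_)
    have e1 : ∀ g, ad rb g (a.1 l) 0 0 = ad rb g (b.1 l) 0 0 := fun g =>
      congrArg (fun x => x.1.1 l g) h
    have e2 : ∀ g, ad rb g (a.1 l) 0 1 = ad rb g (b.1 l) 0 1 := fun g =>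
      congrArg (fun x => x.2.1 l g) h
    exact uq _ _ (by simpa only [ad_one] using e1 1) (by simpa only [ad_one] using e2 1)
      (e1 s) (e2 s)
  have c2 := Nat.card_le_card_of_injective p pi
  simp only [Nat.card_prod] at c1 c2
  rw [pow_zero, mul_one] at k0
  rw [pow_one] at k1
  refine (Nat.mul_le_mul_right _ c2).trans (le_trans ?_ c1)
  calc _ = (Nat.card (Ft o T D H) * Nat.card F) *
        ((Nat.card (Ft θ T D H) * Nat.card F) * Nat.card F) := by ring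
    _ ≤ _ := Nat.mul_le_mul (Nat.mul_le_mul_right _ k0) (Nat.mul_le_mul_right _ k1)

end Bs

theorem baseC : BASE := by
  intro F _ _ _ rb H T D R hf
  have h3 : H ≠ ⊤ → Nat.card (FxR rb T D) * Nat.card F ^ 3 ≤ Nat.card (H1R rb T) := fun h => by
    obtain ⟨s, hs⟩ : ∃ s, s ∉ H := by
      by_contra k
      exact h ((Subgroup.eq_top_iff' H).2 fun x => by_contra fun hx => k ⟨x, hx⟩)
    exact Bs.ind R hs hf
  refine ⟨?_, h3⟩
  by_cases h : H = ⊤
  · subst h
    exact Bs.split R hf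
  · exact (Nat.mul_le_mul_left _ (Nat.pow_le_pow_right Nat.card_pos (by norm_num))).trans (h3 h)

end P022G.Lb90.H11
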