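import Vale.Agent.P022G.Lb90.Defs
import Vale.Agent.P022G.Sel.Bas
import Vale.Agent.P022G.Sel.Finr
import Vale.Agent.P022E.GW.ChrC

/-!
# P022G, lower bound at a curve: the count for the residual representation
-/

set_option linter.all false

noncomputable section

namespace P022G.Lb90.BaseH34

open NumberField
open Vale.Agent.P022
open Vale.Agent.P027M.S (Inert)
open Vale.Agent.P022D.Sel (M2 IsDec)
open Vale.Agent.P022E.GW (Ov Op Ur Zt Ft chrC)
open P022G.Sel P022G.Sel.Bas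

theorem inert_cj {l : ℕ} {P : Ideal (𝓞 Qb)} (hP : Ov l P) (g : GQ) :
    ∃ P', Ov l P' ∧ ∀ i, Inert P i → Inert P' (g * i * g⁻¹) := by
  let f : 𝓞 Qb →+* 𝓞 Qb := MulSemiringAction.toRingHom GQ (𝓞 Qb) g⁻¹
  haveI := hP.2.1
  refine ⟨P.comap f, ⟨hP.1, Ideal.comap_isPrime f P, ?_⟩, fun i hi x => ?_⟩
  · rw [Ideal.mem_comap, map_natCast]; exact hP.2.2
  · rw [Ideal.mem_comap]
    have := hi (g⁻¹ • x)
    have e : f ((g * i * g⁻¹) • x - x) = i • g⁻¹ • x - g⁻¹ • x := by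
      rw [map_sub]
      show g⁻¹ • (g * i * g⁻¹) • x - g⁻¹ • x = _
      rw [smul_smul, smul_smul]
      congr 2; group
    rw [e]; exact this

theorem card_of_rank {F V W : Type} [Field F] [Finite F] [AddCommGroup V] [Module F V]
    [AddCommGroup W] [Module F W] [Finite W] {k : ℕ}
    (h : Module.rank F V + k ≤ Module.rank F W) :
    Finite V ∧ Nat.card V * Nat.card F ^ k ≤ Nat.card W := by
  have hW : Module.Finite F W := Module.Finite.of_finite
  have hV : Module.Finite F V := Module.rank_lt_aleph0_iff.1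
    (lt_of_le_of_lt (le_self_add.trans h) (Module.rank_lt_aleph0 F W))
  refine ⟨Module.finite_of_finite F, ?_⟩
  rw [← Module.finrank_eq_rank, ← Module.finrank_eq_rank] at h
  have h1 : Module.finrank F V + k ≤ Module.finrank F W := by exact_mod_cast h
  rw [Module.natCard_eq_pow_finrank (K := F) (V := V),
    Module.natCard_eq_pow_finrank (K := F) (V := W), ← pow_add]
  exact Nat.pow_le_pow_right Nat.card_pos h1

variable {F : Type} [Field F] {ρ : GQ →* GL (Fin 2) F} {H : Subgroup GQ}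

/-- diagonal on `H`, antidiagonal outside -/
structure Sh (ρ : GQ →* GL (Fin 2) F) (H : Subgroup GQ) : Prop where
  dia : ∀ g ∈ H, mr ρ g 0 1 = 0 ∧ mr ρ g 1 0 = 0
  ant : ∀ g ∉ H, mr ρ g 0 0 = 0 ∧ mr ρ g 1 1 = 0

/-- the character of `H` on the entry `(i, j)` -/
def th (ρ : GQ →* GL (Fin 2) F) (i j : Fin 2) (g : GQ) : F := mr ρ g i i * mr ρ g⁻¹ j j

/-- the adjoint action -/
def ac (ρ : GQ →* GL (Fin 2) F) (g : GQ) (x : M2 F) : M2 F := mr ρ g * x * mr ρ g⁻¹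

theorem ac_mul (g h : GQ) (x : M2 F) : ac ρ (g * h) x = ac ρ g (ac ρ h x) := by
  simp only [ac, mul_inv_rev, mm, mul_assoc]

theorem ac_one (x : M2 F) : ac ρ 1 x = x := by simp only [ac, inv_one, m1, one_mul, mul_one]

theorem ac_add (g : GQ) (x y : M2 F) : ac ρ g (x + y) = ac ρ g x + ac ρ g y := by
  simp only [ac, mul_add, add_mul]

theorem ac_zero (g : GQ) : ac ρ g 0 = 0 := by simp only [ac, mul_zero, zero_mul]

theorem Sh.ac_dia (S : Sh ρ H) {h : GQ} (hh : h ∈ H) (x : M2 F) (i j : Fin 2) :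
    ac ρ h x i j = th ρ i j h * x i j := by
  obtain ⟨a, b⟩ := S.dia h hh
  obtain ⟨c, d⟩ := S.dia _ (H.inv_mem hh)
  fin_cases i <;> fin_cases j <;>
    simp [ac, th, Matrix.mul_apply, Fin.sum_univ_two, a, b, c, d] <;> ring

theorem Sh.mul_dia (S : Sh ρ H) {g h : GQ} (hg : g ∈ H) (hh : h ∈ H) (i : Fin 2) :
    mr ρ (g * h) i i = mr ρ g i i * mr ρ h i i := by
  obtain ⟨a, b⟩ := S.dia g hg
  rw [mm]
  fin_cases i <;> simp [Matrix.mul_apply, Fin.sum_univ_two, a, b]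

theorem th_ker {g : GQ} (h : ρ g = 1) (i j : Fin 2) : th ρ i j g = 1 := by
  rw [th, (mker h).1, (mker h).2, Matrix.one_apply_eq, Matrix.one_apply_eq, one_mul]

theorem Sh.th_mul (S : Sh ρ H) (i j : Fin 2) : ∀ g ∈ H, ∀ h ∈ H,
    th ρ i j (g * h) = th ρ i j g * th ρ i j h := fun g hg h hh => by
  rw [th, th, th, mul_inv_rev, S.mul_dia hg hh, S.mul_dia (H.inv_mem hh) (H.inv_mem hg)]
  ring

theorem Sh.ker_le (S : Sh ρ H) : ρ.ker ≤ H := fun g hg => by
  by_contra h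
  have := (S.ant g h).1
  rw [(mker (MonoidHom.mem_ker.1 hg)).1, Matrix.one_apply_eq] at this
  exact one_ne_zero this

theorem Sh.th_ne [CharP F 2] (S : Sh ρ H) (ht : ∃ g, (mr ρ g).trace ≠ 0) :
    (∃ g ∈ H, th ρ 0 1 g ≠ 1) ∧ ∃ g ∈ H, th ρ 1 0 g ≠ 1 := by
  obtain ⟨g, hg⟩ := ht
  rw [Matrix.trace_fin_two] at hg
  have hH : g ∈ H := by
    by_contra h
    exact hg (by rw [(S.ant g h).1, (S.ant g h).2, add_zero])
  have e : ∀ i, mr ρ g i i * mr ρ g⁻¹ i i = 1 := fun i => by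
    rw [← S.mul_dia hH (H.inv_mem hH), mul_inv_cancel, m1, Matrix.one_apply_eq]
  have t : (2 : F) = 0 := CharTwo.two_eq_zero
  refine ⟨⟨g, hH, fun h => hg ?_⟩, ⟨g, hH, fun h => hg ?_⟩⟩
  · rw [th] at h
    linear_combination mr ρ g 1 1 * h - mr ρ g 0 0 * e 1 + mr ρ g 1 1 * t
  · rw [th] at h
    linear_combination mr ρ g 0 0 * h - mr ρ g 1 1 * e 0 + mr ρ g 0 0 * t

theorem Sh.ant_unit (S : Sh ρ H) {s : GQ} (hs : s ∉ H) :
    mr ρ s 0 1 * mr ρ s⁻¹ 1 0 = 1 ∧ mr ρ s 1 0 * mr ρ s⁻¹ 0 1 = 1 := by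
  obtain ⟨a, b⟩ := S.ant s hs
  have e := mi' (ρ := ρ) s
  have e0 := congrFun (congrFun e 0) 0
  have e1 := congrFun (congrFun e 1) 1
  simp [Matrix.mul_apply, Fin.sum_univ_two, a, b] at e0 e1
  exact ⟨by simpa using e0, by simpa using e1⟩

theorem Sh.idx (S : Sh ρ H) {s g : GQ} (hs : s ∉ H) (hg : g ∉ H) : g * s⁻¹ ∈ H := by
  by_contra h
  have e := (S.ant _ h).1
  rw [mm, Matrix.mul_apply, Fin.sum_univ_two, (S.ant g hg).1, zero_mul, zero_add] at e
  rcases mul_eq_zero.1 e with k | k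
  · exact left_ne_zero_of_mul_eq_one (S.ant_unit hg).1 k
  · exact right_ne_zero_of_mul_eq_one (S.ant_unit hs).1 k

theorem Sh.ac_ant (S : Sh ρ H) {s : GQ} (hs : s ∉ H) (x : M2 F) :
    ac ρ s x 0 0 = x 1 1 ∧ ac ρ s x 0 1 = mr ρ s 0 1 * mr ρ s⁻¹ 0 1 * x 1 0 := by
  obtain ⟨a, b⟩ := S.ant s hs
  obtain ⟨c, d⟩ := S.ant s⁻¹ fun h => hs (H.inv_mem_iff.1 h)
  have e := (S.ant_unit hs).1
  constructor
  · simp only [ac, Matrix.mul_apply, Fin.sum_univ_two, a, b, c, d]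
    linear_combination x 1 1 * e
  · simp only [ac, Matrix.mul_apply, Fin.sum_univ_two, a, b, c, d]
    ring

theorem Sh.ant_ne (S : Sh ρ H) {s : GQ} (hs : s ∉ H) : mr ρ s 0 1 * mr ρ s⁻¹ 0 1 ≠ 0 :=
  mul_ne_zero (left_ne_zero_of_mul_eq_one (S.ant_unit hs).1)
    (right_ne_zero_of_mul_eq_one (S.ant_unit hs).2)

theorem Sh.sep (S : Sh ρ H) {s : GQ} (hs : s ∉ H) {x y : M2 F}
    (h : ∀ g j, ac ρ g x 0 j = ac ρ g y 0 j) : x = y := by
  have h1 := h 1
  have h2 := h s 0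
  have h3 := h s 1
  simp only [ac_one] at h1
  rw [(S.ac_ant hs x).1, (S.ac_ant hs y).1] at h2
  rw [(S.ac_ant hs x).2, (S.ac_ant hs y).2] at h3
  ext i j
  fin_cases i
  · exact h1 j
  · fin_cases j
    · exact mul_left_cancel₀ (S.ant_ne hs) h3
    · exact h2

variable {T : Finset ℕ} {D : ℕ → Set GQ}

/-- the entry `(i, j)` of a family of local invariants -/
def Sh.fx (S : Sh ρ H) (i j : Fin 2) (a : FxR ρ T D) : Ft (th ρ i j) T D H :=
  ⟨fun l g => ac ρ g (a.1 l) i j, fun l hl => funext fun g => by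
      change ac ρ g (a.1 l) i j = 0
      rw [a.2.1 l hl, ac_zero]; rfl,
    fun l γ hγ g => by
      change ac ρ (γ * g) (a.1 l) i j = _ * ac ρ g (a.1 l) i j
      rw [ac_mul, S.ac_dia hγ],
    fun l d hd g => by
      change ac ρ (g * d) (a.1 l) i j = ac ρ g (a.1 l) i j
      by_cases hl : l ∈ T
      · rw [ac_mul]; exact congrArg (fun x => ac ρ g x i j) (a.2.2 l hl d hd)
      · simp only [a.2.1 l hl, ac_zero]⟩

variable [Finite F] [CharP F 2]

theorem Sh.chr (S : Sh ρ H) (hL : Lv ρ T D) (i j : Fin 2) [Finite (Zt (th ρ i j) T H)] :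
    Finite (Ft (th ρ i j) T D H) ∧
    Nat.card (Ft (th ρ i j) T D H) ≤ Nat.card (Zt (th ρ i j) T H) ∧
    ((∃ g ∈ H, th ρ i j g ≠ 1) →
      Nat.card (Ft (th ρ i j) T D H) * Nat.card F ≤ Nat.card (Zt (th ρ i j) T H)) := by
  obtain ⟨h1, h2⟩ := chrC F H (th ρ i j) T D (Subgroup.isOpen_mono S.ker_le hL.opn)
    (th_ker (map_one ρ) i j) (S.th_mul i j) ⟨ρ.ker, hL.opn, fun σ hσ => th_ker hσ i j⟩ hL.h0 hL.h2
    hL.dec fun l hl P hP g _ hg => th_ker (hL.unr l hl P hP g hg) i j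
  have h3 := card_of_rank (k := 0) (by simpa using h1)
  refine ⟨h3.1, by simpa using h3.2, fun h => ?_⟩
  simpa using (card_of_rank (k := 1) (by simpa using h2 h)).2

theorem fin_h1 (hL : Lv ρ T D) : Finite (H1R ρ T) :=
  finrC F ρ T CharTwo.two_eq_zero hL.opn

/-- **the split case** -/
theorem split (S : Sh ρ ⊤) (hL : Lv ρ T D) (ht : ∃ g, (mr ρ g).trace ≠ 0) :
    Nat.card (FxR ρ T D) * Nat.card F ^ 2 ≤ Nat.card (H1R ρ T) := by
  have := fin_h1 hL
  let Φ : (∀ p : Fin 2 × Fin 2, Zt (th ρ p.1 p.2) T ⊤) → H1R ρ T := fun c =>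
    ⟨fun g => Matrix.of fun i j => (c (i, j)).1 g, fun g h => by
      ext i j
      rw [Matrix.add_apply]
      exact ((c (i, j)).2.1 g trivial h trivial).trans (congrArg _
        (S.ac_dia (h := g) trivial (Matrix.of fun i j => (c (i, j)).1 h) i j).symm),
      by
        choose U hU using fun p => (c p).2.2.2.1
        refine ⟨⨅ p, U p, by
          rw [Subgroup.coe_iInf]; exact isOpen_iInter_of_finite fun p => (hU p).1, fun σ hσ => ?_⟩
        ext i j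
        exact (hU (i, j)).2 σ (Subgroup.mem_iInf.1 hσ _),
      fun l hl P hP g hg => by
        ext i j
        exact (c (i, j)).2.2.2.2 l hl P hP g hg⟩
  have hΦ : Function.Injective Φ := fun c c' h => funext fun p => Subtype.ext (funext fun g =>
    congrArg (fun z : H1R ρ T => z.1 g p.1 p.2) h)
  have hf : Finite (∀ p : Fin 2 × Fin 2, Zt (th ρ p.1 p.2) T ⊤) := Finite.of_injective Φ hΦ
  have hz : ∀ p : Fin 2 × Fin 2, Finite (Zt (th ρ p.1 p.2) T ⊤) := fun p =>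
    Finite.of_surjective (fun c : (∀ p : Fin 2 × Fin 2, Zt (th ρ p.1 p.2) T ⊤) => c p)
      (Function.surjective_eval p)
  have hc := fun p : Fin 2 × Fin 2 => S.chr hL p.1 p.2
  have := fun p => (hc p).1
  have h1 := Nat.card_le_card_of_injective Φ hΦ
  have h2 := Nat.card_le_card_of_injective
    (fun (a : FxR ρ T D) (p : Fin 2 × Fin 2) => S.fx p.1 p.2 a) fun a b h =>
      Subtype.ext (funext fun l => by
        ext i j
        have := congrArg (fun z : Ft (th ρ i j) T D ⊤ => z.1 l 1) (congrFun h (i, j))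
        simpa only [Sh.fx, ac_one] using this)
  rw [Nat.card_pi, Fintype.prod_prod_type] at h1 h2
  simp only [Fin.prod_univ_two] at h1 h2
  obtain ⟨t1, t2⟩ := S.th_ne ht
  have a := (hc (0, 0)).2.1
  have b := (hc (0, 1)).2.2 t1
  have c := (hc (1, 0)).2.2 t2
  have d := (hc (1, 1)).2.1
  refine le_trans (Nat.mul_le_mul_right _ h2) (le_trans (le_of_eq (by ring))
    ((Nat.mul_le_mul (Nat.mul_le_mul a b) (Nat.mul_le_mul c d)).trans h1))

omit [Finite F] [CharP F 2]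

open Classical in
/-- extension of a cocycle of `H` with the value `x` at `s` -/
def ex (H : Subgroup GQ) (θ c : GQ → F) (s : GQ) (x : F) (g : GQ) : F :=
  if g ∈ H then c g else c (g * s⁻¹) + θ (g * s⁻¹) * x

theorem ex_mem {θ c : GQ → F} {s : GQ} {x : F} {g : GQ} (hg : g ∈ H) : ex H θ c s x g = c g :=
  if_pos hg

theorem zt_one {θ : GQ → F} (h1 : θ 1 = 1) (c : Zt θ T H) : c.1 1 = 0 := by
  have := c.2.1 1 H.one_mem 1 H.one_mem
  rw [mul_one, h1, one_mul] at this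
  exact left_eq_add.1 this

theorem Sh.ex_s (S : Sh ρ H) {s : GQ} (hs : s ∉ H) (j : Fin 2) (c : Zt (th ρ 0 j) T H) (x : F) :
    ex H (th ρ 0 j) c.1 s x s = x := by
  rw [ex, if_neg hs, mul_inv_cancel, zt_one (th_ker (map_one ρ) 0 j), th_ker (map_one ρ), zero_add,
    one_mul]

theorem Sh.ex_mul (S : Sh ρ H) {s : GQ} (hs : s ∉ H) (j : Fin 2) (c : Zt (th ρ 0 j) T H) (x : F)
    {h : GQ} (hh : h ∈ H) (g : GQ) :
    ex H (th ρ 0 j) c.1 s x (h * g) = c.1 h + th ρ 0 j h * ex H (th ρ 0 j) c.1 s x g := by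
  by_cases hg : g ∈ H
  · rw [ex_mem (H.mul_mem hh hg), ex_mem hg, c.2.1 h hh g hg]
  · have k := S.idx hs hg
    rw [ex, if_neg (fun e => hg ((H.mul_mem_cancel_left hh).1 e)), ex, if_neg hg, mul_assoc,
      c.2.1 h hh _ k, S.th_mul 0 j h hh _ k]
    ring

/-- the induced cocycle -/
def ind (ρ : GQ →* GL (Fin 2) F) (s : GQ) (e : Fin 2 → GQ → F) (g : GQ) : M2 F :=
  !![e 0 g, e 1 g; (mr ρ s 0 1 * mr ρ s⁻¹ 0 1)⁻¹ * (e 1 (s * g) - e 1 s), e 0 (s * g) - e 0 s]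

theorem Sh.ac_ind (S : Sh ρ H) {s : GQ} (hs : s ∉ H) {e c : Fin 2 → GQ → F}
    (h1 : ∀ j, e j 1 = 0) (he : ∀ j, ∀ h ∈ H, ∀ g, e j (h * g) = c j h + th ρ 0 j h * e j g)
    (g k : GQ) (j : Fin 2) : ac ρ k (ind ρ s e g) 0 j = e j (k * g) - e j k := by
  by_cases hk : k ∈ H
  · have e1 := he j k hk 1
    rw [mul_one, h1] at e1
    rw [S.ac_dia hk, he j k hk g, e1]
    fin_cases j <;> simp [ind]
  · have k1 := S.idx hs hk
    obtain ⟨h, hh, rfl⟩ : ∃ h ∈ H, k = h * s := ⟨_, k1, by group⟩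
    rw [ac_mul, S.ac_dia hh, mul_assoc, he j h hh, he j h hh]
    have e2 : ac ρ s (ind ρ s e g) 0 j = e j (s * g) - e j s := by
      fin_cases j
      · exact (S.ac_ant hs _).1
      · refine (S.ac_ant hs _).2.trans ?_
        change _ * (_ * (e 1 (s * g) - e 1 s)) = e 1 (s * g) - e 1 s
        rw [← mul_assoc, mul_inv_cancel₀ (S.ant_ne hs), one_mul]
    rw [e2]
    ring

theorem Sh.ind_mem (S : Sh ρ H) (hL : Lv ρ T D) {s : GQ} (hs : s ∉ H)
    (c : ∀ j, Zt (th ρ 0 j) T H) (x : Fin 2 → F) :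
    ind ρ s (fun j => ex H (th ρ 0 j) (c j).1 s (x j)) ∈ H1R ρ T := by
  have k := S.ac_ind hs (e := fun j => ex H (th ρ 0 j) (c j).1 s (x j)) (c := fun j => (c j).1)
    (fun j => by rw [ex_mem H.one_mem, zt_one (th_ker (map_one ρ) 0 j)])
    (fun j h hh g => S.ex_mul hs j (c j) (x j) hh g)
  have z : ∀ u, ρ u = 1 → (∀ j, (c j).1 u = 0) → (∀ j, (c j).1 (s * u * s⁻¹) = 0) →
      ind ρ s (fun j => ex H (th ρ 0 j) (c j).1 s (x j)) u = 0 := fun u hu h1 h2 => by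
    have e : ρ (s * u * s⁻¹) = 1 := by
      rw [map_mul, map_mul, hu, map_inv, mul_one, mul_inv_cancel]
    have a : ∀ j, ex H (th ρ 0 j) (c j).1 s (x j) u = 0 := fun j => by
      rw [ex_mem (S.ker_le hu), h1]
    have b : ∀ j, ex H (th ρ 0 j) (c j).1 s (x j) (s * u) = ex H (th ρ 0 j) (c j).1 s (x j) s :=
      fun j => by
        rw [show s * u = s * u * s⁻¹ * s by group, S.ex_mul hs j (c j) (x j) (S.ker_le e), h2,
          th_ker e, zero_add, one_mul]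
    ext i j
    fin_cases i <;> fin_cases j <;> simp [ind, a, b]
  refine ⟨fun g h => S.sep hs fun u j => ?_, ?_, fun l hl P hP g hg => ?_⟩
  · change _ = ac ρ u (_ + ac ρ g _) 0 j
    rw [ac_add, ← ac_mul, Matrix.add_apply, k, k, k, mul_assoc]
    ring
  · choose U hU using fun j => (c j).2.2.2.1
    have hV : IsOpen ((ρ.ker ⊓ ⨅ j, U j : Subgroup GQ) : Set GQ) := by
      rw [Subgroup.coe_inf, Subgroup.coe_iInf]
      exact hL.opn.inter (isOpen_iInter_of_finite fun p => (hU p).1)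
    refine ⟨(ρ.ker ⊓ ⨅ j, U j) ⊓ (ρ.ker ⊓ ⨅ j, U j).comap (MulAut.conj s).toMonoidHom,
      hV.inter (hV.preimage (f := fun u => s * u * s⁻¹) (by fun_prop)), fun u hu => ?_⟩
    exact z u hu.1.1 (fun j => (hU j).2 _ (Subgroup.mem_iInf.1 hu.1.2 j))
      fun j => (hU j).2 _ (Subgroup.mem_iInf.1 hu.2.2 j)
  · obtain ⟨P', hP', hi⟩ := inert_cj hP s
    exact z g (hL.unr l hl P hP g hg) (fun j => (c j).2.2.2.2 l hl P hP g hg)
      fun j => (c j).2.2.2.2 l hl P' hP' _ (hi g hg)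

variable [Finite F] [CharP F 2]

/-- **the dihedral case** -/
theorem dih (S : Sh ρ H) (hH : H ≠ ⊤) (hL : Lv ρ T D) (ht : ∃ g, (mr ρ g).trace ≠ 0) :
    Nat.card (FxR ρ T D) * Nat.card F ^ 3 ≤ Nat.card (H1R ρ T) := by
  have := fin_h1 hL
  obtain ⟨s, hs⟩ : ∃ s, s ∉ H := by
    by_contra h
    push Not at h
    exact hH (eq_top_iff.2 fun g _ => h g)
  let Φ : (∀ j, Zt (th ρ 0 j) T H) × (Fin 2 → F) → H1R ρ T := fun c =>
    ⟨_, S.ind_mem hL hs c.1 c.2⟩
  have hΦ : Function.Injective Φ := fun c c' h => by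
    have e : ∀ g j, ex H (th ρ 0 j) (c.1 j).1 s (c.2 j) g =
        ex H (th ρ 0 j) (c'.1 j).1 s (c'.2 j) g := fun g j => by
      have := congrArg (fun z : H1R ρ T => z.1 g 0 j) h
      fin_cases j <;> exact this
    refine Prod.ext (funext fun j => Subtype.ext (funext fun g => ?_)) (funext fun j => ?_)
    · by_cases hg : g ∈ H
      · have := e g j
        rwa [ex_mem hg, ex_mem hg] at this
      · rw [(c.1 j).2.2.1 g hg, (c'.1 j).2.2.1 g hg]
    · have := e s j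
      rwa [S.ex_s hs, S.ex_s hs] at this
  have hf : Finite ((∀ j, Zt (th ρ 0 j) T H) × (Fin 2 → F)) := Finite.of_injective Φ hΦ
  have hz : ∀ j, Finite (Zt (th ρ 0 j) T H) := fun j =>
    Finite.of_surjective (fun c : (∀ j, Zt (th ρ 0 j) T H) × (Fin 2 → F) => c.1 j)
      ((Function.surjective_eval j).comp Prod.fst_surjective)
  have hc := fun j : Fin 2 => S.chr hL 0 j
  have := fun j => (hc j).1
  have h1 := Nat.card_le_card_of_injective Φ hΦ
  have h2 := Nat.card_le_card_of_injective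
    (fun (a : FxR ρ T D) (j : Fin 2) => S.fx 0 j a) fun a b h =>
      Subtype.ext (funext fun l => S.sep hs fun g j =>
        congrArg (fun z : Ft (th ρ 0 j) T D H => z.1 l g) (congrFun h j))
  rw [Nat.card_prod, Nat.card_pi, Nat.card_pi] at h1
  rw [Nat.card_pi] at h2
  simp only [Fin.prod_univ_two] at h1 h2
  have a := (hc 0).2.1
  have b := (hc 1).2.2 (S.th_ne ht).1
  refine le_trans (Nat.mul_le_mul_right _ h2) (le_trans (le_of_eq (by ring))
    ((Nat.mul_le_mul_right (Nat.card F * Nat.card F) (Nat.mul_le_mul a b)).trans h1))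

/-- **BASE**, for a finite ring which is a field -/
theorem base {R : Type} [CommRing R] [Finite R] (hF : IsField R) (h2 : (2 : R) = 0)
    (ρ : GQ →* GL (Fin 2) R) (T : Finset ℕ) (D : ℕ → Set GQ) (H : Subgroup GQ) (hL : Lv ρ T D)
    (hd : ∀ g ∈ H, mr ρ g 0 1 = 0 ∧ mr ρ g 1 0 = 0)
    (ha : ∀ g ∉ H, mr ρ g 0 0 = 0 ∧ mr ρ g 1 1 = 0) (ht : ∃ g, (mr ρ g).trace ≠ 0) :
    (H = ⊤ → Nat.card (FxR ρ T D) * Nat.card R ^ 2 ≤ Nat.card (H1R ρ T)) ∧
    (H ≠ ⊤ → Nat.card (FxR ρ T D) * Nat.card R ^ 3 ≤ Nat.card (H1R ρ T)) := by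
  letI := hF.toField
  haveI : CharP R 2 := CharTwo.of_one_ne_zero_of_two_eq_zero one_ne_zero h2
  refine ⟨?_, fun h => dih ⟨hd, ha⟩ h hL ht⟩
  rintro rfl
  exact split ⟨hd, ha⟩ hL ht

theorem baseC : BASE := by
  intro F _ _ _ rb H T D h _
  have k : H ≠ ⊤ → Nat.card (FxR rb T D) * Nat.card F ^ 3 ≤ Nat.card (H1R rb T) :=
    fun hH => dih ⟨h.dg, h.ad⟩ hH h.lv h.reg
  refine ⟨?_, k⟩
  by_cases hH : H = ⊤
  · subst hH
    exact split ⟨h.dg, h.ad⟩ h.lv h.reg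
  · exact le_trans (Nat.mul_le_mul_left _ (Nat.pow_le_pow_right Nat.card_pos (by omega))) (k hH)

end P022G.Lb90.BaseH34
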