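import Vale.Agent.P022G.Lb90.Defs
import Vale.Agent.P022E.GW.Linv
import Vale.Agent.P022E.GW.Nil
import Vale.Agent.P022E.GW.Unr

/-!
# P022G, block Lb90: the local invariant
-/

set_option linter.all false

noncomputable section

namespace P022G.Lb90

open NumberField
open Vale.Agent.P022 Vale.Agent.P022.H916
open Vale.Agent.P022D.Sel (IsDec)
open Vale.Agent.P022D.W (dec isClosed_dec)
open Vale.Agent.P022E.GW

namespace Inv

/-- the decomposition groups are local groups -/
theorem lcl {l : ℕ} {P : Ideal (𝓞 Qb)} (h : Ov l P) : Gy.Lcl (dec P) := by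
  have : Gy.Lcl (⊤ ⊓ dec P : Subgroup GQ) := fun V hV =>
    ⟨(Nil.ni_sub h.1 h.2.1 h.2.2 ⊤ isOpen_univ V hV).1, Gy.three_of
      (lt_of_lt_of_le (by norm_num) (Nil.ni_sub h.1 h.2.1 h.2.2 ⊤ isOpen_univ V hV).2)⟩
  rwa [top_inf_eq] at this

theorem cpt (P : Ideal (𝓞 Qb)) : CompactSpace (dec P) :=
  haveI := isGalois_Qb
  isCompact_iff_compactSpace.1 (isClosed_dec P).isCompact

theorem of_dec {l : ℕ} (hl : l ≠ 0) {E : Subgroup GQ} (h : IsDec l (E : Set GQ)) :
    ∃ P, Ov l P ∧ E = dec P := by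
  obtain ⟨l0, -⟩ | ⟨lp, P, p0, p1, e⟩ := h
  · exact absurd l0 hl
  · exact ⟨P, ⟨lp, p0, p1⟩, SetLike.coe_injective e⟩

theorem is_dec {l : ℕ} {P : Ideal (𝓞 Qb)} (h : Ov l P) : IsDec l (dec P : Set GQ) :=
  Or.inr ⟨h.1, P, h.2.1, h.2.2, rfl⟩

/-- restriction -/
def rl (F : Type) [Field F] (E : Subgroup GQ) : (GQ → GQ → F) →ₗ[F] (E → E → F) where
  toFun := rs E
  map_add' _ _ := rfl
  map_smul' _ _ := rfl

end Inv

open Inv

/-- **row INV** -/
theorem invC : INV := by
  intro F _ _ _ l E hE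
  have two : (2 : F) = 0 := CharTwo.two_eq_zero
  by_cases hl : l = 0
  · obtain ⟨-, c, -, e⟩ | ⟨lp, -⟩ := hE
    swap
    · exact absurd (hl ▸ lp) Nat.not_prime_zero
    have m : ∀ x, x ∈ E ↔ x = 1 ∨ x = c := fun x => by
      rw [← SetLike.mem_coe, e]; rfl
    have mc : c ∈ E := (m c).2 (Or.inr rfl)
    have cc : c * c = 1 := by
      rcases (m _).1 (E.mul_mem mc mc) with k | k
      · exact k
      · rw [mul_eq_left.1 k, mul_one]
    refine ⟨{ toFun := fun z => z c c + z 1 1
              map_add' := fun a b => by simp only [Pi.add_apply]; ring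
              map_smul' := fun r a => by
                simp only [Pi.smul_apply, smul_eq_mul, RingHom.id_apply]; ring },
      fun z ⟨w, _, hw⟩ => ?_, fun z hz k => ⟨fun _ => z 1 1, IsLocallyConstant.const _,
        fun x y => ?_⟩⟩
    · have a1 := hw 1 1
      have a2 := hw ⟨c, mc⟩ ⟨c, mc⟩
      rw [show (⟨c, mc⟩ * ⟨c, mc⟩ : E) = 1 from Subtype.ext cc] at a2
      rw [mul_one] at a1
      change w 1 = w 1 + w 1 + z 1 1 at a1
      change w 1 = w _ + w _ + z c c at a2
      change z c c + z 1 1 = 0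
      linear_combination -a1 - a2 - w ⟨c, mc⟩ * two
    · change z c c + z 1 1 = 0 at k
      have a1 : rs E z 1 y = z 1 1 := Unr.z2_left hz y
      have a2 : rs E z x 1 = z 1 1 := Unr.z2_right hz x
      have a3 : rs E z x y = z 1 1 := by
        rcases (m _).1 x.2 with kx | kx
        · rw [show x = 1 from Subtype.ext kx, a1]
        · rcases (m _).1 y.2 with ky | ky
          · rw [show y = 1 from Subtype.ext ky, a2]
          · change z x y = _
            rw [kx, ky]
            linear_combination k - z 1 1 * two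
      rw [a3]
      linear_combination -z 1 1 * two
  · obtain ⟨P, hP, rfl⟩ := of_dec hl hE
    haveI := cpt P
    obtain ⟨inv, h1, h2, -⟩ := Gy.ex_inv F (lcl hP)
    exact ⟨inv.comp (rl F _), fun z hz => h1 _ hz, fun z hz k => h2 _ hz k⟩

end P022G.Lb90
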