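import Vale.Agent.P022G.Lb90.Defs
import Vale.Agent.P022E.GW.Linv
import Vale.Agent.P022E.GW.Nil
import Vale.Agent.P022E.GW.Syl
import Vale.Agent.P022E.GW.UnrC
import Vale.Agent.P022E.GW.LbH35a
import Vale.Agent.P022E.GW.LbH60b

/-!
# P022G, the row `LOC`
-/

set_option linter.all false

noncomputable section

namespace P022G.Lb90.H60

open NumberField
open Vale.Agent.P022 Vale.Agent.P022.H443
open Vale.Agent.P027M.S (Inert)
open Vale.Agent.P022D.Sel (M2 IsDec Ginf)
open Vale.Agent.P022D.L2c (Hm Cob IsZ2 cup up)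
open Vale.Agent.P022D.W (dec)
open Vale.Agent.P022E.GW
open Vale.Agent.P022E.GW.Gy
open P022G.Sel
open scoped Pointwise

variable {F : Type} [Field F]

section

variable {X : Type} [Group X] [TopologicalSpace X] [IsTopologicalGroup X] [CompactSpace X]
  [CharP F 2] [Finite F]

theorem auto (h : Lcl X) (φ ψ : X →* X) (hφ : Continuous φ) (hψ : Continuous ψ)
    (e : ∀ x, φ (ψ x) = x) {y : X → X → F} (hy : IsZ2 y) :
    (fun a b => y (φ a) (φ b)) - y ∈ Cob F X := by
  obtain ⟨inv, i0, i1, i2⟩ := ex_inv F h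
  obtain ⟨a, ha, a0, -⟩ := h.top.2 0 (zero_mem _)
  obtain ⟨b, hb, n⟩ := (h.top.1 a ha a0).1
  obtain ⟨c, m⟩ := line h ha hb n hy
  have s := Gy.z2_cup ha hb
  have n' : (fun g k => cup a b (φ g) (φ k)) ∉ Cob (ZMod 2) X := fun k => n (by
    have := cob_comp ψ hψ k
    simpa only [e] using this)
  have e1 := i2 _ s n
  have e2 := i2 _ (z2_comp φ hφ s) n'
  have e3 := i0 _ m
  have e4 := i0 _ (cob_comp φ hφ m)
  refine i1 _ (z2_sub (z2_comp φ hφ hy) hy) ?_
  have E : cup (ue F a) (ue F b) = fun g k => up F (cup a b g k) := by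
    funext g k
    simp only [cup, ue, map_mul]
  have E4 : (fun g k => (y - c • cup (ue F a) (ue F b)) (φ g) (φ k)) =
      (fun g k => y (φ g) (φ k)) - c • fun g k => up F (cup a b (φ g) (φ k)) := by
    rw [E]; rfl
  rw [E, map_sub, map_smul, e1] at e3
  rw [E4, map_sub, map_smul, e2] at e4
  rw [map_sub]
  linear_combination e4 - e3

theorem gys (h : Lcl X) {e : X → ZMod 2} (he : e ∈ Hm (ZMod 2) X) (e0 : e ≠ 0) {H : Subgroup X}
    (hH : ∀ g ∈ H, e g = 0) {β : X → X → F} {w : X → F}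
    (lb : IsLocallyConstant fun p : X × X => β p.1 p.2) (lw : IsLocallyConstant w)
    (k : ∀ g h k, β h k + β g (h * k) + ue F e g * (w (h * k) + w h + w k) =
      β (g * h) k + β g h) : (fun a b : H => β a b) ∈ Cob F H := by
  have two : (2 : F) = 0 := CharTwo.two_eq_zero
  have z : IsZ2 (β + cup (ue F e) w) :=
    ⟨lb.add (((ue_hm he).1.comp_continuous continuous_fst).mul
      (lw.comp_continuous continuous_snd)), fun g h l => by
      simp only [Pi.add_apply, cup, (ue_hm (F := F) he).2]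
      linear_combination k g h l - (ue F e g * (w h + w l)) * two⟩
  convert kill h he e0 hH z using 1
  funext a b
  show β a b = β a b + up F (e a) * w b
  rw [hH a a.2, map_zero, zero_mul, add_zero]

end

theorem lcl {l : ℕ} {P : Ideal (𝓞 Qb)} (hP : Ov l P) (U : Subgroup GQ)
    (hU : IsOpen (U : Set GQ)) : Lcl (U ⊓ dec P : Subgroup GQ) := fun V hV =>
  ⟨(Nil.ni_sub hP.1 hP.2.1 hP.2.2 U hU V hV).1, three_of (by
    have := (Nil.ni_sub hP.1 hP.2.1 hP.2.2 U hU V hV).2
    omega)⟩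

theorem cpt (P : Ideal (𝓞 Qb)) (U : Subgroup GQ) (hU : IsOpen (U : Set GQ)) :
    CompactSpace (U ⊓ dec P : Subgroup GQ) := by
  have := galQb
  exact isCompact_iff_compactSpace.1
    ((U.isClosed_of_isOpen hU).inter (Vale.Agent.P022D.W.isClosed_dec P)).isCompact

variable {rb : GQ →* GL (Fin 2) F} {H : Subgroup GQ} {T : Finset ℕ} {D : ℕ → Set GQ}
  {o : GQ → GQ → M2 F}

theorem mm (g h : GQ) : mr rb (g * h) = mr rb g * mr rb h := by
  simp only [mr, map_mul, Units.val_mul]

theorem iv (g : GQ) : mr rb g * mr rb g⁻¹ = 1 := by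
  rw [← mm, mul_inv_cancel]; simp [mr]

theorem k1 {g : GQ} (h : rb g = 1) : mr rb g = 1 := by simp [mr, h]

theorem k2 {g : GQ} (h : rb g = 1) (m : M2 F) : mr rb g * m * mr rb g⁻¹ = m := by
  rw [k1 h, k1 (g := g⁻¹) (by rw [map_inv, h, inv_one]), one_mul, mul_one]

theorem ocr (O : Oc rb T o) {σ : GQ} (a : ∀ g, o g σ = 0) (g h : GQ) : o g (h * σ) = o g h := by
  have := O.coc g h σ
  rwa [a, a, mul_zero, zero_mul, zero_add, zero_add] at this

theorem ocm (O : Oc rb T o) {σ : GQ} (a : ∀ g, o g σ = 0 ∧ o σ g = 0) (g h : GQ) :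
    o (g * σ) h = o g (σ * h) := by
  have := O.coc g σ h
  rw [(a _).1, (a _).2, mul_zero, zero_mul, zero_add, add_zero] at this
  exact this.symm

theorem olc (O : Oc rb T o) : IsLocallyConstant fun p : GQ × GQ => o p.1 p.2 := by
  obtain ⟨U, hU, nU, h⟩ := O.opn
  refine (IsLocallyConstant.iff_eventually_eq _).2 fun p => ?_
  have o1 : IsOpen ((fun q : GQ × GQ => p.1⁻¹ * q.1) ⁻¹' (U : Set GQ)) :=
    hU.preimage (by fun_prop)
  have o2 : IsOpen ((fun q : GQ × GQ => p.2⁻¹ * q.2) ⁻¹' (U : Set GQ)) :=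
    hU.preimage (by fun_prop)
  filter_upwards [o1.mem_nhds (show p ∈ _ by simp [U.one_mem]),
    o2.mem_nhds (show p ∈ _ by simp [U.one_mem])] with q a b
  have c : p.2⁻¹ * (p.1⁻¹ * q.1) * p.2⁻¹⁻¹ ∈ U := nU.conj_mem _ a _
  have e1 := ocr O (fun g => ((h _ b).2 g).1) q.1 p.2
  have e2 := ocm O (h _ a).2 p.1 p.2
  have e3 := ocr O (fun g => ((h _ c).2 g).1) p.1 p.2
  rw [mul_inv_cancel_left] at e1 e2
  rw [e1, e2, ← e3]
  congr 1
  group

theorem olc' (O : Oc rb T o) {Y : Type} [TopologicalSpace Y] {a b : Y → GQ} (ha : Continuous a)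
    (hb : Continuous b) (f : M2 F → F) : IsLocallyConstant fun y => f (o (a y) (b y)) :=
  ((olc O).comp f).comp_continuous (f := fun y => (a y, b y)) (ha.prodMk hb)

theorem oz2 (O : Oc rb T o) {K : Subgroup GQ} (hK : K ≤ rb.ker) (i j : Fin 2) :
    Z2 K fun g h => o g h i j :=
  ⟨olc' O (a := fun p : K × K => p.1) (b := fun p : K × K => p.2) (by fun_prop) (by fun_prop)
    fun m => m i j, fun g h k => by
    have := O.coc g h k
    rw [k2 (hK g.2)] at this
    exact congrFun (congrFun this i) j⟩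

theorem cjo [CharP F 2] (O : Oc rb T o) {K : Subgroup GQ} (hK : K ≤ rb.ker) (g : GQ)
    (i j : Fin 2) : Cb K ((fun a b => o (g * a * g⁻¹) (g * b * g⁻¹) i j) -
      fun a b => (mr rb g * o a b * mr rb g⁻¹) i j) := by
  have two : (2 : F) = 0 := CharTwo.two_eq_zero
  refine ⟨fun a => o g a i j + o (g * a * g⁻¹) g i j,
    (olc' O (a := fun _ : K => g) (b := fun a : K => a) (by fun_prop) (by fun_prop)
      fun m => m i j).add
    (olc' O (a := fun a : K => g * a * g⁻¹) (b := fun _ : K => g) (by fun_prop) (by fun_prop)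
      fun m => m i j), fun a b => ?_⟩
  have ka : rb (g * a * g⁻¹) = 1 := rb.normal_ker.conj_mem _ (hK a.2) g
  have e1 := congrFun (congrFun (O.coc g a b) i) j
  have e2 := O.coc (g * a * g⁻¹) g b
  have e3 := O.coc (g * a * g⁻¹) (g * b * g⁻¹) g
  rw [k2 ka, inv_mul_cancel_right] at e2 e3
  rw [show g * a * g⁻¹ * (g * b * g⁻¹) = g * (a * b : K) * g⁻¹ by push_cast; group] at e3
  have e2 := congrFun (congrFun e2 i) j
  have e3 := congrFun (congrFun e3 i) j
  simp only [Matrix.add_apply] at e1 e2 e3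
  show o g (a * b : K) i j + o (g * (a * b : K) * g⁻¹) g i j = _ + _ +
    (o (g * a * g⁻¹) (g * b * g⁻¹) i j - (mr rb g * o a b * mr rb g⁻¹) i j)
  push_cast at e3 ⊢
  linear_combination e1 - e3 - e2 + (o (g * a * g⁻¹) (g * b) i j - o (g * a * g⁻¹) g i j
    - o (g * a * g⁻¹) (g * b * g⁻¹) i j) * two

theorem cbm {K : Subgroup GQ} (h : ∀ i j, Cb K fun g k => o g k i j) (A B : M2 F) (i j : Fin 2) :
    Cb K fun a b => (A * o a b * B) i j := by
  have e : (fun a b => (A * o a b * B) i j) =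
      ∑ l, ∑ k, (A i k * B l j) • fun a b => o a b k l := by
    funext a b
    simp only [Matrix.mul_apply, Fin.sum_univ_two, Pi.add_apply, Pi.smul_apply, smul_eq_mul]
    ring
  rw [e]
  exact Syl.mem_CS.1 ((Syl.CS F K).sum_mem fun l _ => (Syl.CS F K).sum_mem fun k _ =>
    (Syl.CS F K).smul_mem _ (Syl.mem_CS.2 (h k l)))

theorem trans [CharP F 2] (O : Oc rb T o) {E E' : Subgroup GQ} {g : GQ}
    (hE : ∀ x ∈ E', g⁻¹ * x * g ∈ E) (h : ∀ i j, Cb (rb.ker ⊓ E) fun g k => o g k i j)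
    (i j : Fin 2) : Cb (rb.ker ⊓ E') fun g k => o g k i j := by
  have h1 := H60.cb_add (cjo O (K := rb.ker ⊓ E) inf_le_left g i j)
    (cbm h (mr rb g) (mr rb g⁻¹) i j)
  rw [sub_add_cancel] at h1
  have h2 := Syl.cb_cc g⁻¹ (V := rb.ker ⊓ E') (V' := rb.ker ⊓ E) (fun x hx => ⟨rb.normal_ker.conj_mem _ hx.1 _, by
    rw [inv_inv]; exact hE x hx.2⟩) h1
  refine H60.cb_le le_rfl h2 fun a _ b _ => ?_
  show _ = o (g * (g⁻¹ * a * g⁻¹⁻¹) * g⁻¹) (g * (g⁻¹ * b * g⁻¹⁻¹) * g⁻¹) i j
  congr 1 <;> group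

theorem cbl {K K' : Subgroup GQ} (le : K ≤ K') {z : GQ → GQ → F} (h : Cb K' z) : Cb K z :=
  H60.cb_le le h fun _ _ _ _ => rfl

theorem cbd {K : Subgroup GQ} {z w : GQ → GQ → F} (hz : Cb K z) (hw : Cb K w) :
    Cb K (z - w) := sub_mem hz hw

theorem cbs {K : Subgroup GQ} {z : GQ → GQ → F} {c : F} (hc : c ≠ 0)
    (h : Cb K fun a b => c * z a b) : Cb K z := by
  have := Syl.mem_CS.1 ((Syl.CS F K).smul_mem c⁻¹ (Syl.mem_CS.2 h))
  refine H60.cb_le le_rfl this fun a _ b _ => ?_
  show _ = c⁻¹ * (c * z a b)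
  rw [inv_mul_cancel_left₀ hc]

theorem nH (R : Res rb H T D) {g : GQ} (h : g ∉ H) : mr rb g 0 1 * mr rb g 1 0 ≠ 0 := by
  have := R.det g
  rw [Matrix.det_fin_two, (R.ad g h).1, zero_mul, zero_sub] at this
  intro k
  rw [k, neg_zero] at this
  exact zero_ne_one this

theorem mul_H (R : Res rb H T D) {g h : GQ} (a : g ∉ H) (b : h ∉ H) : g * h ∈ H := by
  by_contra n
  have := (R.ad _ n).1
  rw [mm, Matrix.mul_apply, Fin.sum_univ_two, (R.ad g a).1, zero_mul, zero_add] at this
  rcases mul_eq_zero.1 this with k | k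
  · exact nH R a (by rw [k, zero_mul])
  · exact nH R b (by rw [k, mul_zero])

theorem ker_H (R : Res rb H T D) : rb.ker ≤ H := fun g hg => by
  by_contra n
  have := (R.ad g n).1
  rw [k1 hg] at this
  simp at this

theorem cjH (R : Res rb H T D) {g : GQ} (h : g ∈ H) (m : M2 F) (i j : Fin 2) :
    (mr rb g * m * mr rb g⁻¹) i j = mr rb g i i * mr rb g⁻¹ j j * m i j := by
  obtain ⟨a, b⟩ := R.dg g h
  obtain ⟨c, d⟩ := R.dg _ (H.inv_mem h)
  fin_cases i <;> fin_cases j <;>
    simp only [Matrix.mul_apply, Fin.sum_univ_two, Fin.zero_eta, Fin.mk_one, Fin.isValue,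
      a, b, c, d] <;> ring

theorem ivH (R : Res rb H T D) {g : GQ} (h : g ∈ H) (i : Fin 2) :
    mr rb g i i * mr rb g⁻¹ i i = 1 := by
  have := cjH R h 1 i i
  rw [mul_one, iv] at this
  simpa using this.symm

theorem cjN (R : Res rb H T D) {g : GQ} (h : g ∉ H) (m : M2 F) :
    (mr rb g * m * mr rb g⁻¹) 1 1 = m 0 0 := by
  obtain ⟨a, b⟩ := R.ad g h
  obtain ⟨c, d⟩ := R.ad g⁻¹ (fun k => h (H.inv_mem_iff.1 k))
  have e := congrFun (congrFun (iv (rb := rb) g) 1) 1
  simp only [Matrix.mul_apply, Fin.sum_univ_two, a, b, c, d, Matrix.one_apply_eq] at e ⊢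
  linear_combination m 0 0 * e

open Classical in
/-- the character with kernel `H` -/
def eH (H : Subgroup GQ) (g : GQ) : ZMod 2 := if g ∈ H then 0 else 1

theorem eH0 {g : GQ} (h : g ∈ H) : eH H g = 0 := by unfold eH; rw [if_pos h]

theorem eH1 {g : GQ} (h : g ∉ H) : eH H g = 1 := by unfold eH; rw [if_neg h]

theorem eH_ch (R : Res rb H T D) (K : Subgroup GQ) : Ch K (eH H) :=
  H60.ch_of (fun g _ k _ => by
    by_cases a : g ∈ H <;> by_cases b : k ∈ H
    · rw [eH0 a, eH0 b, eH0 (H.mul_mem a b), add_zero]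
    · rw [eH0 a, eH1 b, eH1 fun c => b ((H.mul_mem_cancel_left a).1 c), zero_add]
    · rw [eH1 a, eH0 b, eH1 fun c => a ((H.mul_mem_cancel_right b).1 c), add_zero]
    · rw [eH1 a, eH1 b, eH0 (mul_H R a b)]; rfl)
    ⟨rb.ker, R.lv.opn, fun σ h => eH0 (ker_H R h)⟩

theorem gx [CharP F 2] [Finite F] (R : Res rb H T D) (O : Oc rb T o) {l : ℕ}
    {P : Ideal (𝓞 Qb)} (hP : Ov l P) {σ : GQ} (s1 : σ ∈ dec P) (s2 : σ ∉ H) {x : M2 F}
    (hx : ∀ g ∈ dec P, mr rb g * x * mr rb g⁻¹ = x)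
    (h : Cb (dec P) fun g k => (x * o g k).trace) (i : Fin 2) :
    Cb (rb.ker ⊓ dec P) fun g k => (x * o g k) i i := by
  have two : (2 : F) = 0 := CharTwo.two_eq_zero
  have L : Lcl (dec P) := by
    have := lcl hP ⊤ isOpen_univ
    rwa [top_inf_eq] at this
  haveI : CompactSpace (dec P) := by
    have := cpt P ⊤ isOpen_univ
    rwa [top_inf_eq] at this
  have h' := h
  obtain ⟨w, lw, hw⟩ := h
  have co : ∀ g ∈ dec P, ∀ h k, mr rb g * (x * o h k) * mr rb g⁻¹ + x * o g (h * k) =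
      x * o (g * h) k + x * o g h := fun g hg h k => by
    have c : mr rb g * x = x * mr rb g := by
      have := congrArg (· * mr rb g) (hx g hg)
      simp only [mul_assoc] at this
      rwa [← mm, inv_mul_cancel, k1 (map_one rb), mul_one] at this
    rw [← mul_add, ← O.coc, mul_add, ← mul_assoc, c]
    simp only [mul_assoc]
  have k := gys L (F := F) (e := fun g : dec P => eH H g) (eH_ch R _)
    (fun e => by have := congrFun e ⟨σ, s1⟩; rw [eH1 s2] at this; exact one_ne_zero this)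
    (H := (rb.ker ⊓ dec P).subgroupOf (dec P)) (fun g hg => eH0 (ker_H R hg.1))
    (β := fun g k => (x * o g k) 1 1) (w := w)
    (olc' O (a := fun p : dec P × dec P => p.1) (b := fun p : dec P × dec P => p.2) (by fun_prop)
      (by fun_prop) fun m => (x * m) 1 1) lw fun g h k => by
      have e := congrFun (congrFun (co g g.2 h k) 1) 1
      have f : w (h * k) = w h + w k + (x * o h k).trace := hw h k
      rw [Matrix.trace_fin_two] at f
      simp only [Matrix.add_apply] at e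
      push_cast
      by_cases a : (g : GQ) ∈ H
      · rw [cjH R a, ivH R a, one_mul] at e
        rw [show ue F (fun g : dec P => eH H g) g = up F (eH H g) from rfl, eH0 a, map_zero]
        linear_combination e
      · rw [cjN R a] at e
        rw [show ue F (fun g : dec P => eH H g) g = up F (eH H g) from rfl, eH1 a, map_one]
        linear_combination e + f + (w h + w k + (x * o h k) 1 1) * two
  let φ : (rb.ker ⊓ dec P : Subgroup GQ) →* (rb.ker ⊓ dec P).subgroupOf (dec P) :=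
    { toFun := fun a => ⟨⟨a.1, a.2.2⟩, a.2⟩, map_one' := rfl, map_mul' := fun _ _ => rfl }
  have k1 : Cb (rb.ker ⊓ dec P) fun g k => (x * o g k) 1 1 :=
    cob_comp φ ((continuous_subtype_val.subtype_mk _).subtype_mk _) k
  fin_cases i
  · refine H60.cb_le le_rfl (H60.cb_add k1 (cbl inf_le_right h')) fun a _ b _ => ?_
    simp only [Pi.add_apply, Matrix.trace_fin_two, Fin.zero_eta, Fin.isValue]
    linear_combination (-(x * o a b) 1 1) * two
  · exact k1

theorem tw [CharP F 2] [Finite F] (R : Res rb H T D) (O : Oc rb T o) {l : ℕ}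
    {P : Ideal (𝓞 Qb)} (hP : Ov l P) {t : GQ} (s1 : t ∈ dec P) (s2 : t ∈ H) {i j : Fin 2}
    (ht : mr rb t i i ≠ mr rb t j j) : Cb (rb.ker ⊓ dec P) fun g k => o g k i j := by
  haveI := cpt P rb.ker R.lv.opn
  have m : ∀ t ∈ dec P, ∀ x ∈ rb.ker ⊓ dec P, t * x * t⁻¹ ∈ rb.ker ⊓ dec P := fun t ht x hx =>
    ⟨rb.normal_ker.conj_mem _ hx.1 _,
      (dec P).mul_mem ((dec P).mul_mem ht hx.2) ((dec P).inv_mem ht)⟩
  have a : Cb (rb.ker ⊓ dec P) ((fun a b => o (t * a * t⁻¹) (t * b * t⁻¹) i j) -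
      fun a b => o a b i j) :=
    auto (lcl hP rb.ker R.lv.opn) (Syl.cm t (m t s1)) (Syl.cm t⁻¹ (m _ ((dec P).inv_mem s1)))
      (Syl.cm_cont _ _) (Syl.cm_cont _ _) (fun x => Subtype.ext (by
        show t * (t⁻¹ * x * t⁻¹⁻¹) * t⁻¹ = x
        group)) (oz2 O inf_le_left i j)
  refine cbs (c := mr rb t i i * mr rb t⁻¹ j j - 1) (fun k => ht ?_)
    (H60.cb_le le_rfl (cbd a (cjo O inf_le_left t i j)) fun a _ b _ => ?_)
  · linear_combination (mr rb t j j) * k - (mr rb t i i) * ivH R s2 j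
  · simp only [Pi.sub_apply, cjH R s2]
    ring

theorem trs (m : M2 F) (i j : Fin 2) : (Matrix.single j i 1 * m).trace = m i j := by
  fin_cases i <;> fin_cases j <;>
    simp [Matrix.trace_fin_two, Matrix.mul_apply, Fin.sum_univ_two, Matrix.single]

theorem one_of [CharP F 2] (R : Res rb H T D) {t : GQ} (h : t ∈ H)
    (e : mr rb t 0 0 = mr rb t 1 1) : rb t = 1 := by
  have two : (2 : F) = 0 := CharTwo.two_eq_zero
  obtain ⟨a, b⟩ := R.dg t h
  have d := R.det t
  rw [Matrix.det_fin_two, a, ← e] at d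
  have u : mr rb t 0 0 = 1 := by
    have : (mr rb t 0 0 - 1) ^ 2 = 0 := by linear_combination d + (1 - mr rb t 0 0) * two
    exact sub_eq_zero.1 (pow_eq_zero_iff two_ne_zero |>.1 this)
  refine Units.ext (Matrix.ext fun i j => ?_)
  fin_cases i <;> fin_cases j
  · exact u
  · exact a
  · exact b
  · exact e.symm.trans u

theorem fin [CharP F 2] [Finite F] (R : Res rb H T D) (O : Oc rb T o) {l : ℕ}
    {P : Ideal (𝓞 Qb)} (hP : Ov l P) (A : ∀ x : M2 F,
      (∀ g ∈ dec P, mr rb g * x * mr rb g⁻¹ = x) → Cb (dec P) fun g h => (x * o g h).trace)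
    (i j : Fin 2) : Cb (rb.ker ⊓ dec P) fun g k => o g k i j := by
  by_cases ht : ∃ t ∈ dec P, t ∈ H ∧ mr rb t i i ≠ mr rb t j j
  · obtain ⟨t, a, b, c⟩ := ht
    exact tw R O hP a b c
  push Not at ht
  by_cases hs : ∀ g ∈ dec P, g ∈ H
  · have := A (Matrix.single j i 1) fun g hg => Matrix.ext fun a b => by
      rw [cjH R (hs g hg)]
      by_cases k : j = a ∧ i = b
      · obtain ⟨rfl, rfl⟩ := k
        rw [← ht g hg (hs g hg), ivH R (hs g hg), one_mul]
      · rw [Matrix.single_apply_of_ne _ _ _ _ _ k, mul_zero]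
    simp only [trs] at this
    exact cbl inf_le_right this
  push Not at hs
  obtain ⟨σ, s1, s2⟩ := hs
  by_cases ij : i = j
  · subst ij
    have x1 : ∀ g ∈ dec P, mr rb g * 1 * mr rb g⁻¹ = 1 := fun g _ => by rw [mul_one, iv]
    have := gx R O hP s1 s2 x1 (A 1 x1) i
    simpa only [one_mul] using this
  have v : ∀ t ∈ dec P, t ∈ H → rb t = 1 := fun t a b => one_of R b (by
    have := ht t a b
    fin_cases i <;> fin_cases j
    · exact absurd rfl ij
    · exact this
    · exact this.symm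
    · exact absurd rfl ij)
  have x1 : ∀ g ∈ dec P, mr rb g * mr rb σ * mr rb g⁻¹ = mr rb σ := fun g hg => by
    by_cases k : g ∈ H
    · exact k2 (v g hg k) _
    · have e := v (g * σ⁻¹) ((dec P).mul_mem hg ((dec P).inv_mem s1))
        (mul_H R k fun c => s2 (H.inv_mem_iff.1 c))
      rw [map_mul, map_inv, mul_inv_eq_one] at e
      have e1 : mr rb g = mr rb σ := congrArg Units.val e
      rw [← e1, mul_assoc, iv, mul_one]
  have g := gx R O hP s1 s2 x1 (A _ x1) j
  obtain ⟨a, b⟩ := R.ad σ s2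
  have n := nH R s2
  fin_cases i <;> fin_cases j
  · exact absurd rfl ij
  · refine cbs (right_ne_zero_of_mul n) ?_
    simpa only [Matrix.mul_apply, Fin.sum_univ_two, Fin.zero_eta, Fin.mk_one, Fin.isValue, b,
      zero_mul, add_zero] using g
  · refine cbs (left_ne_zero_of_mul n) ?_
    simpa only [Matrix.mul_apply, Fin.sum_univ_two, Fin.zero_eta, Fin.mk_one, Fin.isValue, a,
      zero_mul, zero_add] using g
  · exact absurd rfl ij

theorem locC : LOC := by
  intro F _ _ _ rb H T D o R O A i j l E hE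
  by_cases hl : l ∈ T
  · obtain ⟨g, rfl⟩ := H35.ex_Dg (R.lv.dec l hl) hE
    refine trans O (E := Subgroup.closure (D l)) (g := g) (fun x hx => hx) (fun i j => ?_) i j
    rcases R.lv.dec l hl with ⟨-, c, hc, e⟩ | ⟨hp, P, hP, hlP, e⟩
    · have cl : ∀ x, x ∈ Subgroup.closure (D l) ↔ x = 1 ∨ x = c := by
        rw [e]; exact H35.cl_two hc
      by_cases k : rb c = 1
      · have := A l hl (Subgroup.closure (D l)) (Set.ext fun x => by
          rw [SetLike.mem_coe, cl, e]; rfl) (Matrix.single j i 1) fun g hg => k2 (by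
            rw [e] at hg
            rcases hg with rfl | rfl
            · exact map_one rb
            · exact k) _
        simp only [trs] at this
        exact cbl inf_le_right this
      · obtain ⟨U, -, -, hU⟩ := O.opn
        refine H60.cb_zero fun a ha b _ => ?_
        rcases (cl a).1 ha.2 with rfl | rfl
        · rw [((hU 1 U.one_mem).2 b).2]; rfl
        · exact absurd ha.1 k
    · have e' : Subgroup.closure (D l) = dec P := by rw [e]; exact H35.cl_dec P
      rw [e']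
      exact fin R O ⟨hp, hP, hlP⟩ (fun x hx => A l hl (dec P) e.symm x fun g hg =>
        hx g (by rw [e] at hg; exact hg)) i j
  · obtain ⟨P, hP, e⟩ := H35.dec_of (fun k : l = 0 => hl (by rw [k]; exact R.lv.h0)) hE
    obtain rfl : E = dec P := SetLike.coe_injective e
    refine unrC F rb.ker l P _ R.lv.opn hP (oz2 O inf_le_left i j) fun g _ h hh s _ hs => ?_
    have u := O.unr l hl P hP s hs
    have s' : Inert P (h⁻¹ * s * h) := by
      have := H35.inert_conj hs h
      intro x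
      have y := this x
      rw [Vale.Agent.P022D.Sel.Pl.mem_smul, inv_inv] at y
      exact (hh.2 _).1 y
    constructor
    · show o (g * s) h i j = o g h i j
      rw [ocm O u, show s * h = h * (h⁻¹ * s * h) by group,
        ocr O fun g => (O.unr l hl P hP _ s' g).1]
    · show o g (h * s) i j = o g h i j
      rw [ocr O fun g => (u g).1]

end P022G.Lb90.H60
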