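import Vale.Agent.P022G.Lb90.Loc
import Vale.Agent.P022E.GW.LbOneH28
import Vale.Agent.P022E.GW.OneC
import Vale.Agent.P022E.GW.TauG
import Vale.Agent.P027M.S.Loc

/-!
# P022G, the lower bound at a curve: row ONE0
-/

set_option linter.all false

noncomputable section

namespace P022G.Lb90.One0H34

open NumberField
open Vale.Agent.P022 Vale.Agent.P022.H443
open Vale.Agent.P027M.S (Inert)
open Vale.Agent.P022D.Sel (M2 IsDec)
open Vale.Agent.P022D.L2c (Hm Cob IsZ2 cup up)
open Vale.Agent.P022D.W (dec phi_mem inP_le_dec)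
open Vale.Agent.P022E.GW
open scoped Pointwise

theorem z2_cup {H : Subgroup GQ} {K : Type} [Field K] {a b : GQ → K} (ha : Ch H a) (hb : Ch H b) :
    Z2 H (cup a b) :=
  ⟨(ha.1.comp_continuous continuous_fst).mul (hb.1.comp_continuous continuous_snd),
    fun g h k => by
      have e1 : b (h * k : H) = b h + b k := hb.2 h k
      have e2 : a (g * h : H) = a g + a h := ha.2 g h
      simp only [rs, cup]
      rw [e1, e2]; ring⟩

theorem one0C : ONE0 := by
  classical
  intro F _ _ _ z l hl l2 hz hall E hE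
  obtain ⟨P, hP, rfl⟩ : ∃ P, Ov l P ∧ E = dec P := by
    rcases hE with ⟨h0, -⟩ | ⟨-, P, h1, h2, h3⟩
    · exact absurd h0 hl.ne_zero
    · exact ⟨P, ⟨hl, h1, h2⟩, SetLike.coe_injective h3⟩
  obtain ⟨φ, hφ⟩ : ∃ φ, Fb l P φ := Vale.Agent.P027M.S.Loc.frob hP.2.1 hl hP.2.2
  obtain ⟨u, U, hU, u0, ua, ui, u1⟩ := RecP.ex_u (F := ZMod 2) hP l2 hφ
  have hL : Gy.Lcl (dec P) := by
    have := H89.lcl hP (U := ⊤) isOpen_univ
    rwa [top_inf_eq] at this
  haveI : CompactSpace (dec P) := by
    have := H89.cpt P (U := ⊤) isOpen_univ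
    rwa [top_inf_eq] at this
  have ul : IsLocallyConstant u := RecP.lc U hU fun g σ hσ => by rw [ua, u0 σ hσ, add_zero]
  have ha : Ch (dec P) u := RecP.ch_of _ ul fun g _ k _ => ua g k
  have a0 : (fun g : dec P => u g) ≠ 0 := fun e =>
    one_ne_zero (u1.symm.trans (congrFun e ⟨φ, phi_mem hl hP.2.1 hφ⟩))
  obtain ⟨b, hb, n⟩ := (hL.top.1 _ ha a0).1
  obtain ⟨c, hc⟩ := Gy.line hL ha hb n (H28.z2_le le_top hz : Z2 (dec P) z)
  obtain ⟨b', rfl⟩ : ∃ b' : GQ → ZMod 2, b = fun g : dec P => b' g :=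
    ⟨fun g => if h : g ∈ dec P then b ⟨g, h⟩ else 0, funext fun g => by simp only [dif_pos g.2]⟩
  by_contra hn
  have c0 : c ≠ 0 := fun e => hn (by rwa [e, zero_smul, sub_zero] at hc)
  have ba : ∀ g ∈ dec P, ∀ k ∈ dec P, b' (g * k) = b' g + b' k :=
    fun g hg k hk => hb.2 ⟨g, hg⟩ ⟨k, hk⟩
  have bi : ∀ i, Inert P i → b' i = 0 := fun i hi =>
    H28.gn_zero hP (fun g k hg hk => ba g (inP_le_dec hg) k (inP_le_dec hk)) (fun τ hτ => by
      have k := oneC F ⊤ z Unit (fun _ => l) (fun _ => P) (fun _ => τ) (fun _ => φ)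
        (fun _ g => up F (u g)) (fun _ g => c * up F (b' g)) isOpen_univ hz
        (fun _ => ⟨hP, l2, hτ, hφ, le_top⟩) (fun _ _ _ _ _ => rfl)
        (fun _ => ⟨Gy.ue_hm ha, (Hm F (dec P)).smul_mem c (Gy.ue_hm hb),
          fun g hg => by rw [ui g hg, map_zero], by rw [u1, map_one], by
            unfold Cb
            convert hc using 1
            funext g k
            simp only [rs, cup, Gy.ue, Pi.sub_apply, Pi.smul_apply, smul_eq_mul]
            ring⟩)
        (fun D hD => by rw [top_inf_eq]; exact hall 0 hl.ne_zero.symm D hD)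
        (fun p P' hp hn' => by
          rw [top_inf_eq]
          refine hall p ?_ _ (Ob.isDec_dec hp)
          rintro rfl
          obtain ⟨t, rfl⟩ := Tg.trans hP hp
          exact hn' () t trivial fun x => Ideal.smul_mem_pointwise_smul_iff.symm)
      simp only [Finset.univ_unique, Finset.sum_singleton] at k
      exact (up F).injective (((mul_eq_zero.1 k).resolve_left c0).trans (map_zero _).symm)) hi
  have k := unrC (ZMod 2) ⊤ l P (cup u b') isOpen_univ hP
    (by rw [top_inf_eq]; exact z2_cup ha hb) fun g _ h hh i _ hi => by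
      simp only [cup, ua, ui i hi, ba h hh.2 i (inP_le_dec hi), bi i hi, add_zero, and_self]
  rw [top_inf_eq] at k
  exact n k

end P022G.Lb90.One0H34
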