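import Vale.Agent.P022G.Lb90.Loc
import Vale.Agent.P022E.GW.LbOne89
import Vale.Agent.P022E.GW.OneC
import Vale.Agent.P022E.GW.Odg

/-!
# P022G, the lower bound at a curve: rows INV, ONE0, GAIN
-/

set_option linter.all false

noncomputable section

namespace P022G.Lb90.H89

open NumberField
open Vale.Agent.P022 Vale.Agent.P022.H443
open Vale.Agent.P027M.S (Inert)
open Vale.Agent.P022D.Sel (M2 IsDec)
open Vale.Agent.P022D.L2c (Hm Cob IsZ2 cup up)
open Vale.Agent.P022D.W (dec)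
open Vale.Agent.P022E.GW
open P022G.Sel P022G.Sel.Bas
open scoped Pointwise

theorem top_le (E : Subgroup GQ) : E ≤ ⊤ ⊓ E := le_inf le_top le_rfl

theorem z2_le {F : Type} [Field F] {D H : Subgroup GQ} (h : D ≤ H) {z : GQ → GQ → F}
    (hz : Z2 H z) : Z2 D z := Gy.z2_comp (Subgroup.inclusion h) (Gy.inc_cont h) hz

/-- **row INV** -/
theorem invC : INV := by
  intro F _ _ _ l E hE
  have two : (2 : F) = 0 := CharTwo.two_eq_zero
  obtain ⟨-, c, hc, e⟩ | ⟨hl, P, p1, p2, e⟩ := hE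
  · have cE : c ∈ E := by rw [← SetLike.mem_coe, e]; exact Or.inr rfl
    refine ⟨⟨⟨fun z => z c c + z 1 1, fun a b => by simp only [Pi.add_apply]; ring⟩,
      fun r a => by simp only [Pi.smul_apply, smul_eq_mul, RingHom.id_apply]; ring⟩, ?_, ?_⟩
    · rintro z ⟨w, -, hw⟩
      have a := hw 1 1
      have b := hw ⟨c, cE⟩ ⟨c, cE⟩
      rw [show (⟨c, cE⟩ * ⟨c, cE⟩ : E) = 1 from Subtype.ext (Ob.conj_sq hc)] at b
      rw [mul_one] at a
      change w 1 = w 1 + w 1 + z 1 1 at a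
      change w 1 = w ⟨c, cE⟩ + w ⟨c, cE⟩ + z c c at b
      show z c c + z 1 1 = 0
      linear_combination -a - b - w ⟨c, cE⟩ * two
    · intro z hz h0
      change z c c + z 1 1 = 0 at h0
      refine cb_cg (z := fun _ _ => z 1 1) (Gy.cob_const _) fun g hg k hk => ?_
      have a : g ∈ ({1, c} : Set GQ) := e ▸ hg
      have b : k ∈ ({1, c} : Set GQ) := e ▸ hk
      rcases a with a | a
      · rw [a]; exact Unr.z2_left hz ⟨k, hk⟩
      · rcases b with b | b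
        · rw [b]; exact Unr.z2_right hz ⟨g, hg⟩
        · rw [show g = c from a, show k = c from b]
          linear_combination h0 - z 1 1 * two
  obtain rfl : E = dec P := SetLike.coe_injective e
  haveI := cpt P (U := ⊤) isOpen_univ
  obtain ⟨inv, i1, i2, -⟩ := Gy.ex_inv F (lcl ⟨hl, p1, p2⟩ (U := ⊤) isOpen_univ)
  let r : (GQ → GQ → F) →ₗ[F] ((⊤ ⊓ dec P : Subgroup GQ) → (⊤ ⊓ dec P : Subgroup GQ) → F) :=
    { toFun := rs (⊤ ⊓ dec P), map_add' := fun _ _ => rfl, map_smul' := fun _ _ => rfl }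
  refine ⟨inv.comp r,
    fun z hz => i1 _ (cb_le inf_le_right hz), fun z hz h0 => cb_le (top_le _) ?_⟩
  exact i2 _ (z2_le inf_le_right hz) h0

/-- **row ONE0** -/
theorem one0C : ONE0 := by
  intro F _ _ _ z l hl h2 hz h E hE
  obtain ⟨h0, -⟩ | ⟨-, P, p1, p2, e⟩ := hE
  · exact absurd (h0 ▸ hl) Nat.not_prime_zero
  obtain rfl : E = dec P := SetLike.coe_injective e
  have hP : Ov l P := ⟨hl, p1, p2⟩
  haveI := cpt P (U := ⊤) isOpen_univ
  have L := lcl hP (U := ⊤) isOpen_univ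
  obtain ⟨φ, hφ⟩ := Vale.Agent.P022D.W.exists_phi hl p1 p2
  have φd := Vale.Agent.P022D.W.phi_mem hl p1 hφ
  obtain ⟨τ, hτ⟩ := Ob.ex_gn hP
  obtain ⟨δ, V, hV, d1, d2, d3, d4⟩ := Unr.deg hl p1 p2 hφ (N := 2) two_ne_zero
  have ha : (fun x : (⊤ ⊓ dec P : Subgroup GQ) => δ x) ∈ Hm (ZMod 2) (⊤ ⊓ dec P : Subgroup GQ) :=
    ⟨Unr.lc_of _ V hV _ (fun g k => d1 _ g.2.2 _ k.2.2) fun v hv => d4 _ hv v.2.2,
      fun g k => d1 _ g.2.2 _ k.2.2⟩
  obtain ⟨b, hb, n⟩ := (L.top.1 _ ha fun m => by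
    have := congrFun m ⟨φ, trivial, φd⟩
    simp only [d2] at this
    exact one_ne_zero this).1
  obtain ⟨c, k⟩ := Gy.line L ha hb n (z2_le inf_le_left hz)
  have bc : Ch (⊤ ⊓ dec P) (Gy.ex0 _ b) := by
    unfold Ch
    rw [Gy.ex0_rs]
    exact hb
  have k' : Cb (⊤ ⊓ dec P) (z - cup (fun g => up F (δ g)) fun g => c * up F (Gy.ex0 _ b g)) := by
    unfold Cb
    convert k using 1
    funext x y
    simp only [rs, Pi.sub_apply, Pi.smul_apply, cup, Gy.ue, Gy.ex0_val, smul_eq_mul]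
    ring
  have o := oneC F ⊤ z Unit (fun _ => l) (fun _ => P) (fun _ => τ) (fun _ => φ)
    (fun _ g => up F (δ g)) (fun _ g => c * up F (Gy.ex0 _ b g)) isOpen_univ hz
    (fun _ => ⟨hP, h2, hτ, hφ, le_top⟩) (fun _ _ _ _ _ => rfl)
    (fun _ => ⟨Syl.ch_le (top_le _) (Gy.ue_hm ha),
      Syl.ch_le (top_le _) (Submodule.smul_mem _ c (Gy.ue_hm bc)),
      fun g hg => by rw [d3 g hg, map_zero], by rw [d2, map_one], cb_le (top_le _) k'⟩)
    (fun D hD => cb_le inf_le_right (h 0 hl.ne_zero.symm D hD))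
    (fun p P' hP' m => by
      by_cases e' : p = l
      · subst e'
        obtain ⟨t, rfl⟩ := Vale.Agent.P027M.F.Tra.trans hl p1 hP'.2.1 p2 hP'.2.2
        exact absurd (fun x => Ideal.smul_mem_pointwise_smul_iff.symm) (m () t trivial)
      · exact cb_le inf_le_right (h p e' _ (Ob.isDec_dec hP')))
  rw [Fintype.sum_unique] at o
  rcases mul_eq_zero.1 o with c0 | b0
  · rw [c0, zero_smul, sub_zero] at k
    exact cb_le (top_le _) k
  exfalso
  have b1 : Gy.ex0 _ b τ = 0 := (up F).injective (b0.trans (map_zero _).symm)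
  have le : ∀ s ∈ inP P, s ∈ ⊤ ⊓ dec P := fun s hs =>
    ⟨trivial, Vale.Agent.P022D.W.inP_le_dec hs⟩
  obtain ⟨U, hU, -, hU0⟩ := Rc.near hb.1
  have b2 : b 1 = 0 := by
    have := hb.2 1 1
    rw [mul_one] at this
    linear_combination -this
  have b3 := Vale.Agent.P022E.GW.H89.kill hP h2 hτ (a := Gy.ex0 _ b)
    (fun s hs t ht => bc.2 ⟨s, le s hs⟩ ⟨t, le t ht⟩)
    ⟨U, hU, fun σ hσ => by
      by_cases m : σ ∈ ⊤ ⊓ dec P
      · exact (Gy.ex0_val _ b ⟨σ, m⟩).trans ((hU0 ⟨σ, m⟩ hσ).trans b2)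
      · exact dif_neg m⟩ b1
  refine n (Unr.unr hl p1 p2 isOpen_univ (Gy.z2_cup ha hb) fun s hs g k => ?_)
  have b4 : b s = 0 := (Gy.ex0_val _ b s).symm.trans (b3 s hs)
  simp only [cup, Subgroup.coe_mul]
  rw [d1 _ g.2.2 _ s.2.2, d3 _ hs, add_zero, hb.2, b4, add_zero]
  exact ⟨rfl, rfl⟩

/-- **row GAIN** -/
theorem gainC : GAIN := by
  intro F _ _ _ rb T D o l₀ hr ho hl hp h2 hA h0 E e x hx
  have fx : ∀ g, mr rb g * Matrix.single 0 0 (1 : F) * mr rb g⁻¹ = Matrix.single 0 0 1 := fun g => by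
    obtain ⟨-, a, b, c, d⟩ := actH hr (g := g) trivial (Matrix.single 0 0 1)
    ext p q
    fin_cases p <;> fin_cases q <;>
      first
        | exact a
        | exact b
        | (refine c.trans ?_; simp)
        | (refine d.trans ?_; simp)
  have z2 : Z2 ⊤ fun g h => o g h 0 0 := by
    refine ⟨((o_lc ho).comp fun m => m 0 0).comp_continuous
      (f := fun p : (⊤ : Subgroup GQ) × (⊤ : Subgroup GQ) => ((p.1 : GQ), (p.2 : GQ)))
      (by fun_prop), fun g h k => ?_⟩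
    have := congrFun (congrFun (ho.coc g h k) 0) 0
    rw [Matrix.add_apply, (actH hr (g := g) trivial _).2.1] at this
    exact this
  have k : Cb E fun g h => o g h 0 0 := by
    refine one0C F _ l₀ hp h2 z2 (fun l ne E' hE' => ?_) E (e ▸ hr.lv.dec l₀ hl)
    by_cases m : l ∈ T
    · obtain ⟨E₀, e₀⟩ := Ob.ex_sub (hr.lv.dec l m)
      have hE₀ : IsDec l (E₀ : Set GQ) := e₀ ▸ hr.lv.dec l m
      obtain ⟨g, rfl⟩ := Ob.ex_Dc hE₀ hE'
      refine cb_le (top_le _) (cj F ⊤ E₀ _ g _ trivial (fun y => ?_) z2 (cb_le inf_le_right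
        (cb_cg (hA l m ne E₀ e₀ _ fun g _ => fx g) fun g _ k _ => (tr_single 0 0 _).symm)))
      rw [Ob.mem_Dc hE₀, show g⁻¹ * (g * y * g⁻¹) * g = y by group]
      rfl
    · obtain ⟨l0, -⟩ | ⟨hq, P, p1, p2, e'⟩ := hE'
      · exact absurd (l0 ▸ hr.lv.h0) m
      obtain rfl : E' = dec P := SetLike.coe_injective e'
      have hP : Ov l P := ⟨hq, p1, p2⟩
      refine cb_le (top_le _) (unrC F ⊤ l P _ isOpen_univ hP (z2_le inf_le_left z2)
        fun g _ h _ u _ hu => ?_)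
      obtain ⟨P', hP', k⟩ := Lf.inert_cj hP h⁻¹
      have k' := k u hu
      rw [inv_inv] at k'
      exact ⟨by rw [o_left ho (ho.unr l m P hP u hu) fun g => (ho.unr l m P' hP' _ k' g).1],
        by rw [o_right ho fun g => (ho.unr l m P hP u hu g).1]⟩
  have t1 : (Matrix.single 0 0 (1 : F) : M2 F).trace = 1 := by
    simp [Matrix.trace_fin_two]
  have q := h0 E e (x - x.trace • Matrix.single 0 0 1)
    (by rw [Matrix.trace_sub, Matrix.trace_smul, t1, smul_eq_mul, mul_one, sub_self])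
    fun g hg => by rw [mul_sub, sub_mul, hx g hg, mul_smul_comm, smul_mul_assoc, fx]
  refine cb_cg (Syl.mem_CS.1 (Submodule.add_mem _ (Syl.mem_CS.2 q)
    (Submodule.smul_mem _ x.trace (Syl.mem_CS.2 k)))) fun a _ b _ => ?_
  simp only [Pi.add_apply, Pi.smul_apply]
  rw [sub_mul, Matrix.trace_sub, smul_mul_assoc, Matrix.trace_smul, tr_single, sub_add_cancel]

end P022G.Lb90.H89
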